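import Vale.Agent.P330.Outer.Four
import Mathlib.FieldTheory.IsAlgClosed.AlgebraicClosure
import Mathlib.LinearAlgebra.Matrix.ToLinearEquiv
import Mathlib.Algebra.Polynomial.BigOperators
import Mathlib.RingTheory.Coprime.Lemmas
import Mathlib.LinearAlgebra.Matrix.Polynomial

/-!
P330, outer system: the distance of the multiplication code.
-/

namespace Vale.Agent.P330.Outer

open Finset Polynomial
open Vale.Agent.P330.Bohr

/-- the field obtained by adjoining one square root -/
def adjSq {K : Type} [Field K] (L : Subfield K) (y : K) (h1 : y ^ 2 ∈ L) (h2 : y ∉ L) :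
    Subfield K where
  carrier := {z | ∃ a ∈ L, ∃ b ∈ L, z = a + b * y}
  one_mem' := ⟨1, L.one_mem, 0, L.zero_mem, by ring⟩
  zero_mem' := ⟨0, L.zero_mem, 0, L.zero_mem, by ring⟩
  mul_mem' := by
    rintro _ _ ⟨a, ha, b, hb, rfl⟩ ⟨c, hc, d, hd, rfl⟩
    exact ⟨a * c + b * d * y ^ 2, L.add_mem (L.mul_mem ha hc) (L.mul_mem (L.mul_mem hb hd) h1),
      a * d + b * c, L.add_mem (L.mul_mem ha hd) (L.mul_mem hb hc), by ring⟩
  add_mem' := by
    rintro _ _ ⟨a, ha, b, hb, rfl⟩ ⟨c, hc, d, hd, rfl⟩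
    exact ⟨a + c, L.add_mem ha hc, b + d, L.add_mem hb hd, by ring⟩
  neg_mem' := by
    rintro _ ⟨a, ha, b, hb, rfl⟩
    exact ⟨-a, L.neg_mem ha, -b, L.neg_mem hb, by ring⟩
  inv_mem' := by
    rintro _ ⟨a, ha, b, hb, rfl⟩
    by_cases hb0 : b = 0
    · exact ⟨a⁻¹, L.inv_mem ha, 0, L.zero_mem, by simp [hb0]⟩
    have h3 : a - b * y ≠ 0 := fun h => h2 (by
      have : y = a / b := by field_simp; linear_combination -h
      rw [this]; exact L.div_mem ha hb)
    have h4 : a + b * y ≠ 0 := fun h => h2 (by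
      have : y = -a / b := by field_simp; linear_combination h
      rw [this]; exact L.div_mem (L.neg_mem ha) hb)
    have h5 : a ^ 2 - b ^ 2 * y ^ 2 ∈ L := L.sub_mem (L.pow_mem ha 2) (L.mul_mem (L.pow_mem hb 2) h1)
    have h6 : a ^ 2 - b ^ 2 * y ^ 2 = (a + b * y) * (a - b * y) := by ring
    refine ⟨a / (a ^ 2 - b ^ 2 * y ^ 2), L.div_mem ha h5, -b / (a ^ 2 - b ^ 2 * y ^ 2),
      L.div_mem (L.neg_mem hb) h5, ?_⟩
    rw [h6]
    field_simp
    ring

/-- products of square roots are linearly independent -/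
theorem indep_sqrt {ι K : Type} [DecidableEq ι] [Field K] (h2 : (2 : K) ≠ 0) (y : ι → K)
    (s : Finset ι) : ∀ L : Subfield K, (∀ ω, y ω ^ 2 ∈ L) →
      (∀ S ⊆ s, S.Nonempty → ∏ ω ∈ S, y ω ∉ L) → ∀ c : Finset ι → K, (∀ S, c S ∈ L) →
      ∑ S ∈ s.powerset, c S * ∏ ω ∈ S, y ω = 0 → ∀ S ⊆ s, c S = 0 := by
  induction s using Finset.induction_on with
  | empty =>
    intro L _ _ c _ h S hS
    rw [subset_empty.1 hS]
    simpa using h
  | insert ω s hω ih =>
    intro L hy hS c hc h
    have h1 : y ω ∉ L := by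
      simpa using hS {ω} (singleton_subset_iff.2 (mem_insert_self _ _)) (singleton_nonempty _)
    have h3 : ∀ S ⊆ s, c S + c (insert ω S) * y ω = 0 := by
      refine ih (adjSq L (y ω) (hy ω) h1) (fun i => ⟨_, hy i, 0, L.zero_mem, by ring⟩) ?_
        (fun S => c S + c (insert ω S) * y ω) (fun S => ⟨_, hc S, _, hc _, rfl⟩) ?_
      · rintro S hSs hne ⟨a, ha, b, hb, h4⟩
        have hωS : ω ∉ S := fun h => hω (hSs h)
        have h5 : (∏ i ∈ S, y i) ^ 2 ∈ L := by
          rw [← prod_pow]; exact L.prod_mem fun i _ => hy i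
        by_cases hb0 : b = 0
        · refine hS S (hSs.trans (subset_insert _ _)) hne ?_
          rw [h4, hb0, zero_mul, add_zero]; exact ha
        by_cases ha0 : a = 0
        · refine hS (insert ω S) (insert_subset_insert _ hSs) (insert_nonempty _ _) ?_
          rw [prod_insert hωS, h4, ha0, zero_add, show y ω * (b * y ω) = b * y ω ^ 2 by ring]
          exact L.mul_mem hb (hy ω)
        refine h1 ?_
        have h6 : y ω = ((∏ i ∈ S, y i) ^ 2 - a ^ 2 - b ^ 2 * y ω ^ 2) / (2 * a * b) := by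
          rw [h4]; field_simp; ring
        rw [h6]
        refine L.div_mem (L.sub_mem (L.sub_mem h5 (L.pow_mem ha 2))
          (L.mul_mem (L.pow_mem hb 2) (hy ω))) (L.mul_mem (L.mul_mem ?_ ha) hb)
        exact_mod_cast natCast_mem L 2
      · rw [sum_powerset_insert hω, ← sum_add_distrib] at h
        rw [← h]
        refine sum_congr rfl fun S hSs => ?_
        rw [prod_insert fun h => hω (mem_powerset.1 hSs h)]
        ring
    have h4 : ∀ S ⊆ s, c (insert ω S) = 0 := by
      intro S hSs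
      by_contra h5
      refine h1 ?_
      have h6 : y ω = -c S / c (insert ω S) := by
        field_simp; linear_combination h3 S hSs
      rw [h6]
      exact L.div_mem (L.neg_mem (hc _)) (hc _)
    intro S hSs
    by_cases h5 : ω ∈ S
    · rw [← insert_erase h5]
      exact h4 _ (subset_insert_iff.1 hSs)
    · have h6 := (subset_insert_iff_of_notMem h5).1 hSs
      have h7 := h3 S h6
      rwa [h4 S h6, zero_mul, add_zero] at h7

variable {m : ℕ}

/-- frequencies as subsets -/
def suppE (m : ℕ) : Gam m ≃ Finset (Fin m) where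
  toFun S := univ.filter fun ω : Fin m => S.get ω ≠ 0
  invFun s := Vec.of fun ω => if ω ∈ s then 1 else 0
  left_inv S := funext fun ω => by
    simp only [Vec.of_apply, mem_filter, mem_univ, true_and]
    rcases zm2 (S ω) with h | h <;> simp [h]
  right_inv s := by ext ω; simp

theorem rp_eq_prod {R : Type} [CommRing R] (y : Fin m → R) (S : Gam m) :
    rp y S = ∏ ω ∈ suppE m S, y ω := by
  change _ = ∏ ω ∈ univ.filter (fun ω : Fin m => S.get ω ≠ 0), y ω
  rw [prod_filter, rp]
  exact prod_congr rfl fun ω _ => by by_cases h : S ω = 0 <;> simp [h]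

variable {F : Type} [Field F]

/-- a product of distinct linear factors times a square is not a square -/
theorem not_sq {a : Fin m → F} (ha : Function.Injective a) {S : Finset (Fin m)} (hS : S.Nonempty)
    {u v : F[X]} (hv : v ≠ 0) (h : (∏ ω ∈ S, (X - C (a ω))) * v ^ 2 = u ^ 2) : False := by
  classical
  obtain ⟨ω, hω⟩ := hS
  have h1 : ∏ i ∈ S.erase ω, (X - C (a i)) ≠ 0 := prod_ne_zero_iff.2 fun i _ => X_sub_C_ne_zero _
  have h2 : rootMultiplicity (a ω) (∏ i ∈ S.erase ω, (X - C (a i))) = 0 := by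
    refine rootMultiplicity_eq_zero fun h0 => ?_
    rw [IsRoot.def, eval_prod, prod_eq_zero_iff] at h0
    obtain ⟨i, hi, h3⟩ := h0
    rw [eval_sub, eval_X, eval_C, sub_eq_zero] at h3
    exact (mem_erase.1 hi).1 (ha h3).symm
  rw [← mul_prod_erase S _ hω] at h
  have h3 := mul_ne_zero (X_sub_C_ne_zero (a ω)) h1
  have h4 := mul_ne_zero h3 (pow_ne_zero 2 hv)
  have hu : u ≠ 0 := fun h0 => h4 (by rw [h, h0]; simp)
  have h5 := congrArg (rootMultiplicity (a ω)) h
  rw [rootMultiplicity_mul h4, rootMultiplicity_mul h3, h2, rootMultiplicity_X_sub_C_self, sq, sq,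
    rootMultiplicity_mul (mul_ne_zero hv hv), rootMultiplicity_mul (mul_ne_zero hu hu)] at h5
  omega

/-- The coordinate ring of the curve embeds in a field. -/
theorem exists_emb (h2 : (2 : F) ≠ 0) {a : Fin m → F} (ha : Function.Injective a) :
    ∃ (K : Type) (_ : Field K) (φ : F[X] →+* K) (y : Fin m → K),
      (∀ ω, y ω ^ 2 = φ (X - C (a ω))) ∧
      ∀ c : Gam m → F[X], ∑ S, φ (c S) * rp y S = 0 → c = 0 := by
  let K := AlgebraicClosure (FractionRing F[X])
  let ψ : FractionRing F[X] →+* K := algebraMap _ _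
  let φ : F[X] →+* K := ψ.comp (algebraMap _ _)
  have hφ : Function.Injective φ := ψ.injective.comp (IsFractionRing.injective _ _)
  choose y hy using fun ω => IsAlgClosed.exists_pow_nat_eq (φ (X - C (a ω))) (n := 2) two_pos
  have hK : (2 : K) ≠ 0 := by
    have : (2 : K) = φ (C 2) := by rw [map_ofNat, map_ofNat]
    rw [this, map_ne_zero_iff φ hφ]
    exact C_ne_zero.2 h2
  refine ⟨K, inferInstance, φ, y, hy, fun c hc => funext fun S => hφ ?_⟩
  have h := indep_sqrt hK y univ ψ.fieldRange (fun ω => by rw [hy]; exact ⟨_, rfl⟩) ?_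
    (fun s => φ (c ((suppE m).symm s))) (fun s => ⟨_, rfl⟩) ?_ (suppE m S) (subset_univ _)
  · simpa using h
  · rintro s - hs ⟨q, hq⟩
    obtain ⟨u, v, hv, rfl⟩ := IsFractionRing.div_surjective (A := F[X]) q
    have hv0 : v ≠ 0 := nonZeroDivisors.ne_zero hv
    have hv1 : φ v ≠ 0 := (map_ne_zero_iff φ hφ).2 hv0
    refine not_sq ha hs hv0 (u := u) (hφ ?_)
    have h3 : φ u / φ v = ∏ ω ∈ s, y ω := by rw [← hq, map_div₀]; rfl
    rw [map_mul, map_pow, map_pow, map_prod]
    simp only [← hy]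
    rw [prod_pow, ← h3, div_pow, div_mul_cancel₀ _ (pow_ne_zero 2 hv1)]
  · rw [powerset_univ, ← hc]
    exact (Fintype.sum_equiv (suppE m) _ _ fun T => by simp [rp_eq_prod]).symm

/-- the matrix of the multiplication by `∑ h S y ^ S` -/
noncomputable def mulM (a : Fin m → F) (h : Gam m → F[X]) : Matrix (Gam m) (Gam m) F[X] :=
  fun U T => h (U + T) * rp (fun ω => X - C (a ω)) (cap (U + T) T)

theorem mulM_hom {K : Type} [CommRing K] (φ : F[X] →+* K) {a : Fin m → F} {y : Fin m → K}
    (hy : ∀ ω, y ω ^ 2 = φ (X - C (a ω))) (h : Gam m → F[X]) (T : Gam m) :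
    ∑ U, rp y U * φ (mulM a h U T) = (∑ S, φ (h S) * rp y S) * rp y T := by
  rw [sum_mul]
  refine Fintype.sum_equiv (Equiv.addRight T) _ _ fun U => ?_
  rw [Equiv.coe_addRight, mulM, map_mul, map_rp, mul_assoc, rp_mul_rp, Gam.add_add]
  simp only [hy]
  ring

theorem det_mulM_ne (h2 : (2 : F) ≠ 0) {a : Fin m → F} (ha : Function.Injective a)
    {h : Gam m → F[X]} (hh : h ≠ 0) : (mulM a h).det ≠ 0 := by
  intro h0
  obtain ⟨v, hv, h1⟩ := Matrix.exists_mulVec_eq_zero_iff.2 h0
  obtain ⟨K, _, φ, y, hy, hi⟩ := exists_emb h2 ha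
  have h3 : (∑ S, φ (h S) * rp y S) * ∑ T, φ (v T) * rp y T = 0 := by
    have h4 : ∑ U, rp y U * φ ((mulM a h).mulVec v U) = 0 := by simp [h1]
    rw [← h4, mul_sum]
    simp only [Matrix.mulVec, dotProduct, map_sum, mul_sum, map_mul]
    rw [sum_comm]
    refine sum_congr rfl fun T _ => ?_
    rw [mul_comm (φ (v T)), ← mul_assoc, ← mulM_hom φ hy, sum_mul]
    exact sum_congr rfl fun U _ => by ring
  rcases mul_eq_zero.1 h3 with h4 | h4
  · exact hh (hi h h4)
  · exact hv (hi v h4)

theorem natDegree_rp_le (a : Fin m → F) (S : Gam m) :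
    (rp (fun ω => X - C (a ω)) S).natDegree ≤ m := by
  refine (natDegree_prod_le _ _).trans ((sum_le_card_nsmul _ _ 1 fun ω _ => ?_).trans (by simp))
  split_ifs
  · simp
  · exact (natDegree_X_sub_C _).le

theorem natDegree_det_mulM (a : Fin m → F) {h : Gam m → F[X]} (hh : ∀ S, (h S).natDegree ≤ m) :
    (mulM a h).det.natDegree ≤ 2 ^ m * (2 * m) := by
  rw [Matrix.det_apply]
  refine natDegree_sum_le_of_forall_le _ _ fun σ _ => ?_
  refine (natDegree_smul_le _ _).trans ((natDegree_prod_le _ _).trans ?_)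
  refine (sum_le_card_nsmul _ _ (2 * m) fun T _ => ?_).trans (by simp [Gam.card])
  refine natDegree_mul_le.trans ?_
  have := hh (σ T + T)
  have := natDegree_rp_le a (cap (σ T + T) T)
  omega

theorem rp_sign (r : Fin m → F) (ε S : Gam m) :
    rp (fun ω => sg F (ε ω) * r ω) S = rp r S * chi F S ε := by
  unfold rp chi
  rw [← prod_mul_distrib]
  refine prod_congr rfl fun ω _ => ?_
  rcases zm2 (S ω) with h | h <;> simp [h, mul_comm]

/-- zeros at the points above `t` give a power of `X - t` in the norm -/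
theorem pow_dvd_det (h2 : (2 : F) ≠ 0) {a r : Fin m → F} {t : F} (hr : ∀ ω, r ω ^ 2 = t - a ω)
    (hr0 : ∀ ω, r ω ≠ 0) (h : Gam m → F[X]) (Z : Finset (Gam m))
    (hZ : ∀ ε ∈ Z, ∑ S, rp r S * (h S).eval t * chi F S ε = 0) :
    (X - C t) ^ Z.card ∣ (mulM a h).det := by
  classical
  let W : Matrix (Gam m) (Gam m) F := fun ε U => rp r U * chi F U ε
  have hW : W.det ≠ 0 := by
    intro h0
    obtain ⟨v, hv, h1⟩ := Matrix.exists_mulVec_eq_zero_iff.2 h0
    refine hv (funext fun S => ?_)
    have h3 : (fun ε => ∑ T, rp r T * v T * chi F T ε) = 0 := by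
      funext ε
      rw [← congrFun h1 ε]
      exact sum_congr rfl fun T _ => by simp only [W]; ring
    have h4 := hat_sum_chi h2 (fun T => rp r T * v T) S
    rw [h3, hat_zero] at h4
    exact (mul_eq_zero.1 h4.symm).resolve_left (rp_ne_zero hr0 S)
  have hrow : ∀ ε ∈ Z, ∀ T, X - C t ∣ (W.map C * mulM a h) ε T := by
    intro ε hε T
    rw [dvd_iff_isRoot, IsRoot.def, Matrix.mul_apply, eval_finsetSum]
    have h3 := mulM_hom (evalRingHom t) (a := a) (y := fun ω => sg F (ε ω) * r ω)
      (fun ω => by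
        rw [mul_pow, sq (sg F _), sg_mul_self, one_mul, hr]; simp) h T
    simp only [rp_sign, coe_evalRingHom] at h3
    have h4 : ∑ S, eval t (h S) * (rp r S * chi F S ε) = 0 := by
      rw [← hZ ε hε]
      exact sum_congr rfl fun S _ => by ring
    rw [h4, zero_mul] at h3
    rw [← h3]
    exact sum_congr rfl fun U _ => by rw [Matrix.map_apply, eval_mul, eval_C]
  have h3 : (X - C t) ^ Z.card ∣ (W.map C * mulM a h).det := by
    rw [Matrix.det_apply']
    refine dvd_sum fun σ _ => Dvd.dvd.mul_left ?_ _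
    have h4 : ∏ T, (W.map C * mulM a h) (σ T) T = ∏ ε, (W.map C * mulM a h) ε (σ.symm ε) :=
      Fintype.prod_equiv σ _ _ fun T => by simp
    rw [h4, ← prod_const]
    exact (prod_dvd_prod_of_dvd _ _ fun ε hε => hrow ε hε _).trans
      (prod_dvd_prod_of_subset _ _ _ (subset_univ Z))
  have h4 : (W.map C).det = C W.det := (RingHom.map_det C W).symm
  rw [Matrix.det_mul, h4] at h3
  exact (IsUnit.dvd_mul_left (isUnit_C.2 hW.isUnit)).1 h3

theorem agDistStmt : AGDistStmt := by
  classical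
  intro m F _ a t r hC g hg
  let h : Gam m → F[X] := fun S => ∑ k : Fin (m + 1), C (hat (g k) S) * X ^ (k : ℕ)
  have hdeg : ∀ S, (h S).natDegree ≤ m := fun S =>
    natDegree_sum_le_of_forall_le _ _ fun k _ =>
      (natDegree_C_mul_X_pow_le _ _).trans (Nat.lt_succ_iff.1 k.2)
  have hh : h = 0 := by
    by_contra hne
    have h1 := det_mulM_ne hC.two hC.inja hne
    let Z : Finset (Gam m) := univ.filter fun ε => ¬ ∃ b, uAll (r b)
      (fun ε' => ∑ k : Fin (m + 1), t b ^ (k : ℕ) * g k ε') ε ≠ 0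
    have h2 : ∀ b, (X - C (t b)) ^ Z.card ∣ (mulM a h).det := by
      intro b
      refine pow_dvd_det hC.two (hC.sq b) (hC.ne b) h Z fun ε hε => ?_
      have h3 := not_not.1 (not_exists.1 (mem_filter.1 hε).2 b)
      rw [uAll_apply hC.two] at h3
      rw [← h3]
      refine sum_congr rfl fun S _ => ?_
      rw [hat_sum]
      simp only [h, eval_finsetSum, eval_mul, eval_C, eval_pow, eval_X, hat_mul,
        mul_comm (hat _ _)]
    have h3 : ∏ b, (X - C (t b)) ^ Z.card ∣ (mulM a h).det :=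
      Fintype.prod_dvd_of_coprime
        (fun b b' hb => (pairwise_coprime_X_sub_C hC.injt hb).pow) h2
    have h4 := (natDegree_le_of_dvd h3 h1).trans (natDegree_det_mulM a hdeg)
    rw [natDegree_prod _ _ fun b _ => pow_ne_zero _ (X_sub_C_ne_zero _)] at h4
    simp only [natDegree_pow, natDegree_X_sub_C, mul_one, sum_const, card_univ, Fintype.card_fin,
      smul_eq_mul] at h4
    have h5 : 2 ^ m < 2 * Z.card := by
      have h6 : (univ.filter fun ε => ∃ b, uAll (r b)
          (fun ε' => ∑ k : Fin (m + 1), t b ^ (k : ℕ) * g k ε') ε ≠ 0).card + Z.card =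
          (univ : Finset (Gam m)).card := by
        convert card_filter_add_card_filter_not (s := (univ : Finset (Gam m)))
          fun ε => ∃ b, uAll (r b) (fun ε' => ∑ k : Fin (m + 1), t b ^ (k : ℕ) * g k ε') ε ≠ 0
      rw [frac_eq, div_lt_div_iff₀ card_pos_real two_pos, one_mul] at hg
      have h7 : (univ.filter fun ε => ∃ b, uAll (r b)
        (fun ε' => ∑ k : Fin (m + 1), t b ^ (k : ℕ) * g k ε') ε ≠ 0).card * 2 <
          Fintype.card (Gam m) := by exact_mod_cast hg
      rw [card_univ, Gam.card] at h6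
      rw [Gam.card] at h7
      omega
    have h6 := Nat.mul_le_mul_right (4 * m) h5.le
    have h7 : 0 < 2 ^ m := by positivity
    nlinarith
  funext k
  refine ext_hat hC.two fun S => ?_
  have h1 := congrArg (fun q => q.coeff k) (congrFun hh S)
  simp only [h, finsetSum_coeff, coeff_C_mul, coeff_X_pow, Pi.zero_apply, coeff_zero, mul_ite,
    mul_one, mul_zero, Fin.val_inj, sum_ite_eq, mem_univ, if_true] at h1
  rw [h1, Pi.zero_apply, hat_zero]

end Vale.Agent.P330.Outer
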