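import Vale.Agent.P330.Outer.Defs
import Mathlib.NumberTheory.SumFourSquares

/-!
P330, outer system: sums of sixteen odd cubes have bounded gaps.
-/

namespace Vale.Agent.P330.Outer

open Vale.Agent.Lib.PolyTime hiding C P
open Vale.Agent.Lib.Dep

namespace AdmP

theorem pair {x a M : ℕ} (hx : Odd x) (h : 4 * M ≤ x ^ 2) (ha : a ^ 2 ≤ M) :
    ∃ u v, Odd u ∧ Odd v ∧ u ^ 3 + v ^ 3 = 2 * x ^ 3 + 24 * x * a ^ 2 := by
  have h1 : 2 * a ≤ x := by
    refine Nat.le_of_not_lt fun h2 => ?_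
    nlinarith
  obtain ⟨t, rfl⟩ := Nat.exists_eq_add_of_le h1
  refine ⟨4 * a + t, t, ?_, ?_, by ring⟩
  · rw [Nat.odd_iff] at hx ⊢; omega
  · rw [Nat.odd_iff] at hx ⊢; omega

theorem adm_of {x y M M' : ℕ} (hx : Odd x) (hy : Odd y) (h : 4 * M ≤ x ^ 2)
    (h' : 4 * M' ≤ y ^ 2) : Adm (8 * x ^ 3 + 8 * y ^ 3 + 24 * (x * M + y * M')) := by
  obtain ⟨a, b, c, d, e⟩ := Nat.sum_four_squares M
  obtain ⟨a', b', c', d', e'⟩ := Nat.sum_four_squares M'
  obtain ⟨u1, v1, p1, q1, r1⟩ := pair (a := a) hx h (by omega)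
  obtain ⟨u2, v2, p2, q2, r2⟩ := pair (a := b) hx h (by omega)
  obtain ⟨u3, v3, p3, q3, r3⟩ := pair (a := c) hx h (by omega)
  obtain ⟨u4, v4, p4, q4, r4⟩ := pair (a := d) hx h (by omega)
  obtain ⟨u5, v5, p5, q5, r5⟩ := pair (a := a') hy h' (by omega)
  obtain ⟨u6, v6, p6, q6, r6⟩ := pair (a := b') hy h' (by omega)
  obtain ⟨u7, v7, p7, q7, r7⟩ := pair (a := c') hy h' (by omega)
  obtain ⟨u8, v8, p8, q8, r8⟩ := pair (a := d') hy h' (by omega)
  refine ⟨![u1, v1, u2, v2, u3, v3, u4, v4, u5, v5, u6, v6, u7, v7, u8, v8], fun i => ?_, ?_⟩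
  · fin_cases i <;> assumption
  · simp only [Fin.sum_univ_succ, Fin.sum_univ_zero, Matrix.cons_val_zero, Matrix.cons_val_succ]
    rw [← e, ← e']
    linarith

/-- the thresholds -/
def th (k : ℕ) : ℕ := 8 * (2 * k + 1) ^ 3 + 8 * (2 * k + 3) ^ 3 + 24 * (2 * k + 1) ^ 2

theorem th_lt (k : ℕ) : th k < th (k + 1) := by
  unfold th
  nlinarith [Nat.zero_le k, Nat.zero_le (k ^ 2), Nat.zero_le (k ^ 3)]

theorem exists_th (L : ℕ) (h : th 12 ≤ L) : ∃ k, 12 ≤ k ∧ th k ≤ L ∧ L < th (k + 1) := by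
  induction L, h using Nat.le_induction with
  | base => exact ⟨12, le_rfl, le_rfl, th_lt 12⟩
  | succ L _ ih =>
    obtain ⟨k, h1, h2, h3⟩ := ih
    by_cases h4 : L + 1 < th (k + 1)
    · exact ⟨k, h1, by omega, h4⟩
    · have := th_lt (k + 1)
      exact ⟨k + 1, by omega, by omega, by omega⟩

theorem exists_adm (L : ℕ) (h : th 12 ≤ L) : ∃ m, L ≤ m ∧ m ≤ L + 48 ∧ Adm m := by
  obtain ⟨k, h1, h2, h3⟩ := exists_th L h
  obtain ⟨D, rfl⟩ := Nat.exists_eq_add_of_le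
    (show 8 * (2 * k + 1) ^ 3 + 8 * (2 * k + 3) ^ 3 ≤ L from (Nat.le_add_right _ _).trans h2)
  unfold th at h2 h3
  have e1 : 2 * k + 3 = 2 * k + 1 + 2 := by ring
  have e2 : 2 * (k + 1) + 1 = 2 * k + 1 + 2 := by ring
  have e3 : 2 * (k + 1) + 3 = 2 * k + 1 + 4 := by ring
  have hx : Odd (2 * k + 1) := odd_two_mul_add_one k
  have hx0 : 25 ≤ 2 * k + 1 := by omega
  rw [e2, e3] at h3
  rw [e1] at h2 h3 ⊢
  generalize 2 * k + 1 = x at *
  have h4 : 24 * (x * x) ≤ D := by nlinarith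
  have h5 : D < 120 * (x * x) + 480 * x + 608 := by nlinarith
  have h6 := Nat.div_add_mod (D / 24 + 2) x
  have h7 := Nat.mod_lt (D / 24 + 2) (show 0 < x by omega)
  have h8 : x ≤ (D / 24 + 2) / x := (Nat.le_div_iff_mul_le (by omega)).2 (by omega)
  have h9 : (D / 24 + 2) / x < 5 * x + 22 := by
    refine (Nat.div_lt_iff_lt_mul (by omega)).2 ?_
    have : (5 * x + 22) * x = 5 * (x * x) + 22 * x := by ring
    omega
  generalize (D / 24 + 2) / x = S at *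
  generalize (D / 24 + 2) % x = r at *
  obtain ⟨M, rfl⟩ := Nat.exists_eq_add_of_le (show r / 2 ≤ S by omega)
  have h10 : x * M + (x + 2) * (r / 2) = x * (r / 2 + M) + 2 * (r / 2) := by ring
  refine ⟨_, ?_, ?_, adm_of (M := M) (M' := r / 2) hx (hx.add_even even_two) ?_ ?_⟩
  · rw [h10]; omega
  · rw [h10]; omega
  · nlinarith [Nat.zero_le (r / 2)]
  · have : r / 2 ≤ x := by omega
    nlinarith

end AdmP

open AdmP in
/-- O1a: admissible dimensions. -/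
theorem admStmt : AdmStmt := by
  refine ⟨⟨th 12 + 48, fun L => ?_⟩, ?_⟩
  · obtain ⟨m, h1, h2, h3⟩ := exists_adm (max L (th 12)) (le_max_right _ _)
    exact ⟨m, (le_max_left _ _).trans h1, by omega, h3⟩
  have hu : DPT fun u : Un => u.v := DPT.ofPT (PT.unVal PT.id)
  have hb : PBd fun u : Un => u.v := PBd.unVal (A := ∅) PT.id
  have he : DPT fun u : Un => elems (Vec (Fin 16) (Fin (u.v + 1))) :=
    dpt_elems_vec (DPT.const _) (by fun_prop) (((hb.add (PBd.const 1)).pow 16).mono fun u => by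
      rw [length_elems, length_elems, Fintype.card_fin, Fintype.card_fin])
  have hv : DPT fun y : Σ _ : (Σ u : Un, Vec (Fin 16) (Fin (u.v + 1))), Fin 16 =>
      (y.1.2 y.2 : ℕ) :=
    dpt_finVal (dpt_vecEnt (V := fun _ => Fin 16)
      (T := fun x : Σ u : Un, Vec (Fin 16) (Fin (u.v + 1)) => Fin (x.1.v + 1)) (DPT.const _)
      DPT.ssnd)
  have h1 : DPr fun u : Un => ∃ n : Vec (Fin 16) (Fin (u.v + 1)),
      (∀ i, (n i : ℕ) % 2 = 1) ∧ ∑ i, (n i : ℕ) ^ 3 = u.v :=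
    dpr_exists he (DPr.and
      (dpr_forall (DPT.const _) (DPr.eq (hv.natMod (DPT.const 2)) (DPT.const 1)))
      (DPr.eq (dpt_natSum (DPT.const _) (hv.natPow (DPT.const 3) (PBd.const 3)))
        (hu.comp DPT.id.sfst)))
  refine h1.congr fun u => ⟨fun ⟨n, h2, h3⟩ => ⟨fun i => n i, fun i => Nat.odd_iff.2 (h2 i), h3⟩,
    fun ⟨n, h2, h3⟩ => ?_⟩
  have h4 : ∀ i, n i < u.v + 1 := fun i => by
    have h5 : n i ^ 3 ≤ u.v :=
      h3 ▸ Finset.single_le_sum (f := fun i => n i ^ 3) (fun _ _ => Nat.zero_le _)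
        (Finset.mem_univ i)
    have h6 : n i ≤ n i ^ 3 := Nat.le_self_pow (by norm_num) _
    omega
  exact ⟨fun i => ⟨n i, h4 i⟩, fun i => Nat.odd_iff.1 (h2 i), h3⟩

end Vale.Agent.P330.Outer
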