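import Vale.Agent.P330.Outer.GrpDefs

/-!
P330, outer system: boundedly many orbits with one-sided bias. The cyclic case is a union bound
over linear recurrences; the general case follows by tensor products.
-/

namespace Vale.Agent.P330.Outer.BiasP

open Finset

/-- The words `w i` detect every nonzero function on the group `T` with probability `β`. -/
def Good {T ι : Type} [AddCommGroup T] [Fintype T] [Fintype ι] (w : ι → T → ZMod 2) (β : ℝ) :
    Prop :=
  ∀ a : T → ZMod 2, a ≠ 0 → β ≤ frac fun x : ι × T => ∑ s, a (x.2 + s) * w x.1 s ≠ 0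

section Cyc

variable {n : ℕ}

/-- the shifted function -/
def sh (a : ZMod n → ZMod 2) (t : ZMod n) : ZMod n → ZMod 2 := fun s => a (t + s)

/-- the first `k` shifts are independent -/
def Ind (k : ℕ) (a : ZMod n → ZMod 2) : Prop :=
  LinearIndependent (ZMod 2) fun j : Fin k => sh a ((j : ℕ) : ZMod n)

/-- a linear recurrence of order `k` -/
def Rec (k : ℕ) (c : Fin k → ZMod 2) (a : ZMod n → ZMod 2) : Prop :=
  ∀ t, a (k + t) = ∑ j : Fin k, c j * a (((j : ℕ) : ZMod n) + t)

theorem exists_order [NeZero n] {a : ZMod n → ZMod 2} (ha : a ≠ 0) :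
    ∃ k ∈ Ico 1 (n + 1), Ind k a ∧ ∃ c, Rec k c a := by
  classical
  have hn : ¬ Ind (n + 1) a := fun h => by
    have h1 : (0 : Fin (n + 1)) = Fin.last n := h.injective (by simp)
    exact NeZero.ne n (by simpa using (congrArg Fin.val h1).symm)
  have hex : ∃ k, ¬ Ind (k + 1) a := ⟨n, hn⟩
  have h0 : Ind (0 + 1) a := by
    refine (linearIndependent_unique_iff (ι := Fin 1)).2 fun h => ha ?_
    funext s
    simpa [sh] using congrFun h s
  have hpos : Nat.find hex ≠ 0 := fun h => by
    have := Nat.find_spec hex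
    rw [h] at this
    exact this h0
  obtain ⟨k, hk⟩ := Nat.exists_eq_succ_of_ne_zero hpos
  have hI : Ind (k + 1) a := not_not.1 (Nat.find_min hex (by omega))
  have hle : Nat.find hex ≤ n := Nat.find_min' hex hn
  have hs := Nat.find_spec hex
  rw [hk] at hs
  refine ⟨k + 1, mem_Ico.2 ⟨by omega, by omega⟩, hI, ?_⟩
  unfold Ind at hs
  rw [linearIndependent_finSucc', not_and, not_not] at hs
  obtain ⟨c, hc⟩ := (Submodule.mem_span_range_iff_exists_fun _).1 (hs hI)
  refine ⟨c, fun t => ?_⟩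
  have h2 := congrFun hc t
  simp only [Finset.sum_apply, Pi.smul_apply, smul_eq_mul, Fin.init, sh, Fin.val_castSucc,
    Fin.val_last] at h2
  exact h2.symm

theorem Rec.ext [NeZero n] {k : ℕ} {c : Fin k → ZMod 2} {a a' : ZMod n → ZMod 2} (h : Rec k c a)
    (h' : Rec k c a') (h0 : ∀ j : Fin k, a ((j : ℕ) : ZMod n) = a' ((j : ℕ) : ZMod n)) :
    a = a' := by
  have key : ∀ i : ℕ, a (i : ZMod n) = a' (i : ZMod n) := by
    intro i
    induction i using Nat.strong_induction_on with
    | _ i ih =>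
      by_cases hi : i < k
      · exact h0 ⟨i, hi⟩
      · obtain ⟨t, rfl⟩ := Nat.exists_eq_add_of_le (not_lt.1 hi)
        rw [Nat.cast_add, h, h']
        refine Finset.sum_congr rfl fun j _ => ?_
        rw [← Nat.cast_add, ih _ (by have := j.2; omega)]
  funext s
  rw [← ZMod.natCast_zmod_val s]
  exact key _

open Classical in
theorem card_rec [NeZero n] (k : ℕ) :
    (univ.filter fun a : ZMod n → ZMod 2 => Ind k a ∧ ∃ c, Rec k c a).card ≤ 4 ^ k := by
  have h4 : (univ : Finset ((Fin k → ZMod 2) × (Fin k → ZMod 2))).card = 4 ^ k := by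
    simp only [card_univ, Fintype.card_prod, Fintype.card_fun, ZMod.card, Fintype.card_fin]
    rw [← mul_pow]
    rfl
  rw [← h4]
  refine Finset.card_le_card_of_injOn
    (fun a => (if h : ∃ c, Rec k c a then h.choose else 0, fun j => a ((j : ℕ) : ZMod n)))
    (fun _ _ => mem_univ _) ?_
  intro a ha a' ha' h
  have h1 := (mem_filter.1 (Finset.mem_coe.1 ha)).2.2
  have h2 := (mem_filter.1 (Finset.mem_coe.1 ha')).2.2
  simp only [dif_pos h1, dif_pos h2, Prod.mk.injEq] at h
  exact h1.choose_spec.ext (h.1 ▸ h2.choose_spec) fun j => congrFun h.2 j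

/-- the parities of the shifts `u + j` -/
def par [NeZero n] (k : ℕ) (a : ZMod n → ZMod 2) (u : ZMod n) (ι : Type) :
    (ι → ZMod n → ZMod 2) →+ (ι × Fin k → ZMod 2) where
  toFun W x := ∑ s, a (u + ((x.2 : ℕ) : ZMod n) + s) * W x.1 s
  map_zero' := by
    funext x
    simp
  map_add' W W' := by
    funext x
    simp [mul_add, sum_add_distrib]

theorem par_surj [NeZero n] {k : ℕ} {a : ZMod n → ZMod 2} (h : Ind k a) (u : ZMod n) (ι : Type) :
    Function.Surjective (par k a u ι) := by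
  classical
  let M : Matrix (Fin k) (ZMod n) (ZMod 2) := fun j s => sh a ((j : ℕ) : ZMod n) s
  have hr : M.rank = Fintype.card (Fin k) := LinearIndependent.rank_matrix h
  have ht : LinearMap.range M.mulVecLin = ⊤ := by
    apply Submodule.eq_top_of_finrank_eq
    rw [Module.finrank_fintype_fun_eq_card]
    exact hr
  have hs : Function.Surjective M.mulVecLin := LinearMap.range_eq_top.1 ht
  intro b
  choose v hv using fun i : ι => hs fun j => b (i, j)
  refine ⟨fun i s => v i (u + s), ?_⟩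
  funext x
  have h1 : ∑ s, a (((x.2 : ℕ) : ZMod n) + s) * v x.1 s = b x := congrFun (hv x.1) x.2
  rw [← h1, ← Equiv.sum_comp (Equiv.addLeft u)]
  change ∑ s, a (u + ((x.2 : ℕ) : ZMod n) + s) * v x.1 (u + s) = _
  refine Finset.sum_congr rfl fun s _ => ?_
  simp only [Equiv.coe_addLeft]
  congr 2
  ring

theorem mean_pow_wt {J : Type} [Fintype J] [DecidableEq J] (z : ℝ) :
    mean (fun b : J → ZMod 2 => z ^ (univ.filter fun j => b j ≠ 0).card) =
      ((1 + z) / 2) ^ Fintype.card J := by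
  have h1 : ∀ b : J → ZMod 2, z ^ (univ.filter fun j => b j ≠ 0).card =
      ∏ j, if b j ≠ 0 then z else 1 := fun b => by
    rw [prod_ite, prod_const, prod_const_one, mul_one]
  simp only [h1]
  unfold mean
  have h2 := Finset.prod_univ_sum (R := ℝ) (fun _ : J => (univ : Finset (ZMod 2)))
    fun _ y => if y ≠ 0 then z else 1
  rw [Fintype.piFinset_univ] at h2
  rw [← h2]
  have h3 : (∑ y : ZMod 2, if y ≠ 0 then z else (1 : ℝ)) = 1 + z := by
    rw [show (univ : Finset (ZMod 2)) = {0, 1} by decide, sum_pair (by decide)]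
    simp
  simp only [h3, prod_const, card_univ, Fintype.card_fun, ZMod.card]
  rw [div_pow]
  push_cast
  rfl

/-- The probability that the function `a` is not detected. -/
theorem frac_bad [NeZero n] {k : ℕ} (hk : 1 ≤ k) {a : ZMod n → ZMod 2} (h : Ind k a) :
    frac (fun W : Fin 16 → ZMod n → ZMod 2 =>
      frac (fun x : Fin 16 × ZMod n => ∑ s, a (x.2 + s) * W x.1 s ≠ 0) < 1 / 16) ≤
        2 * (1 / 16) ^ k := by
  classical
  let Y : (Fin 16 → ZMod n → ZMod 2) → ZMod n → ℕ :=
    fun W u => (univ.filter fun j => par k a u (Fin 16) W j ≠ 0).card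
  let z : ℝ := (3 / 4) ^ 8
  have hz : 0 ≤ z := by positivity
  have hk' : (0 : ℝ) < k := by exact_mod_cast hk
  have hm : mean (fun W => mean fun u => z ^ Y W u) = ((1 + z) / 2) ^ (16 * k) := by
    rw [mean_comm]
    have : ∀ u, mean (fun W => z ^ Y W u) = ((1 + z) / 2) ^ (16 * k) := fun u => by
      have h1 := (Bal.of_surj_hom _ (par_surj h u (Fin 16))).mean_eq
        fun b => z ^ (univ.filter fun j => b j ≠ 0).card
      rw [mean_pow_wt] at h1
      simpa using h1
    simp only [this, mean_const]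
  have hY : ∀ W, mean (fun u => (Y W u : ℝ)) =
      16 * k * frac fun x : Fin 16 × ZMod n => ∑ s, a (x.2 + s) * W x.1 s ≠ 0 := fun W => by
    have h1 : ∀ u, (Y W u : ℝ) =
        16 * k * frac fun j : Fin 16 × Fin k => par k a u (Fin 16) W j ≠ 0 := fun u => by
      rw [frac_eq]
      simp only [Y, Fintype.card_prod, Fintype.card_fin]
      push_cast
      field_simp
    simp only [h1]
    rw [mean_const_mul, mean_frac_comm, mean_prod', frac_prod]
    congr 1
    have : Nonempty (Fin k) := ⟨⟨0, hk⟩⟩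
    refine Eq.trans (mean_congr fun j => ?_) (mean_const (C := Fin k) _)
    refine mean_congr fun i => ?_
    exact frac_equiv (Equiv.addRight ((j : ℕ) : ZMod n))
      fun y => ∑ s, a (y + s) * W i s ≠ 0
  refine (frac_le_markov (f := fun W => mean fun u => z ^ Y W u) (t := (3 / 4) ^ (16 * k) / 2)
    (fun W => mean_nonneg fun u => pow_nonneg hz _) (by positivity) (fun W hW => ?_) hm.le).trans ?_
  · have h1 : mean (fun u => (Y W u : ℝ)) ≤ k := by
      rw [hY]
      nlinarith
    have h2 := markov_lt (t := 2 * k) (fun u => Nat.cast_nonneg (Y W u)) (by positivity) h1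
    have h3 : (k : ℝ) / (2 * k) = 1 / 2 := by field_simp
    rw [h3] at h2
    have h4 := frac_mul_le_mean (p := fun u => ¬ (2 * k : ℝ) < Y W u)
      (f := fun u => z ^ Y W u) (t := (3 / 4) ^ (16 * k)) (fun u => pow_nonneg hz _) fun u hu => by
        have h5 : Y W u ≤ 2 * k := by exact_mod_cast not_lt.1 hu
        simp only [z]
        rw [← pow_mul]
        exact pow_le_pow_of_le_one (by norm_num) (by norm_num) (by omega)
    rw [frac_not] at h4
    have h6 : (0 : ℝ) < (3 / 4) ^ (16 * k) := by positivity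
    nlinarith
  · rw [div_div_eq_mul_div, mul_comm, mul_div_assoc, ← div_pow, pow_mul]
    gcongr
    simp only [z]
    norm_num

theorem good_cyc (n : ℕ) [NeZero n] : ∃ w : Fin 16 → ZMod n → ZMod 2, Good w (1 / 16) := by
  classical
  let A : ℕ → Finset (ZMod n → ZMod 2) :=
    fun k => univ.filter fun a => Ind k a ∧ ∃ c, Rec k c a
  let bad : (ZMod n → ZMod 2) → (Fin 16 → ZMod n → ZMod 2) → Prop :=
    fun a W => frac (fun x : Fin 16 × ZMod n => ∑ s, a (x.2 + s) * W x.1 s ≠ 0) < 1 / 16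
  have h1 : frac (fun W => ∃ k ∈ Ico 1 (n + 1), ∃ a ∈ A k, bad a W) < 1 := by
    refine (frac_exists_mem_le _ _).trans_lt ?_
    have h2 : ∀ k ∈ Ico 1 (n + 1), frac (fun W => ∃ a ∈ A k, bad a W) ≤ 2 * (1 / 4) ^ k := by
      intro k hk
      refine (frac_exists_mem_le _ _).trans ?_
      refine (sum_le_sum fun a ha => frac_bad (mem_Ico.1 hk).1 (mem_filter.1 ha).2.1).trans ?_
      rw [sum_const, nsmul_eq_mul]
      have h3 : ((A k).card : ℝ) ≤ 4 ^ k := by exact_mod_cast card_rec k
      calc ((A k).card : ℝ) * (2 * (1 / 16) ^ k) ≤ 4 ^ k * (2 * (1 / 16) ^ k) := by gcongr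
        _ = 2 * (1 / 4) ^ k := by
          rw [mul_left_comm, ← mul_pow]
          norm_num
    refine (sum_le_sum h2).trans_lt ?_
    rw [← mul_sum]
    have h4 := geom_sum_Ico_le_of_lt_one (x := (1 / 4 : ℝ)) (m := 1) (n := n + 1) (by norm_num)
      (by norm_num)
    norm_num at h4 ⊢
    linarith
  obtain ⟨W, hW⟩ := exists_not_of_frac_lt_one h1
  refine ⟨W, fun a ha => not_lt.1 fun hb => hW ?_⟩
  obtain ⟨k, hk, hI⟩ := exists_order ha
  exact ⟨k, hk, a, mem_filter.2 ⟨mem_univ _, hI⟩, hb⟩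

end Cyc

theorem Good.prod {T T' ι ι' : Type} [AddCommGroup T] [Fintype T] [Fintype ι] [AddCommGroup T']
    [Fintype T'] [Fintype ι'] {w : ι → T → ZMod 2} {w' : ι' → T' → ZMod 2} {β β' : ℝ}
    (hβ : 0 ≤ β') (h : Good w β) (h' : Good w' β') :
    Good (fun (i : ι × ι') (s : T × T') => w i.1 s.1 * w' i.2 s.2) (β * β') := by
  intro a ha
  obtain ⟨s0, hs0⟩ := Function.ne_iff.1 ha
  have h1 := h (fun s => a (s, s0.2)) (Function.ne_iff.2 ⟨s0.1, hs0⟩)
  rw [← frac_equiv (Equiv.prodProdProdComm ι T ι' T'), frac_prod, mul_comm]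
  refine (mul_le_mul_of_nonneg_left h1 hβ).trans
    (frac_mul_le_mean (fun _ => frac_nonneg _) fun x hx => ?_)
  refine (h' (fun s' => ∑ s, a (x.2 + s, s') * w x.1 s) (Function.ne_iff.2 ⟨s0.2, hx⟩)).trans
    (le_of_eq (frac_congr fun y => ?_))
  rw [Fintype.sum_prod_type, sum_comm]
  simp only [Equiv.prodProdProdComm_apply, Prod.mk_add_mk, sum_mul, mul_assoc]

theorem Good.equiv {T T' ι : Type} [AddCommGroup T] [Fintype T] [Fintype ι] [AddCommGroup T']
    [Fintype T'] (e : T ≃+ T') {w : ι → T' → ZMod 2} {β : ℝ} (h : Good w β) :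
    Good (fun i s => w i (e s)) β := by
  intro a ha
  obtain ⟨s0, hs0⟩ := Function.ne_iff.1 ha
  have h1 := h (fun s => a (e.symm s)) (Function.ne_iff.2 ⟨e s0, by simpa using hs0⟩)
  rw [← frac_equiv ((Equiv.refl ι).prodCongr e.toEquiv)] at h1
  refine h1.trans (le_of_eq (frac_congr fun x => ?_))
  rw [← Equiv.sum_comp e.toEquiv]
  simp

/-- the coordinates -/
def e3 (R : Type) [AddCommGroup R] : (Fin 3 → R) ≃+ R × R × R where
  toFun f := (f 0, f 1, f 2)
  invFun p := ![p.1, p.2.1, p.2.2]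
  left_inv f := by
    funext i
    fin_cases i <;> rfl
  right_inv _ := rfl
  map_add' _ _ := rfl

end Vale.Agent.P330.Outer.BiasP

namespace Vale.Agent.P330.Outer

open Finset BiasP

theorem biasStmt : BiasStmt := by
  classical
  let ι : Type := Fin 16 × Fin 16 × Fin 16 × Fin 16
  refine ⟨Fintype.card ι, 1 / 16 * (1 / 16 * (1 / 16 * (1 / 16))), by norm_num, ?_⟩
  intro n _ _ Ω _ _ _ base hb
  obtain ⟨w, hw⟩ := good_cyc n
  have h3 := (hw.prod (by norm_num) (hw.prod (by norm_num) hw)).equiv (e3 (ZMod n))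
  set w3 : Fin 16 × Fin 16 × Fin 16 → (Fin 3 → ZMod n) → ZMod 2 := fun i s =>
    (fun (i : Fin 16 × Fin 16 × Fin 16) (s : ZMod n × ZMod n × ZMod n) =>
      w i.1 s.1 * (w i.2.1 s.2.1 * w i.2.2 s.2.2)) i (e3 (ZMod n) s)
  let W : ι → Ω → ZMod 2 := fun i ω => ∑ s, if s +ᵥ base i.1 = ω then w3 i.2 s else 0
  refine ⟨fun i => W ((Fintype.equivFin ι).symm i), fun a ha => ?_⟩
  obtain ⟨ω, hω⟩ := Function.ne_iff.1 ha
  obtain ⟨i0, t0, rfl⟩ := hb ω
  have h4 := h3 (fun s => a (s +ᵥ base i0)) (Function.ne_iff.2 ⟨t0, hω⟩)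
  rw [← frac_equiv ((Fintype.equivFin ι).prodCongr (Equiv.refl _))]
  simp only [Equiv.prodCongr_apply, Prod.map_fst, Prod.map_snd, Equiv.symm_apply_apply,
    Equiv.coe_refl, id]
  rw [← frac_equiv (Equiv.prodAssoc (Fin 16) (Fin 16 × Fin 16 × Fin 16) (Fin 3 → ZMod n)).symm,
    frac_prod]
  have h5 := frac_mul_le_mean (p := fun i : Fin 16 => i = i0)
    (f := fun i => frac fun y : (Fin 16 × Fin 16 × Fin 16) × (Fin 3 → ZMod n) =>
      ∑ ω, a (y.2 +ᵥ ω) * W (i, y.1) ω ≠ 0) (t := 1 / 16 * (1 / 16 * (1 / 16)))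
    (fun _ => frac_nonneg _) fun i hi => by
      subst hi
      refine h4.trans (le_of_eq (frac_congr fun y => ?_))
      simp only [W, mul_sum, mul_ite, mul_zero]
      rw [sum_comm]
      simp only [sum_ite_eq, mem_univ, if_true, add_vadd]
  rw [frac_eq_single, Fintype.card_fin] at h5
  refine le_trans (le_of_eq ?_) h5
  norm_num

end Vale.Agent.P330.Outer
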