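import Vale.Agent.P330.Outer.Defs

/-!
P330, outer system: greedy construction of the curve with many split points.
-/

set_option linter.unusedSectionVars false

namespace Vale.Agent.P330.Outer

open Vale.Agent.Lib.PolyTime hiding C P
open Vale.Agent.Lib.Dep
open Vale.Agent.P330.Bohr

namespace CurveP

section Math

variable {F : Type} [Field F] [Fintype F] [En F]

/-- nonzero squares -/
def Sq (s : F) : Prop := ∃ r : F, r ≠ 0 ∧ r * r = s

/-- points at which all the differences are nonzero squares -/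
def Spl (A : List F) (t : F) : Prop := ∀ x ∈ A, Sq (t - x)

open Classical in
/-- the number of such points -/
noncomputable def cnt (A : List F) : ℕ := (Finset.univ.filter (Spl A)).card

/-- one greedy step -/
noncomputable def step (A : List F) : List F :=
  firstD (fun a => a ∉ A ∧ ∀ a', a' ∉ A → cnt (a' :: A) ≤ cnt (a :: A)) 0 :: A

theorem frac_sq : (Fintype.card F - 1 : ℝ) / (2 * Fintype.card F) ≤ frac (Sq : F → Prop) := by
  classical
  have h1 : (Finset.univ.erase (0 : F)).card ≤ 2 * ((Finset.univ.erase (0 : F)).image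
      fun r => r * r).card := by
    refine Finset.card_le_mul_card_image _ _ fun s hs => ?_
    obtain ⟨r, -, rfl⟩ := Finset.mem_image.1 hs
    refine (Finset.card_le_card (t := {r, -r}) fun x hx => ?_).trans Finset.card_le_two
    have := (Finset.mem_filter.1 hx).2
    simpa using mul_self_eq_mul_self_iff.1 this
  have h2 : ((Finset.univ.erase (0 : F)).image fun r => r * r).card ≤
      (Finset.univ.filter (Sq : F → Prop)).card := by
    refine Finset.card_le_card fun s hs => ?_
    obtain ⟨r, hr, rfl⟩ := Finset.mem_image.1 hs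
    exact Finset.mem_filter.2 ⟨Finset.mem_univ _, r, (Finset.mem_erase.1 hr).1, rfl⟩
  rw [Finset.card_erase_of_mem (Finset.mem_univ _), Finset.card_univ] at h1
  have h3 : Fintype.card F ≤ 2 * (Finset.univ.filter (Sq : F → Prop)).card + 1 := by omega
  have h4 : (Fintype.card F : ℝ) ≤ 2 * (Finset.univ.filter (Sq : F → Prop)).card + 1 := by
    exact_mod_cast h3
  have h5 := card_pos_real (C := F)
  rw [frac_eq, div_le_div_iff₀ (by positivity) h5]
  nlinarith

theorem frac_spl (A : List F) : frac (Spl A) = cnt A / Fintype.card F := by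
  classical
  rw [frac_eq, cnt]

theorem frac_mem_le (A : List F) : frac (fun a => a ∈ A) ≤ A.length / Fintype.card F := by
  classical
  rw [frac_eq]
  refine div_le_div_of_nonneg_right ?_ (by positivity)
  have h1 : (Finset.univ.filter fun a => a ∈ A) = A.toFinset := by
    ext a; simp
  rw [h1]
  exact_mod_cast A.toFinset_card_le

theorem step_spec {A : List F} (hA : A.length < Fintype.card F) : ∃ a, step A = a :: A ∧ a ∉ A ∧
    frac (Spl A) * (frac (Sq : F → Prop) - A.length / Fintype.card F) ≤ frac (Spl (a :: A)) := by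
  classical
  have hq := card_pos_real (C := F)
  have hne : (Finset.univ.filter fun a => a ∉ A).Nonempty := by
    obtain ⟨a, ha⟩ := exists_not_of_frac_lt_one ((frac_mem_le A).trans_lt
      ((div_lt_one hq).2 (by exact_mod_cast hA)))
    exact ⟨a, Finset.mem_filter.2 ⟨Finset.mem_univ _, ha⟩⟩
  obtain ⟨a₀, ha₀, hmax⟩ := Finset.exists_max_image _ (fun a => cnt (a :: A)) hne
  have hs := firstD_spec (q := fun a => a ∉ A ∧ ∀ a', a' ∉ A → cnt (a' :: A) ≤ cnt (a :: A))
    ⟨a₀, (Finset.mem_filter.1 ha₀).2,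
      fun a' ha' => hmax a' (Finset.mem_filter.2 ⟨Finset.mem_univ _, ha'⟩)⟩ 0
  refine ⟨_, rfl, hs.1, ?_⟩
  set a₁ := firstD (fun a => a ∉ A ∧ ∀ a', a' ∉ A → cnt (a' :: A) ≤ cnt (a :: A)) 0
  have h1 : mean (fun a : F => frac (Spl (a :: A))) = frac (Spl A) * frac (Sq : F → Prop) := by
    rw [mean_frac_comm fun (a t : F) => Spl (a :: A) t, frac_eq_mean (Spl A), ← mean_mul_const]
    refine mean_congr fun t => ?_
    split_ifs with ht
    · rw [one_mul, ← frac_equiv (Equiv.subLeft t) Sq]
      exact frac_congr fun a => by simpa [Spl] using fun _ => ht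
    · rw [zero_mul]
      exact frac_eq_zero fun a ha => ht fun x hx => ha x (List.mem_cons_of_mem _ hx)
  have h2 := mean_le_add_frac (p := fun a => a ∈ A) (f := fun a : F => frac (Spl (a :: A)))
    (a := frac (Spl (a₁ :: A))) (b := frac (Spl A)) (frac_nonneg _) (fun a ha => by
      rw [frac_spl, frac_spl]
      exact div_le_div_of_nonneg_right (by exact_mod_cast hs.2 a ha) hq.le) fun a _ => by
      have h3 : frac (Spl (a :: A)) ≤ frac (Spl A) :=
        frac_mono fun t ht x hx => ht x (List.mem_cons_of_mem _ hx)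
      linarith [frac_nonneg (Spl (a₁ :: A))]
  have h4 := mul_le_mul_of_nonneg_left (frac_mem_le A) (frac_nonneg (Spl A))
  rw [mul_sub]
  linarith

theorem iter_spec {m : ℕ} (hm : 2 * m + 1 ≤ Fintype.card F) (k : ℕ) (hk : k ≤ m) :
    (step^[k] ([] : List F)).length = k ∧ (step^[k] ([] : List F)).Nodup ∧
      1 - k * ((2 * m + 1 : ℝ) / Fintype.card F) ≤ 2 ^ k * frac (Spl (step^[k] ([] : List F))) := by
  have hq := card_pos_real (C := F)
  induction k with
  | zero =>
    refine ⟨rfl, List.nodup_nil, ?_⟩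
    rw [frac_eq_one (p := Spl (step^[0] ([] : List F))) fun t x hx => by simp at hx]
    simp
  | succ k ih =>
    obtain ⟨h1, h2, h3⟩ := ih (by omega)
    rw [Function.iterate_succ_apply']
    obtain ⟨a, ha, hna, hb⟩ := step_spec (A := step^[k] ([] : List F)) (by omega)
    rw [ha]
    refine ⟨by rw [List.length_cons, h1], List.nodup_cons.2 ⟨hna, h2⟩, ?_⟩
    set c : ℝ := (2 * m + 1 : ℝ) / Fintype.card F with hc
    have hc0 : 0 ≤ c := by positivity
    have hc1 : c ≤ 1 := (div_le_one hq).2 (by exact_mod_cast hm)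
    have h4 : (1 - c) / 2 ≤ frac (Sq : F → Prop) - (step^[k] ([] : List F)).length /
        Fintype.card F := by
      have h5 : ((step^[k] ([] : List F)).length : ℝ) / Fintype.card F ≤ m / Fintype.card F :=
        div_le_div_of_nonneg_right (by rw [h1]; exact_mod_cast (by omega : k ≤ m)) hq.le
      have h6 : (1 - c) / 2 = (Fintype.card F - 1 : ℝ) / (2 * Fintype.card F) -
          m / Fintype.card F := by
        rw [hc]; field_simp; ring
      linarith [frac_sq (F := F)]
    have h7 := (mul_le_mul_of_nonneg_left h4 (frac_nonneg _)).trans hb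
    have h8 := mul_le_mul_of_nonneg_left h7 (by positivity : (0 : ℝ) ≤ 2 ^ (k + 1))
    have h9 := mul_le_mul_of_nonneg_right h3 (sub_nonneg.2 hc1)
    have h10 : (0 : ℝ) ≤ k * c * c := by positivity
    push_cast
    rw [pow_succ] at h8 ⊢
    nlinarith

theorem cnt_ge {m : ℕ} (hm : 2 ^ m * (m + 2) ^ 3 ≤ Fintype.card F) :
    2 * m + 1 ≤ Fintype.card F ∧ 8 * m + 1 ≤ cnt (step^[m] ([] : List F)) := by
  have hq := card_pos_real (C := F)
  have h0 : 1 ≤ 2 ^ m := Nat.one_le_two_pow
  have h1 : 2 * m + 1 ≤ Fintype.card F := by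
    refine le_trans ?_ hm
    nlinarith [Nat.zero_le (m ^ 3), Nat.zero_le (m ^ 2)]
  refine ⟨h1, ?_⟩
  have h2 := (iter_spec h1 m le_rfl).2.2
  rw [frac_spl, ← mul_div_assoc, ← mul_div_assoc, le_div_iff₀ hq, sub_mul,
    div_mul_cancel₀ _ hq.ne', one_mul] at h2
  have h3 : Fintype.card F ≤ 2 ^ m * cnt (step^[m] ([] : List F)) + m * (2 * m + 1) := by
    have : (Fintype.card F : ℝ) ≤ 2 ^ m * cnt (step^[m] ([] : List F)) + m * (2 * m + 1) := by
      linarith
    exact_mod_cast this
  by_contra hc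
  have h4 : cnt (step^[m] ([] : List F)) ≤ 8 * m := by omega
  have h5 : 2 ^ m * (m + 2) ^ 3 ≤ 2 ^ m * (8 * m + m * (2 * m + 1)) := by
    have := Nat.mul_le_mul_left (2 ^ m) h4
    have := Nat.mul_le_mul_right (m * (2 * m + 1)) h0
    nlinarith
  have h6 := Nat.le_of_mul_le_mul_left h5 (by omega)
  nlinarith [Nat.zero_le (m ^ 3), Nat.zero_le (m ^ 2)]

open Classical in
/-- the list of the split points -/
noncomputable def splL (A : List F) : List F := (elems F).filter fun t => decide (Spl A t)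

theorem length_splL (A : List F) : (splL A).length = cnt A := by
  classical
  rw [cnt, splL, ← List.toFinset_card_of_nodup ((En.nodup (V := F)).filter _)]
  congr 1
  ext t
  simp [mem_elems]

theorem getD_injective {l : List F} (hl : l.Nodup) {n : ℕ} (hn : n ≤ l.length) :
    Function.Injective fun i : Fin n => l.getD i 0 := by
  intro i j h
  simp only [List.getD_eq_getElem _ _ (i.2.trans_le hn), List.getD_eq_getElem _ _ (j.2.trans_le hn)]
    at h
  exact Fin.ext ((List.Nodup.getElem_inj_iff hl).1 h)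

theorem getD_mem {l : List F} {i : ℕ} (hi : i < l.length) : l.getD i 0 ∈ l := by
  rw [List.getD_eq_getElem _ _ hi]
  exact List.getElem_mem _

/-- a square root -/
noncomputable def rt (s : F) : F := firstD (fun r => r ≠ 0 ∧ r * r = s) 0

theorem curve {m : ℕ} (hm : 2 ^ m * (m + 2) ^ 3 ≤ Fintype.card F) (h2 : (2 : F) ≠ 0) :
    Curve m F (fun ω => (step^[m] ([] : List F)).getD ω 0)
      (fun b => (splL (step^[m] ([] : List F))).getD b 0)
      fun b ω => rt ((splL (step^[m] ([] : List F))).getD b 0 - (step^[m] ([] : List F)).getD ω 0) := by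
  classical
  obtain ⟨h1, h3⟩ := cnt_ge hm
  obtain ⟨h4, h5, -⟩ := iter_spec h1 m le_rfl
  rw [← length_splL] at h3
  have h6 : ∀ (b : Fin (8 * m + 1)) (ω : Fin m), Sq ((splL (step^[m] ([] : List F))).getD b 0 -
      (step^[m] ([] : List F)).getD ω 0) := by
    intro b ω
    have h7 := getD_mem (b.2.trans_le h3)
    have h8 : Spl (step^[m] ([] : List F)) ((splL (step^[m] ([] : List F))).getD b 0) :=
      of_decide_eq_true (List.mem_filter.1 h7).2
    exact h8 _ (getD_mem (ω.2.trans_eq h4.symm))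
  exact ⟨h2, getD_injective h5 h4.ge, getD_injective ((En.nodup (V := F)).filter _) h3,
    fun b ω => by rw [sq]; exact (firstD_spec (h6 b ω) 0).2, fun b ω => (firstD_spec (h6 b ω) 0).1⟩

end Math

section PT

variable {α : Type} [Enc α] {p : α → ℕ} [∀ a, Fact (p a).Prime]

theorem dpr_sq (hp : DPT p) (hb : PBd p) {s : ∀ a, ZMod (p a)} (hs : DPT s) :
    DPr fun a => Sq (s a) := by
  have hR := PTRing.zmod hp
  unfold Sq
  fun_prop

theorem dpr_spl (hp : DPT p) (hb : PBd p) {A : ∀ a, List (ZMod (p a))} {t : ∀ a, ZMod (p a)}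
    (hA : DPT A) (ht : DPT t) : DPr fun a => Spl (A a) (t a) := by
  have hR := PTRing.zmod hp
  exact DPr.forall_mem hA (dpr_sq (by fun_prop) (by fun_prop) (by fun_prop))

theorem dpt_cnt (hp : DPT p) (hb : PBd p) {A : ∀ a, List (ZMod (p a))} (hA : DPT A) :
    DPT fun a => cnt (A a) := by
  classical
  exact dpt_cardFilter (q := fun a => Spl (A a)) (dpt_elems_zmod hp hb)
    (dpr_spl (by fun_prop) (by fun_prop) (by fun_prop) DPT.ssnd)

theorem dpt_step (hp : DPT p) (hb : PBd p) {A : ∀ a, List (ZMod (p a))} (hA : DPT A) :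
    DPT fun a => step (A a) := by
  have hR := PTRing.zmod hp
  refine DPT.cons (dpt_firstD (dpt_elems_zmod hp hb) (DPr.and (by fun_prop) ?_) hR.zero) hA
  refine dpr_forall (dpt_elems_zmod (by fun_prop) (by fun_prop)) (dpr_imp (by fun_prop) ?_)
  exact DPr.le (dpt_cnt (by fun_prop) (by fun_prop) (by fun_prop))
    (dpt_cnt (by fun_prop) (by fun_prop) (by fun_prop))

theorem length_iter {F : Type} [Field F] [Fintype F] [En F] (k : ℕ) :
    (step^[k] ([] : List F)).length = k := by
  induction k with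
  | zero => rfl
  | succ k ih => rw [Function.iterate_succ_apply', step, List.length_cons, ih]

theorem dpt_iter (hp : DPT p) (hb : PBd p) {m : α → ℕ} (hm : DPT m) (hmb : PBd m) :
    DPT fun a => step^[m a] ([] : List (ZMod (p a))) := by
  obtain ⟨b, hb', h⟩ := exists_esize_le (dpt_elems_zmod hp hb)
  refine DPT.iterate (f := fun _ => step) (b := fun a => m a * (2 * b a + 1)) hm hmb DPT.nil
    (dpt_step (by fun_prop) (by fun_prop) DPT.ssnd) (by fun_prop) fun a j hj => ?_
  refine (esize_list_le fun x _ => h a x).trans ?_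
  rw [length_iter]
  exact Nat.mul_le_mul_right _ hj

theorem dpt_splL (hp : DPT p) (hb : PBd p) {A : ∀ a, List (ZMod (p a))} (hA : DPT A) :
    DPT fun a => splL (A a) := by
  classical
  exact DPT.filter (dpt_elems_zmod hp hb)
    (DPT.decide (dpr_spl (by fun_prop) (by fun_prop) (by fun_prop) (by fun_prop)))

theorem dpt_rt (hp : DPT p) (hb : PBd p) {s : ∀ a, ZMod (p a)} (hs : DPT s) :
    DPT fun a => rt (s a) := by
  have hR := PTRing.zmod hp
  unfold rt
  fun_prop

end PT

end CurveP

open CurveP in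
theorem curveStmt : CurveStmt := by
  refine ⟨3, fun π hL => ?_⟩
  have hpar := π.ptPar
  have hp : DPT fun I => π.p (π.par I) := π.ptp.comp hpar
  have hb := π.pbp
  have hm : DPT fun I => π.m (π.par I) := π.ptm.comp hpar
  have hmb : PBd fun I => π.m (π.par I) := pbd_comp π.pbm hpar
  have hR := PTRing.zmod hp
  have hA := dpt_iter hp hb hm hmb
  have hT := dpt_splL hp hb hA
  have hm8 : DPT fun I => 8 * π.m (π.par I) + 1 := by fun_prop
  have hmb8 : PBd fun I => 8 * π.m (π.par I) + 1 := by fun_prop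
  have e1 := dpt_elems_fin hm hmb
  have e2 := dpt_elems_fin hm8 hmb8
  have ha : DPT fun I => (Vec.of fun ω : Fin (π.m (π.par I)) =>
      (step^[π.m (π.par I)] ([] : List (ZMod (π.p (π.par I))))).getD ω 0) :=
    dpt_vecMk e1 (DPT.getD (hA.comp DPT.id.sfst) (dpt_finVal DPT.ssnd) (hR.zero.comp DPT.id.sfst))
  have ht : DPT fun I => (Vec.of fun b : Fin (8 * π.m (π.par I) + 1) =>
      (splL (step^[π.m (π.par I)] ([] : List (ZMod (π.p (π.par I)))))).getD b 0) :=
    dpt_vecMk e2 (DPT.getD (hT.comp DPT.id.sfst) (dpt_finVal DPT.ssnd) (hR.zero.comp DPT.id.sfst))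
  have c1 : DPT fun x : Σ y : (Σ I, Fin (8 * π.m (π.par I) + 1)), Fin (π.m (π.par y.1)) =>
      x.1.1 := DPT.id.sfst.sfst
  have hr := dpt_rt (hp.comp c1) (pbd_comp (b := fun I => π.p (π.par I)) hb c1) (DPT.sub (hR.comp c1)
    (dpt_vecAt (e2.comp c1) (ht.comp c1) (DPT.ssnd.comp DPT.id.sfst))
    (dpt_vecAt (e1.comp c1) (ha.comp c1) DPT.ssnd))
  have hr' := dpt_vecOf (f := fun (y : Σ I, Fin (8 * π.m (π.par I) + 1))
    (ω : Fin (π.m (π.par y.1))) =>
      rt ((splL (step^[π.m (π.par y.1)] ([] : List (ZMod (π.p (π.par y.1)))))).getD y.2 0 -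
        (step^[π.m (π.par y.1)] ([] : List (ZMod (π.p (π.par y.1))))).getD ω 0))
    (e1.comp DPT.id.sfst) hr
  refine ⟨_, _, _, ha, ht, dpt_vecOf (f := fun I (b : Fin (8 * π.m (π.par I) + 1)) =>
    Vec.of fun ω : Fin (π.m (π.par I)) =>
      rt ((splL (step^[π.m (π.par I)] ([] : List (ZMod (π.p (π.par I)))))).getD b 0 -
        (step^[π.m (π.par I)] ([] : List (ZMod (π.p (π.par I))))).getD ω 0)) e2 hr',
    fun I => curve (m := π.m (π.par I)) (F := ZMod (π.p (π.par I)))
      (by rw [ZMod.card]; exact hL _) ?_⟩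
  · intro h
    have h1 : ((2 : ℕ) : ZMod (π.p (π.par I))) = 0 := by exact_mod_cast h
    have h2 := Nat.le_of_dvd (by norm_num) ((ZMod.natCast_eq_zero_iff _ _).1 h1)
    have h3 := hL (π.par I)
    have h4 : 1 ≤ 2 ^ π.m (π.par I) := Nat.one_le_two_pow
    have h5 : 2 ^ 3 ≤ (π.m (π.par I) + 2) ^ 3 := Nat.pow_le_pow_left (by omega) _
    nlinarith

end Vale.Agent.P330.Outer
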