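import Vale.Agent.P330.Stmts
import Vale.Agent.P330.BasicPT
import Vale.Agent.P330.Bohr.Line

/-!
P330, outer system: machines whose registers are functions on the cube, typed outer systems,
the group package, and the statements of the parts.
-/

namespace Vale.Agent.P330.Outer

open Vale.Agent.Lib.PolyTime hiding C P
open Vale.Agent.Lib.Dep
open Vale.Agent.P330.Bohr

/-- the cube -/
abbrev Gam (m : ℕ) : Type := Vec (Fin m) (ZMod 2)

/-- the unit vectors -/
def eV {m : ℕ} (ω : Fin m) : Gam m := fun i => if i = ω then 1 else 0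

/-- linear instructions: linear combination of registers, shift of a register, public word -/
abbrev LIns (m : ℕ) (F : Type) : Type := List (F × ℕ) ⊕ (Fin m × ℕ) ⊕ ℕ

/-- the result of a linear instruction -/
def LIns.eval {m : ℕ} {F : Type} [CommRing F] (pub r : ℕ → Gam m → F) : LIns m F → Gam m → F
  | .inl l => fun ε => (l.map fun c => c.1 * r c.2 ε).sum
  | .inr (.inl c) => fun ε => r c.2 (ε + eV c.1)
  | .inr (.inr i) => pub i

/-- instructions of vector machines: linear instructions and pointwise products -/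
abbrev VIns (m : ℕ) (F : Type) : Type := LIns m F ⊕ (ℕ × ℕ)

/-- the result of an instruction -/
def VIns.eval {m : ℕ} {F : Type} [CommRing F] (pub r : ℕ → Gam m → F) : VIns m F → Gam m → F
  | .inl c => c.eval pub r
  | .inr c => fun ε => r c.1 ε * r c.2 ε

/-- Straight-line programs: the registers `i < k` are given, the register `i ≥ k` is computed from
the earlier ones (later ones are read as zero). -/
def run {W : Type} [Zero W] (k : ℕ) (ev : ℕ → (ℕ → W) → W) (x : ℕ → W) (i : ℕ) : W :=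
  if i < k then x i else ev i fun j => if _ : j < i then run k ev x j else 0

theorem run_eq {W : Type} [Zero W] (k : ℕ) (ev : ℕ → (ℕ → W) → W) (x : ℕ → W) (i : ℕ) :
    run k ev x i = if i < k then x i else ev i fun j => if j < i then run k ev x j else 0 := by
  rw [run]
  rfl

/-! ### Vector machines -/

/-- A vector machine: the state is one function `z` on the cube (register `0`); a fixed program
with `n` registers computes successor, predecessor, the flag and the registers which have to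
vanish. The start state is the public word `0`. -/
structure VM (m : ℕ) (F : Type) where
  /-- number of registers -/
  n : ℕ
  /-- the program -/
  ins : ℕ → VIns m F
  /-- the registers which have to vanish -/
  zero : ℕ → Bool
  /-- the register of the successor -/
  suc : ℕ
  /-- the register of the predecessor -/
  pre : ℕ
  /-- the register of the flag -/
  fst : ℕ

namespace VM

variable {m : ℕ} {F : Type} [CommRing F] (M : VM m F) (pub : ℕ → Gam m → F)

/-- the registers -/
def reg (z : Gam m → F) : ℕ → Gam m → F :=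
  run 1 (fun i r => (M.ins i).eval pub r) fun _ => z

/-- valid states -/
def Valid (z : Gam m → F) : Prop := ∀ i < M.n, M.zero i = true → M.reg pub z i = 0

/-- edges -/
def Step (z z' : Gam m → F) : Prop :=
  M.Valid pub z ∧ M.Valid pub z' ∧ z' ≠ pub 0 ∧ z' = M.reg pub z M.suc ∧ z = M.reg pub z' M.pre

/-- sinks, and sources other than the start state -/
def End (z : Gam m → F) : Prop :=
  M.Valid pub z ∧ ((¬ ∃ z', M.Step pub z z') ∨ (z ≠ pub 0 ∧ ¬ ∃ z', M.Step pub z' z))

/-- well formed machines -/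
structure Ok : Prop where
  pos : 1 ≤ M.n
  suc : M.suc < M.n
  pre : M.pre < M.n
  fst : M.fst < M.n
  pubz : ∀ i, M.n ≤ i → pub i = 0
  start : M.Valid pub (pub 0)
  flag1 : M.reg pub (pub 0) M.fst = 1
  flag0 : ∀ z, M.Valid pub z → z ≠ pub 0 → M.reg pub z M.fst = 0

end VM

/-! ### Machines with control and linear programs -/

/-- A machine with control `κ` (`nc` field elements), `k` given registers and a linear program
which depends on the control. `rt` is a test on the values of all registers at one point, `nxt`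
and `prv` give the next and the previous control from these values. -/
structure GM (m nc : ℕ) (F : Type) where
  /-- number of given registers -/
  k : ℕ
  /-- number of registers -/
  n : ℕ
  /-- the program -/
  ins : Vec (Fin nc) F → ℕ → LIns m F
  /-- the registers which hold the next given registers -/
  sucR : Vec (Fin nc) F → ℕ → ℕ
  /-- the registers which hold the previous given registers -/
  preR : Vec (Fin nc) F → ℕ → ℕ
  /-- the registers which have to vanish -/
  zero : Vec (Fin nc) F → ℕ → Bool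
  /-- the pointwise test -/
  rt : Vec (Fin nc) F → Gam m → List F → Bool
  /-- the next control -/
  nxt : Vec (Fin nc) F → Gam m → List F → Vec (Fin nc) F
  /-- the previous control -/
  prv : Vec (Fin nc) F → Gam m → List F → Vec (Fin nc) F
  /-- the control of the start state -/
  st : Vec (Fin nc) F

namespace GM

variable {m nc : ℕ} {F : Type} [CommRing F] (M : GM m nc F) (pub : ℕ → Gam m → F)

/-- the registers -/
def reg (κ : Vec (Fin nc) F) (x : Fin M.k → Gam m → F) : ℕ → Gam m → F :=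
  run M.k (fun i r => (M.ins κ i).eval pub r) fun i => if h : i < M.k then x ⟨i, h⟩ else 0

/-- the values of all registers at a point -/
def roots (κ : Vec (Fin nc) F) (x : Fin M.k → Gam m → F) (ε : Gam m) : List F :=
  (List.range M.n).map fun i => M.reg pub κ x i ε

/-- valid states -/
def Valid (κ : Vec (Fin nc) F) (x : Fin M.k → Gam m → F) : Prop :=
  (∀ ε, M.rt κ ε (M.roots pub κ x ε) = true) ∧ ∀ i < M.n, M.zero κ i = true → M.reg pub κ x i = 0

/-- edges -/
def Step (κ : Vec (Fin nc) F) (x : Fin M.k → Gam m → F) (κ' : Vec (Fin nc) F)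
    (x' : Fin M.k → Gam m → F) : Prop :=
  M.Valid pub κ x ∧ M.Valid pub κ' x' ∧ κ' ≠ M.st ∧
    (∀ ε, M.nxt κ ε (M.roots pub κ x ε) = κ') ∧ (∀ r, x' r = M.reg pub κ x (M.sucR κ r)) ∧
    (∀ ε, M.prv κ' ε (M.roots pub κ' x' ε) = κ) ∧ ∀ r, x r = M.reg pub κ' x' (M.preR κ' r)

/-- sinks, and sources other than the start state -/
def End (κ : Vec (Fin nc) F) (x : Fin M.k → Gam m → F) : Prop :=
  M.Valid pub κ x ∧ ((¬ ∃ κ' x', M.Step pub κ x κ' x') ∨
    (κ ≠ M.st ∧ ¬ ∃ κ' x', M.Step pub κ' x' κ x))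

/-- well formed machines with a robust pointwise test -/
structure Ok : Prop where
  le : M.k ≤ M.n
  sucR : ∀ κ r, M.sucR κ r < M.n
  preR : ∀ κ r, M.preR κ r < M.n
  pubz : ∀ i, M.n ≤ i → pub i = 0
  robust : ∀ κ x, frac (fun ε => M.rt κ ε (M.roots pub κ x ε) = false) < 1 / 2 →
    ∀ ε, M.rt κ ε (M.roots pub κ x ε) = true
  const : ∀ κ x, M.Valid pub κ x → ∀ ε ε',
    M.nxt κ ε (M.roots pub κ x ε) = M.nxt κ ε' (M.roots pub κ x ε') ∧
      M.prv κ ε (M.roots pub κ x ε) = M.prv κ ε' (M.roots pub κ x ε')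
  start : M.Valid pub M.st 0
  uniq : ∀ x, M.Valid pub M.st x → x = 0

end GM

/-- the dimensions for which the group package exists -/
def Adm (m : ℕ) : Prop := ∃ n : Fin 16 → ℕ, (∀ i, Odd (n i)) ∧ ∑ i, n i ^ 3 = m

/-- Small parameters: the type `β`, the parameter of an instance (of polylogarithmic length),
the dimension of the cube and the prime. -/
structure Par where
  /-- the type of the parameters -/
  β : Type
  [enc : Enc β]
  /-- the parameter of an instance -/
  par : EOL → β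
  /-- the dimension of the cube -/
  m : β → ℕ
  /-- the prime -/
  p : β → ℕ
  [prime : ∀ b, Fact (p b).Prime]
  ptPar : DPT par
  plPar : PL fun I => esize (par I)
  ptm : DPT m
  pbm : PBd m
  ptp : DPT p
  pbp : PBd fun I => p (par I)
  adm : ∀ b, Adm (m b)
  ql : QL fun I => 2 ^ m (par I)

attribute [instance] Par.enc Par.prime

/-- The prime is large. -/
def Par.Large (π : Par) (e : ℕ) : Prop := ∀ b, 2 ^ π.m b * (π.m b + 2) ^ e ≤ π.p b

/-- A family of vector machines which solves End-of-Line. -/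
structure VMOk (π : Par) (M : ∀ b, VM (π.m b) (ZMod (π.p b)))
    (pub : ∀ I, ℕ → Gam (π.m (π.par I)) → ZMod (π.p (π.par I)))
    (dec : ∀ I, Vec (Gam (π.m (π.par I))) (ZMod (π.p (π.par I))) → List Bool) : Prop where
  ptn : DPT fun b => (M b).n
  pbn : PBd fun b => (M b).n
  ins : DPT fun x : π.β × ℕ => (M x.1).ins x.2
  zero : DPT fun x : π.β × ℕ => (M x.1).zero x.2
  suc : DPT fun b => (M b).suc
  pre : DPT fun b => (M b).pre
  fst : DPT fun b => (M b).fst
  ptPub : DPT fun x : Σ I, ℕ × Gam (π.m (π.par I)) => pub x.1 x.2.1 x.2.2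
  ptDec : DPT fun x : Σ I, Vec (Gam (π.m (π.par I))) (ZMod (π.p (π.par I))) => dec x.1 x.2
  ok : ∀ I, (M (π.par I)).Ok (pub I)
  ends : ∀ I z, (M (π.par I)).End (pub I) z → I.Solution (dec I z)

/-- A family of machines with control which solves End-of-Line. -/
structure GMOk (π : Par) (nc : π.β → ℕ) (M : ∀ b, GM (π.m b) (nc b) (ZMod (π.p b)))
    (pub : ∀ I, ℕ → Gam (π.m (π.par I)) → ZMod (π.p (π.par I)))
    (dec : ∀ I, Vec (Fin (nc (π.par I))) (ZMod (π.p (π.par I))) →
      Vec (Fin (M (π.par I)).k) (Vec (Gam (π.m (π.par I))) (ZMod (π.p (π.par I)))) → List Bool) :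
    Prop where
  ptc : DPT nc
  pbc : PBd nc
  ptk : DPT fun b => (M b).k
  pbk : PBd fun b => (M b).k
  ptn : DPT fun b => (M b).n
  pbn : PBd fun b => (M b).n
  ins : DPT fun x : Σ b, Vec (Fin (nc b)) (ZMod (π.p b)) × ℕ => (M x.1).ins x.2.1 x.2.2
  sucR : DPT fun x : Σ b, Vec (Fin (nc b)) (ZMod (π.p b)) × ℕ => (M x.1).sucR x.2.1 x.2.2
  preR : DPT fun x : Σ b, Vec (Fin (nc b)) (ZMod (π.p b)) × ℕ => (M x.1).preR x.2.1 x.2.2
  zero : DPT fun x : Σ b, Vec (Fin (nc b)) (ZMod (π.p b)) × ℕ => (M x.1).zero x.2.1 x.2.2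
  rt : DPT fun x : Σ b, Vec (Fin (nc b)) (ZMod (π.p b)) × Gam (π.m b) × List (ZMod (π.p b)) =>
    (M x.1).rt x.2.1 x.2.2.1 x.2.2.2
  nxt : DPT fun x : Σ b, Vec (Fin (nc b)) (ZMod (π.p b)) × Gam (π.m b) × List (ZMod (π.p b)) =>
    (M x.1).nxt x.2.1 x.2.2.1 x.2.2.2
  prv : DPT fun x : Σ b, Vec (Fin (nc b)) (ZMod (π.p b)) × Gam (π.m b) × List (ZMod (π.p b)) =>
    (M x.1).prv x.2.1 x.2.2.1 x.2.2.2
  st : DPT fun b => (M b).st
  ptPub : DPT fun x : Σ I, ℕ × Gam (π.m (π.par I)) => pub x.1 x.2.1 x.2.2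
  ptDec : DPT fun x : Σ I, Vec (Fin (nc (π.par I))) (ZMod (π.p (π.par I))) ×
    Vec (Fin (M (π.par I)).k) (Vec (Gam (π.m (π.par I))) (ZMod (π.p (π.par I)))) =>
      dec x.1 x.2.1 x.2.2
  ok : ∀ I, (M (π.par I)).Ok (pub I)
  ends : ∀ I κ x, (M (π.par I)).End (pub I) κ x → I.Solution (dec I κ x)

/-- O1: End-of-Line as a family of vector machines, with a prime as large as desired. -/
def VMStmt : Prop :=
  ∀ e : ℕ, ∃ (π : Par) (M : ∀ b, VM (π.m b) (ZMod (π.p b))) (pub : _) (dec : _),
    π.Large e ∧ VMOk π M pub dec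

/-- O2: from vector machines to machines with control (new parameters are allowed). -/
def GMStmt : Prop :=
  ∀ e : ℕ, ∃ (π : Par) (nc : π.β → ℕ) (M : ∀ b, GM (π.m b) (nc b) (ZMod (π.p b))) (pub : _)
    (dec : _), π.Large e ∧ GMOk π nc M pub dec

/-- O1a: admissible dimensions are dense. -/
def AdmStmt : Prop :=
  (∃ c, ∀ L, ∃ m, L ≤ m ∧ m ≤ L + c ∧ Adm m) ∧ DPr fun u : Un => Adm u.v

/-- one layer of a routing network: every point keeps its value or takes the value of its
neighbour in the direction `ω` -/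
def layer {m : ℕ} {W : Type} (ω : Fin m) (μ : Gam m → Bool) (x : Gam m → W) : Gam m → W :=
  fun ε => if μ ε then x (ε + eV ω) else x ε

/-- O1b: routing. Every map `f` of the cube is realised on the half cube `ε 0 = 0` by a network
with a fixed schedule of directions. -/
def RouteStmt : Prop :=
  ∃ (len : ℕ → ℕ) (dir : ∀ m, ℕ → Fin (m + 1))
    (msk : ∀ m, Vec (Gam (m + 1)) (Gam (m + 1)) → ℕ → Gam (m + 1) → Bool),
    DPT (fun u : Un => len u.v) ∧ PBd (fun u : Un => len u.v) ∧
    DPT (fun x : Un × ℕ => dir x.1.v x.2) ∧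
    DPT (fun x : Σ u : Un, Vec (Gam (u.v + 1)) (Gam (u.v + 1)) × ℕ × Gam (u.v + 1) =>
      msk x.1.v x.2.1 x.2.2.1 x.2.2.2) ∧
    ∀ m (f : Vec (Gam (m + 1)) (Gam (m + 1))) (W : Type) (x : Gam (m + 1) → W) (ε : Gam (m + 1)),
      (∀ ε', f ε' 0 = 0) → ε 0 = 0 →
      (List.range (len m)).foldl (fun y i => layer (dir m i) (msk m f i) y) x ε = x (f ε)

/-! ### The multiplication code -/

/-- the operator `P⁺ + r P⁻` in the direction `ω` -/
def uOp {m : ℕ} {F : Type} [Field F] (r : F) (ω : Fin m) (x : Gam m → F) : Gam m → F :=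
  fun ε => (1 + r) / 2 * x ε + (1 - r) / 2 * x (ε + eV ω)

/-- the product of the operators `uOp (r ω) ω` -/
def uAll {m : ℕ} {F : Type} [Field F] (r : Fin m → F) (x : Gam m → F) : Gam m → F :=
  (List.finRange m).foldl (fun y ω => uOp (r ω) ω y) x

/-- The data of the curve `y ω ^ 2 = t - a ω` with `8 m + 1` split points. -/
structure Curve (m : ℕ) (F : Type) [Field F] (a : Fin m → F) (t : Fin (8 * m + 1) → F)
    (r : Fin (8 * m + 1) → Fin m → F) : Prop where
  two : (2 : F) ≠ 0
  inja : Function.Injective a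
  injt : Function.Injective t
  sq : ∀ b ω, r b ω ^ 2 = t b - a ω
  ne : ∀ b ω, r b ω ≠ 0

/-- O2a: distance of the multiplication code. -/
def AGDistStmt : Prop :=
  ∀ (m : ℕ) (F : Type) [Field F] (a : Fin m → F) (t : Fin (8 * m + 1) → F)
    (r : Fin (8 * m + 1) → Fin m → F), Curve m F a t r → ∀ g : Fin (m + 1) → Gam m → F,
    frac (fun ε => ∃ b, uAll (r b) (fun ε' => ∑ k : Fin (m + 1), t b ^ (k : ℕ) * g k ε') ε ≠ 0) < 1 / 2 → g = 0

/-- O2b: the curve exists for large primes and is found in time polynomial in the prime. -/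
def CurveStmt : Prop :=
  ∃ e : ℕ, ∀ π : Par, π.Large e →
    ∃ (a : ∀ I, Vec (Fin (π.m (π.par I))) (ZMod (π.p (π.par I))))
      (t : ∀ I, Vec (Fin (8 * π.m (π.par I) + 1)) (ZMod (π.p (π.par I))))
      (r : ∀ I, Vec (Fin (8 * π.m (π.par I) + 1)) (Vec (Fin (π.m (π.par I))) (ZMod (π.p (π.par I))))),
      DPT a ∧ DPT t ∧ DPT r ∧ ∀ I, Curve _ _ (a I) (t I) (r I)

/-! ### Typed outer systems -/

/-- An outer system whose symbols and constants are vectors of field elements. -/
structure TOS (π : Par) (c : ℕ) where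
  /-- index set of the symbols -/
  J : TF π.β
  /-- index set of the constants -/
  Jc : TF π.β
  /-- the sites -/
  Q : TF EOL
  /-- the sites which are read -/
  rd : ∀ I, Fin 4 → Q.T I → Fin c → Q.T I
  /-- the constants of the sites -/
  cst : ∀ I, Q.T I → Vec (Jc.T (π.par I)) (ZMod (π.p (π.par I)))
  /-- the start word -/
  st : ∀ I, Q.T I → Vec (J.T (π.par I)) (ZMod (π.p (π.par I)))
  /-- the test -/
  tf : ∀ b, Vec (Jc.T b) (ZMod (π.p b)) → (Fin c → Vec (J.T b) (ZMod (π.p b))) → Bool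
  /-- correction `1`, successor `2`, predecessor `3` -/
  fn : ∀ b, Fin 4 → Vec (Jc.T b) (ZMod (π.p b)) → (Fin c → Vec (J.T b) (ZMod (π.p b))) →
    Vec (J.T b) (ZMod (π.p b))

/-- the line system -/
def TOS.sys {π : Par} {c : ℕ} (O : TOS π c) (I : EOL) :
    LRLS 0 c (O.Q.T I) Unit (Vec (O.J.T (π.par I)) (ZMod (π.p (π.par I)))) where
  tst q _ := ⟨fun j => (none, O.rd I 0 q j), O.tf _ (O.cst I q)⟩
  cor q _ := ⟨fun j => (none, O.rd I 1 q j), O.fn _ 1 (O.cst I q)⟩
  suc q _ := ⟨fun j => (none, O.rd I 2 q j), O.fn _ 2 (O.cst I q)⟩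
  pre q _ := ⟨fun j => (none, O.rd I 3 q j), O.fn _ 3 (O.cst I q)⟩
  out q _ := ⟨fun j => (none, O.rd I 1 q j), O.fn _ 1 (O.cst I q)⟩
  st := O.st I

/-- What is required of a typed outer system. -/
structure TOSOk {π : Par} {c : ℕ} (O : TOS π c) (K Δ θ h : ℝ)
    (dec : ∀ I, Vec (O.Q.T I) (Vec (O.J.T (π.par I)) (ZMod (π.p (π.par I)))) → List Bool) :
    Prop where
  posΔ : 0 < Δ
  posθ : 0 < θ
  posh : 0 < h
  rd : ∀ o j, DPT fun x : Σ I, O.Q.T I => O.rd x.1 o x.2 j
  cst : DPT fun x : Σ I, O.Q.T I => O.cst x.1 x.2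
  st : DPT fun x : Σ I, O.Q.T I => O.st x.1 x.2
  tf : DPT fun x : Σ b, Vec (O.Jc.T b) (ZMod (π.p b)) × (Fin c → Vec (O.J.T b) (ZMod (π.p b))) =>
    O.tf x.1 x.2.1 x.2.2
  fn : ∀ o, DPT fun x : Σ b, Vec (O.Jc.T b) (ZMod (π.p b)) ×
    (Fin c → Vec (O.J.T b) (ZMod (π.p b))) => O.fn x.1 o x.2.1 x.2.2
  card : QL fun I => Fintype.card (O.Q.T I)
  ptDec : DPT fun x : Σ I, Vec (O.Q.T I) (Vec (O.J.T (π.par I)) (ZMod (π.p (π.par I)))) =>
    dec x.1 x.2
  bal : ∀ I, (O.sys I).Bal K
  good : ∀ I, (O.sys I).Good noInp Δ θ h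
  sound : ∀ I W, frac (fun q => ((O.sys I).tst q ()).eval noInp W = false) ≤ θ →
    ∃ W', (O.sys I).Valid noInp W' ∧ frac (fun q => W q ≠ W' q) ≤ h / 4
  start : ∀ I, (O.sys I).Start noInp
  ends : ∀ I W, (O.sys I).End noInp W → I.Solution (dec I W)

/-- O3: the typed outer system. -/
def TOSStmt : Prop :=
  ∃ (π : Par) (c : ℕ) (O : TOS π c) (K Δ θ h : ℝ) (dec : _), TOSOk O K Δ θ h dec

end Vale.Agent.P330.Outer
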