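import Vale.Agent.P330.Outer.GrpDefs

/-!
P330, outer system: basic facts on the displacement of a function by a group element.
-/

namespace Vale.Agent.P330.Outer

variable {G X : Type} [Group G] [MulAction G X] [Fintype X]

theorem sum_smul_eq {M : Type} [AddCommMonoid M] (g : G) (F : X → M) :
    ∑ x, F (g • x) = ∑ x, F x := Equiv.sum_comp (MulAction.toPerm g) F

theorem mean_smul_eq (g : G) (F : X → ℝ) : mean (fun x => F (g • x)) = mean F :=
  mean_equiv (MulAction.toPerm g) F

theorem disp_nonneg (g : G) (f : X → ℝ) : 0 ≤ disp g f :=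
  Finset.sum_nonneg fun _ _ => sq_nonneg _

@[simp] theorem disp_one (f : X → ℝ) : disp (1 : G) f = 0 := by simp [disp]

theorem disp_inv (g : G) (f : X → ℝ) : disp g⁻¹ f = disp g f := by
  unfold disp
  rw [← sum_smul_eq g]
  refine Finset.sum_congr rfl fun x _ => ?_
  rw [inv_smul_smul]
  ring

theorem disp_eq (g : G) (f : X → ℝ) :
    disp g f = 2 * ∑ x, f x ^ 2 - 2 * ∑ x, f x * f (g • x) := by
  unfold disp
  have h := sum_smul_eq g fun x => f x ^ 2
  have h2 : ∑ x, (f (g • x) - f x) ^ 2 =
      ∑ x, f (g • x) ^ 2 + ∑ x, f x ^ 2 - 2 * ∑ x, f x * f (g • x) := by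
    rw [Finset.mul_sum, ← Finset.sum_add_distrib, ← Finset.sum_sub_distrib]
    exact Finset.sum_congr rfl fun x _ => by ring
  rw [h2, h]
  ring

theorem disp_le_four (g : G) (f : X → ℝ) : disp g f ≤ 4 * ∑ x, f x ^ 2 := by
  unfold disp
  have h := sum_smul_eq g fun x => f x ^ 2
  have h2 : ∑ x, (f (g • x) - f x) ^ 2 ≤ ∑ x, (2 * f (g • x) ^ 2 + 2 * f x ^ 2) :=
    Finset.sum_le_sum fun x _ => by nlinarith [sq_nonneg (f (g • x) + f x)]
  rw [Finset.sum_add_distrib, ← Finset.mul_sum, ← Finset.mul_sum, h] at h2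
  linarith

theorem disp_eq_mean (g : G) (f : X → ℝ) :
    disp g f = Fintype.card X * mean fun x => (f (g • x) - f x) ^ 2 := by
  rcases isEmpty_or_nonempty X with h | h
  · simp [disp]
  · have := card_pos_real (C := X)
    unfold disp mean
    field_simp

/-- weighted form of the triangle inequality -/
theorem disp_mul_weight (g h : G) (f : X → ℝ) {L : ℝ} (hL : 0 ≤ L) :
    L * disp (g * h) f ≤ L * (L + 1) * disp g f + (L + 1) * disp h f := by
  unfold disp
  rw [← sum_smul_eq h fun x => (f (g • x) - f x) ^ 2, Finset.mul_sum, Finset.mul_sum,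
    Finset.mul_sum, ← Finset.sum_add_distrib]
  refine Finset.sum_le_sum fun x _ => ?_
  rw [mul_smul]
  have := hL
  nlinarith [sq_nonneg (L * (f (g • h • x) - f (h • x)) - (f (h • x) - f x))]

theorem disp_mul_le (g h : G) (f : X → ℝ) : disp (g * h) f ≤ 2 * disp g f + 2 * disp h f := by
  have := disp_mul_weight g h f zero_le_one
  linarith

theorem disp_mul3_le (g h k : G) (f : X → ℝ) :
    disp (g * h * k) f ≤ 4 * (disp g f + disp h f + disp k f) := by
  have h1 := disp_mul_le (g * h) k f
  have h2 := disp_mul_le g h f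
  have h3 := disp_nonneg k f
  linarith

/-- products of lists -/
theorem disp_list_prod (l : List G) (f : X → ℝ) {M : ℝ} (h : ∀ g ∈ l, disp g f ≤ M) :
    disp l.prod f ≤ (l.length : ℝ) ^ 2 * M := by
  induction l with
  | nil => simp
  | cons g l ih =>
    have h1 := h g List.mem_cons_self
    have h2 := ih fun g' hg' => h g' (List.mem_cons_of_mem _ hg')
    rcases l with _ | ⟨g', l⟩
    · simpa using h1
    · rw [List.prod_cons, List.length_cons]
      generalize (g' :: l).prod = k at h2 ⊢
      have hL : (0 : ℝ) < ((g' :: l).length : ℕ) := by simp; positivity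
      generalize (g' :: l).length = L at h2 hL ⊢
      have h3 := disp_mul_weight g k f hL.le
      refine le_of_mul_le_mul_left (h3.trans ?_) hL
      have h4 := mul_le_mul_of_nonneg_left h1 (by positivity : (0 : ℝ) ≤ L * (L + 1))
      have h5 := mul_le_mul_of_nonneg_left h2 (by positivity : (0 : ℝ) ≤ L + 1)
      push_cast
      nlinarith

theorem disp_list_prod_le (l : List G) (f : X → ℝ) {M : ℝ} {c : ℕ} (hc : l.length ≤ c)
    (hM : 0 ≤ M) (h : ∀ g ∈ l, disp g f ≤ M) : disp l.prod f ≤ (c : ℝ) ^ 2 * M :=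
  (disp_list_prod l f h).trans (mul_le_mul_of_nonneg_right
    (pow_le_pow_left₀ (by positivity) (by exact_mod_cast hc) 2) hM)

/-- For a transitive action (here: of a finite group on itself) the mean displacement is twice
the variance. -/
theorem mean_disp_self {H : Type} [Group H] [Fintype H] (f : H → ℝ) :
    mean (fun g : H => disp g f) =
      Fintype.card H * mean fun x : H × H => (f x.1 - f x.2) ^ 2 := by
  simp only [disp_eq_mean]
  rw [mean_const_mul, mean_prod', mean_comm]
  congr 1
  exact mean_congr fun x => mean_equiv (Equiv.mulRight x) fun y => (f y - f x) ^ 2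

/-- A uniform bound of all displacements by the generators gives the Poincare inequality. -/
theorem hPoinc_of_disp {H : Type} [Group H] [Fintype H] {a : ℕ} {gen : Fin a → H} {c : ℝ}
    (hc : 0 < c) (h : ∀ (f : H → ℝ) (g : H), disp g f ≤ c * ∑ i, disp (gen i) f) :
    HPoinc (1 / c) gen := by
  intro f
  have hH := card_pos_real (C := H)
  have h1 : mean (fun g : H => disp g f) ≤ c * ∑ i, disp (gen i) f := mean_le_of_le' (h f)
  rw [mean_disp_self] at h1
  simp only [disp_eq_mean] at h1
  rw [← Finset.mul_sum] at h1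
  have h2 : ∑ i, mean (fun x : H => (f (gen i • x) - f x) ^ 2) =
      ∑ i, mean fun x => (f x - f (gen i * x)) ^ 2 :=
    Finset.sum_congr rfl fun i _ => mean_congr fun x => by rw [smul_eq_mul]; ring
  rw [h2] at h1
  rw [one_div, inv_mul_le_iff₀ hc]
  refine le_of_mul_le_mul_left (h1.trans (le_of_eq ?_)) hH
  ring

end Vale.Agent.P330.Outer
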