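import Vale.Agent.P330.Outer.GrpAff

/-!
P330, group package: polynomial time and assembly.
-/

namespace Vale.Agent.P330.Outer

open Vale.Agent.Lib.PolyTime hiding C P
open Vale.Agent.Lib.Dep
open Vale.Agent.P330.Bohr

namespace GrpP

/-- the affine group as a type of vectors -/
abbrev AffV (n : ℕ) : Type :=
  Vec (Fin 3) (ZMod n) × {A : Vec (Fin 3) (Vec (Fin 3) (ZMod n)) //
    Matrix.det (show Matrix (Fin 3) (Fin 3) (ZMod n) from A) = 1}

instance {n : ℕ} [NeZero n] : Enc (Aff n) := inferInstanceAs (Enc (AffV n))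
instance {n : ℕ} [NeZero n] : EncInj (Aff n) := inferInstanceAs (EncInj (AffV n))
noncomputable instance {n : ℕ} [NeZero n] : En (Aff n) := inferInstanceAs (En (AffV n))

variable {α : Type} [Enc α]

theorem dpt_natProdF {S : Type} (s : Finset S) {f : S → α → ℕ} (h : ∀ i, DPT (f i)) :
    DPT fun a => ∏ i ∈ s, f i a := by
  classical
  induction s using Finset.induction_on with
  | empty => simpa using DPT.const 1
  | insert i s hi ih => simpa only [Finset.prod_insert hi] using (h i).natMul ih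

theorem dpt_natSumF {S : Type} (s : Finset S) {f : S → α → ℕ} (h : ∀ i, DPT (f i)) :
    DPT fun a => ∑ i ∈ s, f i a := by
  classical
  induction s using Finset.induction_on with
  | empty => simpa using DPT.const 0
  | insert i s hi ih => simpa only [Finset.sum_insert hi] using (h i).natAdd ih

/-! ### The affine group -/

section Aff

variable {n : α → ℕ} [∀ a, NeZero (n a)]

theorem dpt_sum3 (hn : DPT n) {f : ∀ a, Fin 3 → ZMod (n a)} (h : ∀ i, DPT fun a => f a i) :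
    DPT fun a => ∑ i, f a i :=
  (DPT.add (PTRing.zmod hn) (DPT.add (PTRing.zmod hn) (h 0) (h 1)) (h 2)).congr fun _ =>
    (Fin.sum_univ_three _).symm

theorem dpt_at3 {T : α → Type} [∀ a, Enc (T a)] {v : ∀ a, Vec (Fin 3) (T a)} (hv : DPT v)
    (i : Fin 3) : DPT fun a => v a i := dpt_vecAt (DPT.const _) hv (DPT.const i)

theorem dpt_mk3 {T : α → Type} [∀ a, Enc (T a)] {v : ∀ a, Vec (Fin 3) (T a)}
    (hv : ∀ i, DPT fun a => v a i) : DPT v :=
  dpt_vecMk (DPT.const _) (dpt_cases (f := fun i (x : Σ _ : α, Fin 3) => v x.1 i) DPT.ssnd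
    fun i => (hv i).comp DPT.id.sfst)

theorem dpt_tr {x : ∀ a, Aff (n a)} (hx : DPT x) (i : Fin 3) : DPT fun a => (x a).1 i :=
  dpt_at3 (DPT.fst (f := fun a => show AffV (n a) from x a) hx) i

theorem dpt_ln {x : ∀ a, Aff (n a)} (hx : DPT x) (i j : Fin 3) : DPT fun a => (x a).2.1 i j :=
  dpt_at3 (dpt_at3 (DPT.snd (f := fun a => show AffV (n a) from x a) hx).val i) j

theorem dpt_aff {x : ∀ a, Aff (n a)} (h1 : ∀ i, DPT fun a => (x a).1 i)
    (h2 : ∀ i j, DPT fun a => (x a).2.1 i j) : DPT x :=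
  (DPT.pair (dpt_mk3 (v := fun a => (x a).1) h1)
    (dpt_mk3 (T := fun a => Vec (Fin 3) (ZMod (n a))) (v := fun a => (x a).2.1)
      fun i => dpt_mk3 (h2 i))).of_enc fun _ => rfl

theorem dpt_elems3 (hn : DPT n) (hb : PBd n) : DPT fun a => elems (Vec (Fin 3) (ZMod (n a))) :=
  ((TF.zmod n hn hb).powN 3).pt

theorem dpt_elems_aff (hn : DPT n) (hb : PBd n) : DPT fun a => elems (Aff (n a)) := by
  change DPT fun a => elems (AffV (n a))
  refine dpt_elems_prod (dpt_elems3 hn hb)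
    (dpt_elems_subtype (((TF.zmod n hn hb).powN 3).powN 3).pt ?_)
  have hR : PTRing fun x : Σ a, Vec (Fin 3) (Vec (Fin 3) (ZMod (n a))) => ZMod (n x.1) :=
    PTRing.zmod (hn.comp DPT.id.sfst)
  have h : ∀ i j, DPT fun x : Σ a, Vec (Fin 3) (Vec (Fin 3) (ZMod (n a))) => x.2 i j :=
    fun i j => dpt_at3 (dpt_at3 DPT.ssnd i) j
  have h3 : ∀ i j k, DPT fun x : Σ a, Vec (Fin 3) (Vec (Fin 3) (ZMod (n a))) =>
      x.2 0 i * x.2 1 j * x.2 2 k := fun i j k => DPT.mul hR (DPT.mul hR (h _ _) (h _ _)) (h _ _)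
  refine (DPr.eq (DPT.sub hR (DPT.add hR (DPT.add hR (DPT.sub hR (DPT.sub hR (h3 0 1 2) (h3 0 2 1))
    (h3 1 0 2)) (h3 1 2 0)) (h3 2 0 1)) (h3 2 1 0)) (DPT.one hR)).congr fun x => ?_
  exact Eq.congr_left (Matrix.det_fin_three (show Matrix (Fin 3) (Fin 3) _ from x.2)).symm

theorem dpt_bit (hn : DPT n) (p : Prop) [Decidable p] :
    DPT fun a => (if p then 1 else 0 : ZMod (n a)) := by
  split_ifs
  · exact DPT.one (PTRing.zmod hn)
  · exact DPT.zero (PTRing.zmod hn)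

theorem dpt_inG (hn : DPT n) {t : ∀ a, Fin 3 → ZMod (n a)} (h : ∀ i, DPT fun a => t a i) :
    DPT fun a => (inG (t a) : Aff (n a)) :=
  dpt_aff h fun i j => dpt_bit hn (i = j)

theorem dpt_one (hn : DPT n) : DPT fun a => (1 : Aff (n a)) :=
  dpt_inG hn (t := fun _ => 0) fun _ => DPT.zero (PTRing.zmod hn)

theorem dpt_mul (hn : DPT n) {x y : ∀ a, Aff (n a)} (hx : DPT x) (hy : DPT y) :
    DPT fun a => x a * y a :=
  dpt_aff (fun i => DPT.add (PTRing.zmod hn) (dpt_tr hx i)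
      (dpt_sum3 hn fun j => DPT.mul (PTRing.zmod hn) (dpt_ln hx i j) (dpt_tr hy j)))
    fun i j => dpt_sum3 hn fun k => DPT.mul (PTRing.zmod hn) (dpt_ln hx i k) (dpt_ln hy k j)

theorem dpt_inv (hn : DPT n) (hb : PBd n) {x : ∀ a, Aff (n a)} (hx : DPT x) :
    DPT fun a => (x a)⁻¹ :=
  (dpt_firstD (q := fun a y => x a * y = 1) (dpt_elems_aff hn hb)
    (DPr.eq (dpt_mul (hn.comp DPT.id.sfst) (hx.comp DPT.id.sfst) DPT.ssnd)
      (dpt_one (hn.comp DPT.id.sfst))) hx).congr fun a =>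
    firstD_eq (q := fun y => x a * y = 1) (mul_inv_cancel _)
      (fun _ h => (inv_eq_of_mul_eq_one_right h).symm) _

theorem dpt_gen (hn : DPT n) (k : Fin (3 * 3)) : DPT fun a => gen (n a) k := by
  unfold gen genP el
  split_ifs with h
  · exact dpt_inG hn fun i => by simpa only [Pi.single_apply] using dpt_bit hn _
  · exact dpt_aff (fun _ => DPT.zero (PTRing.zmod hn)) fun i j =>
      DPT.add (PTRing.zmod hn) (dpt_bit hn (i = j)) (dpt_bit hn _)

end Aff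

/-! ### The coordinates -/

/-- families of orbit sizes in polynomial time -/
structure DimPT (d : α → Dim) (m : α → ℕ) : Prop where
  n : ∀ i, DPT fun a => (d a).n i
  sum : ∀ a, ∑ i, (d a).n i ^ 3 = m a
  pb : PBd m

theorem exists_dim {m : α → ℕ} (hm : DPT m) (hb : PBd m) (h : ∀ a, Adm (m a)) :
    ∃ d, DimPT d m := by
  let V := (TF.finS m hm hb).powN 16
  have h1 : ∀ a, ∃ v : Vec (Fin 16) (Fin (m a + 1)),
      (∀ i, Odd (v i : ℕ)) ∧ ∑ i, (v i : ℕ) ^ 3 = m a := fun a => by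
    obtain ⟨n, h1, h2⟩ := h a
    exact ⟨fun i => ⟨n i, Nat.lt_succ_of_le (Dim.n_le ⟨n, _, h1, rfl⟩ h2 i)⟩, h1, h2⟩
  have h2 : ∀ i, DPT fun x : Σ a, Vec (Fin 16) (Fin (m a + 1)) => (x.2 i : ℕ) := fun i =>
    dpt_finVal (dpt_vecAt (DPT.const _) DPT.ssnd (DPT.const i))
  have h3 := dpt_firstD (q := fun a (v : Vec (Fin 16) (Fin (m a + 1))) =>
      (∀ i, Odd (v i : ℕ)) ∧ ∑ i, (v i : ℕ) ^ 3 = m a) (d := fun _ _ => 0) V.pt
    ((dpr_forall_const fun i => (DPr.eq ((h2 i).natMod (DPT.const 2)) (DPT.const 1)).congr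
      fun _ => Nat.odd_iff.symm).and (DPr.eq
        (dpt_natSumF _ fun i => (h2 i).natPow (DPT.const 3) (PBd.const 3)) (hm.comp DPT.id.sfst)))
    (dpt_vecMk (DPT.const _) (dpt_fin_of_val (DPT.const 0)))
  exact ⟨fun a => ⟨_, _, (firstD_spec (h1 a) fun _ => 0).1, rfl⟩,
    fun i => dpt_finVal (dpt_vecAt (DPT.const _) h3 (DPT.const i)),
    fun a => (firstD_spec (h1 a) fun _ => 0).2, hb⟩

namespace DimPT

variable {d : α → Dim} {m : α → ℕ} (h : DimPT d m)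
include h

theorem comp {κ : Type} [Enc κ] {c : κ → α} (hc : DPT c) :
    DimPT (fun x => d (c x)) fun x => m (c x) :=
  ⟨fun i => (h.n i).comp hc, fun _ => h.sum _, pbd_comp h.pb hc⟩

theorem ptm : DPT m :=
  (dpt_natSumF _ fun i => (h.n i).natPow (DPT.const 3) (PBd.const 3)).congr h.sum

theorem ptN : DPT fun a => (d a).N := (dpt_natProdF _ h.n).congr fun a => (d a).prod.symm

theorem pbN : PBd fun a => (d a).N := (h.pb.pow 16).mono fun a => (d a).N_le (h.sum a)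

theorem ptq {i : α → Fin 16} (hi : DPT i) : DPT fun a => ((d a).q (i a) : ZMod (d a).N) :=
  DPT.natCast (PTRing.zmod h.ptN)
    (dpt_cases (f := fun i a => (d a).q i) hi fun i => h.ptN.natDiv (h.n i))

theorem elems_om : DPT fun a => elems (d a).Om := by
  refine dpt_elems_subtype (dpt_elems_prod (DPT.const _) (dpt_elems3 h.ptN h.pbN))
    (dpr_forall_const fun j => ?_)
  have h1 := h.comp (DPT.id.sfst (β := fun a => Fin 16 × Vec (Fin 3) (ZMod (d a).N)))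
  refine dpr_exists (dpt_elems_zmod h1.ptN h1.pbN) ?_
  have h2 := h1.comp (DPT.id.sfst (β := fun x => ZMod (d x.1).N))
  exact DPr.eq (dpt_at3 (DPT.ssnd.comp DPT.id.sfst).snd j)
    (DPT.mul (PTRing.zmod h2.ptN) (h2.ptq (DPT.ssnd.comp DPT.id.sfst).fst) DPT.ssnd)

theorem smul_om {g : ∀ a, Aff (d a).N} {x : ∀ a, (d a).Om} (hg : DPT g) (hx : DPT x) :
    DPT fun a => g a • x a :=
  DPT.subMk (p := fun a => (d a).In) (h := fun a => (g a • x a).2)
    (DPT.pair hx.val.fst (dpt_mk3 fun j => DPT.add (PTRing.zmod h.ptN)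
    (dpt_sum3 h.ptN fun k => DPT.mul (PTRing.zmod h.ptN) (dpt_ln hg j k) (dpt_at3 hx.val.snd k))
    (DPT.mul (PTRing.zmod h.ptN) (h.ptq hx.val.fst) (dpt_tr hg j))))

theorem num {x : ∀ a, (d a).Om} (hx : DPT x) : DPT fun a => (d a).num (h.sum a) (x a) :=
  dpt_fin_of_val (dpt_eidx h.elems_om hx)

theorem act {g : ∀ a, Aff (d a).N} {ω : ∀ a, Fin (m a)} (hg : DPT g) (hω : DPT ω) :
    DPT fun a => (letI := (d a).act (h.sum a); g a • ω a) :=
  h.num (h.smul_om hg (dpt_enth h.elems_om (dpt_finVal hω)))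

theorem base (i : Fin 16) : DPT fun a => (d a).num (h.sum a) ((d a).base i) :=
  h.num (DPT.subMk (p := fun a => (d a).In) (h := fun a => ((d a).base i).2)
    (DPT.pair (DPT.const i) (dpt_mk3 fun _ => DPT.zero (PTRing.zmod h.ptN))))

theorem cube {g : ∀ a, Aff (d a).N} {ε : ∀ a, Gam (m a)} (hg : DPT g) (hε : DPT ε) :
    DPT fun a => (letI := (d a).act (h.sum a); g a • ε a) := by
  have h1 := h.comp (DPT.id.sfst (β := fun a => Fin (m a)))
  have h2 := dpt_vecAt (dpt_elems_fin h1.ptm h1.pb)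
    (hε.comp DPT.id.sfst) (h1.act (dpt_inv h1.ptN h1.pbN (hg.comp DPT.id.sfst)) DPT.ssnd)
  exact dpt_vecMk (dpt_elems_fin h.ptm h.pb) h2

theorem dot {x y : ∀ a, Gam (m a)} (hx : DPT x) (hy : DPT y) : DPT fun a => dot (x a) (y a) :=
  dpt_sum (PTRing.zmod (DPT.const 2)) (dpt_elems_fin h.ptm h.pb)
    (DPT.mul (PTRing.zmod (DPT.const 2)) (dpt_vecEnt (dpt_elems_fin h.ptm h.pb) hx)
      (dpt_vecEnt (dpt_elems_fin h.ptm h.pb) hy))

theorem gam0 : DPT fun a => (0 : Gam (m a)) :=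
  dpt_vecMk (dpt_elems_fin h.ptm h.pb) (DPT.const (0 : ZMod 2))

theorem pw {k : ℕ} {s : ∀ a, Fin k → SD (Gam (m a)) (Aff (d a).N)}
    (hs : ∀ i, DPT (β := fun a => Gam (m a) × Aff (d a).N) fun a => s a i) (t : ℕ)
    (i : Fin (k ^ t)) : DPT (β := fun a => Gam (m a) × Aff (d a).N) fun a =>
      (letI := (d a).act (h.sum a); pw (G := SD (Gam (m a)) (Aff (d a).N)) (s a) t i) := by
  induction t with
  | zero => exact h.gam0.pair (dpt_one h.ptN)
  | succ t ih =>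
    have h1 := ih (finProdFinEquiv.symm (show Fin (k ^ t * k) from i)).1
    have h2 := hs (finProdFinEquiv.symm (show Fin (k ^ t * k) from i)).2
    exact DPT.pair (dpt_vecMk (dpt_elems_fin h.ptm h.pb) (DPT.add (PTRing.zmod (DPT.const 2))
      (dpt_vecEnt (dpt_elems_fin h.ptm h.pb) h1.fst)
      (dpt_vecEnt (dpt_elems_fin h.ptm h.pb) (h.cube h1.snd h2.fst))))
      (dpt_mul h.ptN h1.snd h2.snd)

theorem gen0 {c : ℕ} {w : ∀ a, Fin c → Gam (m a)} (hw : ∀ k, DPT fun a => w a k)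
    (i : Fin (3 * 3 + c + 1)) : DPT (β := fun a => Gam (m a) × Aff (d a).N) fun a =>
      (letI := (d a).act (h.sum a); gen0 (gen (d a).N) (w a) i) := by
  refine Fin.cases (h.gam0.pair (dpt_one h.ptN)) (fun i => ?_) i
  simp only [GrpP.gen0, Fin.cons_succ]
  refine Fin.addCases (fun i => ?_) (fun i => ?_) i
  · simp only [Fin.append_left]
    exact h.gam0.pair (dpt_gen h.ptN i)
  · simp only [Fin.append_right]
    exact (hw i).pair (dpt_one h.ptN)

theorem exists_w (h2 : PBd fun a => 2 ^ m a) {c K : ℕ}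
    (hw : ∀ a, ∃ w : Fin (c + 1) → Gam (m a), (d a).Bias (h.sum a) (((1 : ℕ) : ℝ) / (K + 1 : ℕ)) w) :
    ∃ w : ∀ a, Fin (c + 1) → Gam (m a), (∀ k, DPT fun a => w a k) ∧
      ∀ a, (d a).Bias (h.sum a) (((1 : ℕ) : ℝ) / (K + 1 : ℕ)) (w a) := by
  let G := (TF.const α (CT.zmod 2)).pow m h.ptm h.pb (by simpa using h2)
  have hG : DPT fun a => elems (Gam (m a)) := G.pt
  have h3 := dpt_firstD (q := fun a (w : Vec (Fin (c + 1)) (Gam (m a))) =>
      (d a).Bias (h.sum a) (((1 : ℕ) : ℝ) / (K + 1 : ℕ)) w) (d := fun _ _ => 0)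
    (G.powN (c + 1)).pt ?_ (dpt_vecMk (DPT.const _) (h.gam0.comp DPT.id.sfst))
  · exact ⟨_, fun k => dpt_vecAt (DPT.const _) h3 (DPT.const k), fun a =>
      firstD_spec (V := Vec (Fin (c + 1)) (Gam (m a))) (hw a) _⟩
  refine dpr_forall (hG.comp DPT.id.sfst) ?_
  have h4 := (h.comp (DPT.id.sfst (β := fun a => Vec (Fin (c + 1)) (Gam (m a))))).comp
    (DPT.id.sfst (β := fun x => Gam (m x.1)))
  refine dpr_imp (DPr.ne DPT.ssnd h4.gam0) (dpr_le_frac
    (dpt_elems_prod (DPT.const _) (dpt_elems3 h4.ptN h4.pbN)) ?_ 1 (Nat.succ_pos K))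
  have h5 := h4.comp (DPT.id.sfst (β := fun x => Fin (c + 1) × Vec (Fin 3) (ZMod (d x.1.1).N)))
  exact DPr.ne (h5.dot (DPT.ssnd.comp DPT.id.sfst)
    (h5.cube (dpt_inG h5.ptN fun i => dpt_at3 DPT.ssnd.snd i)
      (dpt_vecAt (DPT.const _) (DPT.ssnd.comp DPT.id.sfst.sfst) DPT.ssnd.fst))) (DPT.const 0)

end DimPT

/-- the group package -/
noncomputable def gp (π : Par) {d : π.β → Dim} (h : DimPT d π.m) {C : ℝ} (hC : 1 ≤ C)
    (hK : ∀ (n : ℕ) [NeZero n], Kaz C (gen n)) : GP π where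
  H := { T := fun b => Aff (d b).N
         deq := fun _ => Classical.decEq _
         pt := dpt_elems_aff h.ptN h.pbN }
  act b := (d b).act (h.sum b)
  a := 3 * 3
  gen b := gen (d b).N
  base b i := (d b).num (h.sum b) ((d b).base i)
  γ := C⁻¹
  e := 192
  pos := inv_pos.2 (one_pos.trans_le hC)
  card b := (d b).card_aff (h.sum b)
  poinc b := hpoinc_of_kaz (one_pos.trans_le hC) (hK _)
  trans b ω := by
    let _ := (d b).act (h.sum b)
    obtain ⟨i, t, ht⟩ := (d b).exists_tr (h.sum b) ω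
    exact ⟨i, (inG t : Aff (d b).N)⁻¹, inv_smul_eq_iff.2 ht.symm⟩
  ptOne := dpt_one h.ptN
  ptMul := dpt_mul (h.ptN.comp DPT.id.sfst) DPT.ssnd.fst DPT.ssnd.snd
  ptInv := dpt_inv (h.ptN.comp DPT.id.sfst) (h.comp DPT.id.sfst).pbN DPT.ssnd
  ptAct := (h.comp DPT.id.sfst).act DPT.ssnd.fst DPT.ssnd.snd
  ptGen := dpt_gen h.ptN
  ptBase := h.base

end GrpP

open GrpP in
theorem grpStmt (h1 : RelTStmt) (h2 : BddGenStmt) (h3 : BiasStmt) : GrpStmt := by
  obtain ⟨C, hC, hK⟩ := kaz_aff h1 h2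
  obtain ⟨c, K, hw⟩ := exists_bias h3
  set β : ℝ := ((1 : ℕ) : ℝ) / (K + 1 : ℕ) with hβ
  have hβ0 : 0 < β := by positivity
  set C' : ℝ := 2 * ((6 * C + 4) / β) + 2 * C
  have hC' : 1 ≤ C' := le_add_of_nonneg_of_le (by positivity) (by linarith)
  have ht : ∀ lam : ℝ, ∃ t : ℕ, 0 < lam →
      (1 - 1 / (C' * ((3 * 3 + (c + 1) + 1 : ℕ) : ℝ) ^ 2)) ^ t ≤ lam ^ 2 := fun lam => by
    by_cases hl : 0 < lam
    · obtain ⟨t, ht⟩ := exists_pow_lt_of_lt_one (pow_pos hl 2)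
        (sub_lt_self 1 (by positivity : 0 < 1 / (C' * ((3 * 3 + (c + 1) + 1 : ℕ) : ℝ) ^ 2)))
      exact ⟨t, fun _ => ht.le⟩
    · exact ⟨0, fun h => absurd h hl⟩
  choose t ht using ht
  refine ⟨192, fun lam => (3 * 3 + (c + 1) + 1) ^ t lam, fun _ => by positivity, fun π => ?_⟩
  obtain ⟨d, hd⟩ := exists_dim π.ptm π.pbm π.adm
  refine ⟨gp π hd hC hK, by unfold gp; rfl, fun lam hl => ?_⟩
  have hI := hd.comp π.ptPar
  obtain ⟨w, hw1, hw2⟩ := hI.exists_w π.ql.pbd fun I => hw _ _ (hI.sum I)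
  refine ⟨_, hI.pw (hI.gen0 hw1) (t lam), fun I => ?_⟩
  let _ := (d (π.par I)).act (hI.sum I)
  have h4 := contr_of_kaz (s := gen0 (gen (d (π.par I)).N) (w I)) rfl hC'
    (kaz_gen0 (zero_le_one.trans hC) hβ0 (hK _) (hw2 I)) (t lam)
  exact gspec_of_contr (h4.1.mono (ht lam hl)) (h4.2.mono (ht lam hl))

end Vale.Agent.P330.Outer
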