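import Vale.Agent.P330.Outer.MemEnc

/-!
P330, outer system: contraction of the correction of the memory code.
-/

set_option linter.unusedSectionVars false

namespace Vale.Agent.P330.Outer

namespace MCor

variable {Γ H : Type} [AddCommGroup Γ] [Group H] [DistribMulAction H Γ]
variable {F : Type} [Field F] {E : Type} [AddCommGroup E] [Module F E]

open Polynomial in
theorem frac_zero_le {d : ℕ} {y : F} (hy : Pts d y) (hd : 0 < d) {P : Fin (d + 1) → E}
    (hP : P ≠ 0) : frac (fun e => edgeVal y P e = 0) ≤ 1 / 2 := by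
  classical
  obtain ⟨i₀, hi₀⟩ := Function.ne_iff.1 hP
  obtain ⟨φ, hφ⟩ : ∃ φ : Module.Dual F E, φ (P i₀) ≠ 0 := by
    by_contra hc
    exact hi₀ ((Module.forall_dual_apply_eq_zero_iff F _).1 fun φ =>
      by_contra fun h => hc ⟨φ, h⟩)
  set q : F[X] := ∑ i : Fin (d + 1), monomial i (φ (P i)) with hq
  have hq0 : q ≠ 0 := by
    intro h
    have h1 := congrArg (fun p => coeff p i₀) h
    simp only [hq, finsetSum_coeff, coeff_monomial, coeff_zero, Fin.val_inj,
      Finset.sum_ite_eq', Finset.mem_univ, if_true] at h1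
    exact hφ h1
  have hdeg : q.natDegree ≤ d :=
    natDegree_sum_le_of_forall_le _ _ fun i _ => (natDegree_monomial_le _).trans (Nat.lt_succ_iff.1 i.2)
  set pt : Bool × Fin d → ℕ := fun e => if e.1 then d + e.2 else e.2 with hpt
  have hlt : ∀ e, pt e < 2 * d := by
    rintro ⟨o, s⟩
    have := s.2
    cases o <;> simp [hpt] <;> omega
  have hinj : Function.Injective pt := by
    rintro ⟨o, s⟩ ⟨o', s'⟩ h
    have := s.2
    have := s'.2
    cases o <;> cases o' <;> simp [hpt, Fin.ext_iff] at h ⊢ <;> omega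
  have hcard : (Finset.univ.filter fun e => edgeVal y P e = 0).card ≤ q.roots.toFinset.card := by
    refine Finset.card_le_card_of_injOn (fun e => (pt e : F)) (fun e he => ?_)
      fun e _ e' _ h => hinj (hy.inj _ _ (hlt e) (hlt e') h)
    have h1 : edgeVal y P e = 0 := (Finset.mem_filter.1 he).2
    have h2 := congrArg φ h1
    rw [Enc.map_edgeVal, map_zero, edgeVal, smul_eq_zero] at h2
    have h3 : (if e.1 then y else 1) ≠ 0 := by
      split_ifs
      · exact hy.ne
      · exact one_ne_zero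
    have h4 := h2.resolve_left h3
    rw [Finset.mem_coe, Multiset.mem_toFinset, mem_roots hq0, IsRoot.def, hq, eval_finsetSum,
      ← h4]
    simp only [eval_monomial]
    exact Finset.sum_congr rfl fun i _ => by rw [smul_eq_mul, mul_comm]
  have h5 : (Finset.univ.filter fun e => edgeVal y P e = 0).card ≤ d :=
    hcard.trans ((Multiset.toFinset_card_le _).trans ((card_roots' q).trans hdeg))
  have h6 : (0 : ℝ) < d := by exact_mod_cast hd
  rw [frac_eq, Fintype.card_prod, Fintype.card_bool, Fintype.card_fin, div_le_iff₀ (by positivity)]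
  push_cast
  have h7 : ((Finset.univ.filter fun e => edgeVal y P e = 0).card : ℝ) ≤ d := by exact_mod_cast h5
  linarith

theorem decP_eq {d : ℕ} {y : F} (hy : Pts d y) (hd : 0 < d) {P : Fin (d + 1) → E}
    {w : Bool × Fin d → E} (h : frac (fun e => edgeVal y P e ≠ w e) ≤ 1 / 5) : decP y w = P := by
  have hex : ∃ P, frac (fun e => edgeVal y P e ≠ w e) ≤ 1 / 5 := ⟨P, h⟩
  have : Nonempty (Fin d) := ⟨⟨0, hd⟩⟩
  rw [decP, dif_pos hex]
  have h1 := hex.choose_spec
  by_contra hne
  have h2 := frac_zero_le hy hd (sub_ne_zero.2 hne)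
  have h3 := frac_not fun e => edgeVal y (hex.choose - P) e = 0
  have h4 := frac_le_add (p := fun e => ¬ edgeVal y (hex.choose - P) e = 0)
    (q := fun e => edgeVal y hex.choose e ≠ w e) (r := fun e => edgeVal y P e ≠ w e)
    fun e he => by
      by_contra hc
      simp only [not_or, not_not, ne_eq] at hc
      exact he (by rw [Fr.edgeVal_sub, hc.1, hc.2, sub_self])
  linarith

theorem mvA_ginv (s : Γ × H) (v : Site Γ H) : mvA s (mvA (ginv s) v) = v := by
  simp [mvA, ginv, mul_smul]

theorem mvB_ginv (s : Γ × H) (v : Site Γ H) : mvB s (mvB (ginv s) v) = v := by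
  simp [mvB, ginv, mul_smul]

theorem mvA_bij [Finite Γ] [Finite H] (s : Γ × H) :
    Function.Bijective (mvA s : Site Γ H → Site Γ H) :=
  Finite.surjective_iff_bijective.1 fun v => ⟨_, mvA_ginv s v⟩

variable {dA dB : ℕ} {μ : Mem Γ H F dA dB}

theorem edge_nbA {X : Site Γ H → View dA dB E} (hX : μ.Cons X) (v : Site Γ H)
    (e : Bool × Fin dA) :
    edgeVal μ.yA (X v) e = edgeVal μ.yA (X (mvA (gen2 μ.SA e) v)) (!e.1, e.2) := by
  obtain ⟨o, s⟩ := e
  cases o
  · have h := (hX (mvA (ginv (μ.SA s)) v)).1 s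
    unfold Mem.EdgeA at h
    rw [mvA_ginv] at h
    exact h.symm
  · exact (hX v).1 s

theorem edge_nbB {X : Site Γ H → View dA dB E} (hX : μ.Cons X) (v : Site Γ H)
    (e : Bool × Fin dB) :
    edgeVal μ.yB (X v).tr e = edgeVal μ.yB (X (mvB (gen2 μ.SB e) v)).tr (!e.1, e.2) := by
  obtain ⟨o, s⟩ := e
  cases o
  · have h := (hX (mvB (ginv (μ.SB s)) v)).2 s
    unfold Mem.EdgeB at h
    rw [mvB_ginv] at h
    exact h.symm
  · exact (hX v).2 s

variable [Fintype Γ] [Fintype H]

/-- Few vertices have many neighbours in a small set. -/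
theorem frac_nb_le {d : ℕ} {S : Fin d → Γ × H} {l : ℝ} (hS : GSpec l S) (hd : 0 < d)
    (U : Γ × H → Prop) {η m : ℝ} (hm : frac U ≤ m) (hη : m < η) :
    frac (fun g => η < frac fun e : Bool × Fin d => U (gmul g (gen2 S e))) ≤
      l ^ 2 * frac U / (η - m) ^ 2 := by
  classical
  have : Nonempty (Fin d) := ⟨⟨0, hd⟩⟩
  set f : Γ × H → ℝ := fun g => (if U g then 1 else 0) - frac U with hf
  have h0 : mean f = 0 := by rw [hf, mean_sub, mean_const, ← frac_eq_mean, sub_self]
  have hU0 := frac_nonneg U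
  have h1 : mean (fun g => f g ^ 2) ≤ frac U := by
    have h2 : ∀ g, f g ^ 2 = (1 - 2 * frac U) * (if U g then 1 else 0) + frac U ^ 2 := by
      intro g
      simp only [hf]
      split_ifs <;> ring
    rw [mean_congr h2, mean_add, mean_const_mul, mean_const, ← frac_eq_mean]
    nlinarith
  have h3 : mean (fun g => mean (fun e : Bool × Fin d => f (gmul g (gen2 S e))) ^ 2) ≤
      l ^ 2 * frac U := by
    calc _ ≤ mean fun g => mean fun o : Bool =>
            mean (fun i => f (gmul g (gen2 S (o, i)))) ^ 2 := by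
          refine mean_mono fun g => ?_
          rw [mean_prod]
          exact mean_sq_le _
      _ = mean fun o : Bool => mean fun g =>
            mean (fun i => f (gmul g (gen2 S (o, i)))) ^ 2 := mean_comm _
      _ ≤ l ^ 2 * frac U := mean_le_of_le' fun o =>
          (hS o f h0).trans (mul_le_mul_of_nonneg_left h1 (sq_nonneg _))
  refine frac_le_markov (fun g => sq_nonneg _) (pow_pos (sub_pos.2 hη) 2) (fun g hg => ?_) h3
  rw [mean_sub, mean_const, ← frac_eq_mean fun e : Bool × Fin d => U (gmul g (gen2 S e))]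
  exact pow_le_pow_left₀ (by linarith) (by linarith) 2

theorem frac_fibA (p : Site Γ H → Prop) :
    frac p = mean fun k : H => frac fun g : Γ × H => p (g.1, g.2, k) := by
  rw [← frac_equiv (Equiv.prodAssoc Γ H H) p, frac_prod']
  rfl

theorem frac_fibB (p : Site Γ H → Prop) :
    frac p = mean fun k : H => frac fun g : Γ × H => p (g.1, k, g.2) := by
  rw [← frac_equiv ((Equiv.refl Γ).prodCongr (Equiv.prodComm H H)) p, frac_fibA]
  rfl

end MCor

open MCor in
theorem mcorStmt : MCorStmt := by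
  refine ⟨1 / 100, 1 / 200, by norm_num, by norm_num, ?_⟩
  intro Γ H F _ _ _ _ _ _ dA dB μ hμ E _ _ X hX B hB
  have : Nonempty (Fin dA) := ⟨⟨0, hμ.posA⟩⟩
  have hB0 := frac_nonneg B
  set Hv : H → Prop := fun k => 1 / 10 < frac fun g : Γ × H => B (g.1, k, g.2) with hHv
  set U : Site Γ H → Prop := fun u =>
    1 / 5 < frac fun e : Bool × Fin dB => B (mvB (gen2 μ.SB e) u) with hU
  have h1 : frac Hv ≤ 10 * frac B := by
    have := markov_lt (f := fun k : H => frac fun g : Γ × H => B (g.1, k, g.2)) (t := 1 / 10)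
      (fun _ => frac_nonneg _) (by norm_num) (frac_fibB B).ge
    linarith
  have h2 : frac (fun u : Site Γ H => ¬ Hv u.2.1 ∧ U u) ≤ 1 / 100 * frac B := by
    rw [frac_fibB, frac_fibB B, ← mean_const_mul]
    refine mean_mono fun k => ?_
    by_cases hk : Hv k
    · rw [frac_eq_zero fun g hg => hg.1 hk]
      exact mul_nonneg (by norm_num) (frac_nonneg _)
    · have h3 := frac_nb_le hμ.specB hμ.posB (fun g : Γ × H => B (g.1, k, g.2)) (η := 1 / 5)
        (not_lt.1 hk) (by norm_num)
      refine (frac_mono fun g hg => hg.2).trans (h3.trans (le_of_eq ?_))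
      ring
  have h3 : frac (fun v : Site Γ H => 1 / 10 < frac fun e : Bool × Fin dA =>
      ¬ Hv (mvA (gen2 μ.SA e) v).2.1 ∧ U (mvA (gen2 μ.SA e) v)) ≤ 1 / 10 * frac B := by
    have h4 : mean (fun v : Site Γ H => frac fun e : Bool × Fin dA =>
        ¬ Hv (mvA (gen2 μ.SA e) v).2.1 ∧ U (mvA (gen2 μ.SA e) v)) ≤ 1 / 100 * frac B := by
      rw [mean_frac_comm fun (v : Site Γ H) (e : Bool × Fin dA) =>
        ¬ Hv (mvA (gen2 μ.SA e) v).2.1 ∧ U (mvA (gen2 μ.SA e) v)]
      exact mean_le_of_le' fun e =>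
        (frac_bij (mvA_bij (gen2 μ.SA e)) fun u : Site Γ H => ¬ Hv u.2.1 ∧ U u).trans_le h2
    have := markov_lt (t := 1 / 10) (fun _ => frac_nonneg _) (by norm_num) h4
    linarith
  have h5 : frac (fun v : Site Γ H => 1 / 10 < frac fun e : Bool × Fin dA =>
      Hv (mvA (gen2 μ.SA e) v).2.1) ≤ 2 / 5 * frac B := by
    rw [frac_fibA]
    refine mean_le_of_le' fun k => ?_
    have h6 : frac (fun g : Γ × H => Hv g.2) = frac Hv := frac_snd Hv
    have h7 := frac_nb_le hμ.specA hμ.posA (fun g : Γ × H => Hv g.2) (η := 1 / 10) (m := 1 / 20)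
      (by rw [h6]; linarith) (by norm_num)
    rw [h6] at h7
    refine h7.trans ?_
    rw [div_le_iff₀ (by norm_num)]
    linarith
  refine (frac_le_add fun v hv => ?_).trans ((add_le_add h3 h5).trans (le_of_eq (by ring)))
  by_contra hc
  simp only [not_or, not_lt] at hc
  have hsafe : frac (fun e : Bool × Fin dA => U (mvA (gen2 μ.SA e) v)) ≤ 1 / 5 := by
    refine (frac_le_add (q := fun e : Bool × Fin dA =>
      ¬ Hv (mvA (gen2 μ.SA e) v).2.1 ∧ U (mvA (gen2 μ.SA e) v))
      (r := fun e : Bool × Fin dA => Hv (mvA (gen2 μ.SA e) v).2.1) fun e he => ?_).trans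
      (by linarith [hc.1, hc.2])
    tauto
  rcases hv with ⟨X', hX', hne⟩ | hv
  · refine hne (decP_eq hμ.ptsA hμ.posA ((frac_mono fun e he => ?_).trans hsafe))
    by_contra hu
    refine he ?_
    have h8 : decB μ.yB (fun e' => X' (mvB (gen2 μ.SB e') (mvA (gen2 μ.SA e) v))) =
        X (mvA (gen2 μ.SA e) v) := by
      unfold decB
      rw [decP_eq hμ.ptsB hμ.posB (P := (X (mvA (gen2 μ.SA e) v)).tr)
        ((frac_mono fun e' he' => ?_).trans (not_lt.1 hu))]
      · rfl
      · by_contra hb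
        exact he' (by simp only [hX' _ hb]; exact edge_nbB hX _ e')
    rw [h8]
    exact edge_nbA hX v e
  · have h9 := frac_prod_le_add (p := fun e : (Bool × Fin dA) × Bool × Fin dB =>
      B (mvB (gen2 μ.SB e.2) (mvA (gen2 μ.SA e.1) v)))
      (B := fun e => U (mvA (gen2 μ.SA e) v)) (a := 1 / 5) (by norm_num) fun e he => not_lt.1 he
    linarith

end Vale.Agent.P330.Outer
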