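import Vale.Agent.P330.Outer.MemAlg

/-!
P330, outer system: distance of the memory code, test of the half roots, control values.
-/

namespace Vale.Agent.P330.Outer

open Function

section

variable {Γ H F : Type} [AddCommGroup Γ] [Group H] [DistribMulAction H Γ] [Fintype Γ] [Fintype H]
  [Field F] {dA dB : ℕ} {μ : Mem Γ H F dA dB} {E : Type} [AddCommGroup E] [Module F E]

/-- A nonzero alive view makes its fibre in the first graph dense. -/
theorem Mem.ConsOn.fibA_dense {lA lB η : ℝ} (hμ : μ.Ok lA lB) (hl : 0 ≤ lA) {ZA ZB : H → Prop}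
    {X : Site Γ H → View dA dB E} (hA : Sparse η μ.SA ZA) (hX : μ.ConsOn ZA ZB X) {v : Site Γ H}
    (h1 : ¬ ZA v.2.1) (h2 : ¬ ZB v.2.2) (h0 : X v ≠ 0) :
    1 / 2 - η - lA ≤ frac fun g => ¬ ZA g.2 ∧ X (fibA v.2.2 g) ≠ 0 :=
  hμ.specA.dist hμ.posA hl hμ.ptsA hA (P := fun g => X (fibA v.2.2 g))
    (fun g s hg hs => (hX (fibA v.2.2 g) hg h2).1 s hs) (g := (v.1, v.2.1)) h1 h0

/-- The distance of the memory code, with explicit constants. -/
theorem Mem.ConsOn.dist {lA lB η η' : ℝ} (hμ : μ.Ok lA lB) (hl : 0 ≤ lA) (hl' : 0 ≤ lB)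
    {ZA ZB : H → Prop} {X : Site Γ H → View dA dB E} (hA : Sparse η μ.SA ZA)
    (hB : Sparse η' μ.SB ZB) (hX : μ.ConsOn ZA ZB X) (hη : 0 ≤ 1 / 2 - η' - lB) {v : Site Γ H}
    (h1 : ¬ ZA v.2.1) (h2 : ¬ ZB v.2.2) (h0 : X v ≠ 0) :
    (1 / 2 - η' - lB) * (1 / 2 - η - lA) ≤
      frac fun v : Site Γ H => ¬ ZA v.2.1 ∧ ¬ ZB v.2.2 ∧ X v ≠ 0 := by
  have h3 := hX.fibA_dense hμ hl hA h1 h2 h0
  have h4 : frac (fun g : Γ × H => ¬ ZA g.2 ∧ X (fibA v.2.2 g) ≠ 0) ≤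
      frac fun h => ¬ ZA h ∧ ∃ γ, X (γ, h, v.2.2) ≠ 0 := by
    rw [← frac_snd (X := Γ) fun h => ¬ ZA h ∧ ∃ γ, X (γ, h, v.2.2) ≠ 0]
    exact frac_mono fun g hg => ⟨hg.1, g.1, hg.2⟩
  refine (mul_le_mul_of_nonneg_left (h3.trans h4) hη).trans ?_
  rw [frac_fibB]
  refine frac_mul_le_mean (fun _ => frac_nonneg _) ?_
  rintro h ⟨hh, γ, hγ⟩
  have h5 := hX.swap.fibA_dense hμ.swap hl' hB (v := (γ, v.2.2, h)) h2 hh
    (by simpa [swX, sw] using hγ)
  refine h5.trans (frac_mono fun g hg => ⟨hh, hg.1, ?_⟩)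
  simpa [swX] using hg.2

/-- One half of the test of the half roots. -/
theorem cons_half {lA lB : ℝ} (hμ : μ.Ok lA lB) (hl : 0 ≤ lB) {a : ℕ} {γ : ℝ}
    {gen : Fin a → H} (hγ : 0 < γ) (hP : HPoinc γ gen) {X : Site Γ H → View dA dB E}
    (hX : μ.Cons X)
    (h : frac (fun v : Site Γ H => ∃ h i, X (tau h (mvA (0, gen i) v)) (Fin.last dA) ≠
      X (tau h v) (Fin.last dA)) < 1 / 2 - lB) (ε : Γ) (x x' k : H) :
    X (ε, x, k) (Fin.last dA) = X (ε, x', k) (Fin.last dA) := by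
  refine hP.const_right hγ (κ := fun x => X (ε, x, k) (Fin.last dA)) (fun i x => ?_) x x'
  by_contra hne
  have h1 := hμ.specB.dist hμ.posB hl hμ.ptsB (sparse_false μ.SB)
    (P := fun g => X (fibB (x * gen i) g) (Fin.last dA) - X (fibB x g) (Fin.last dA))
    (fun g s _ _ => by
      have e1 := congrFun ((hX (fibB (x * gen i) g)).2 s) (Fin.last dA)
      have e2 := congrFun ((hX (fibB x g)).2 s) (Fin.last dA)
      rw [edgeVal_apply, edgeVal_apply] at e1 e2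
      rw [edgeVal_sub, edgeVal_sub]
      exact congrArg₂ (· - ·) e1 e2) (g := (ε, k)) id (sub_ne_zero.2 hne)
  rw [frac_fibB] at h
  refine absurd h (not_lt.2 (le_mean_of_le fun b => ?_))
  have hb : Bijective fun g : Γ × H => ((x * b⁻¹) • g.1, x * b⁻¹ * g.2) :=
    (MulAction.bijective (x * b⁻¹)).prodMap (Group.mulLeft_bijective (x * b⁻¹))
  rw [← frac_bij hb, sub_zero] at h1
  refine h1.trans (frac_mono fun g hg => ⟨x * b⁻¹, i, ?_⟩)
  have e1 : tau (x * b⁻¹) (mvA (0, gen i) (fibB b g)) =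
      fibB (x * gen i) ((x * b⁻¹) • g.1, x * b⁻¹ * g.2) := by
    simp [tau, mvA, fibB, mul_assoc]
  have e2 : tau (x * b⁻¹) (fibB b g) = fibB x ((x * b⁻¹) • g.1, x * b⁻¹ * g.2) := by
    simp [tau, fibB, mul_assoc]
  rw [e1, e2]
  exact sub_ne_zero.1 hg.2

omit [Field F] in
/-- Two random sites have different values at most as often as the ends of edges. -/
theorem pairs_le {lA lB : ℝ} {SA : Fin dA → Γ × H} {SB : Fin dB → Γ × H} (hA : GSpec lA SA)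
    (hB : GSpec lB SB) (hdA : 0 < dA) (hdB : 0 < dB) (hl : 0 ≤ lA) (hl' : 0 ≤ lB) (h1 : lA < 1)
    (h1' : lB < 1) {Y : Type} (κ : Site Γ H → Y) {θ θ' : ℝ}
    (hθ : frac (fun x : Site Γ H × Fin dA => κ x.1 ≠ κ (mvA (SA x.2) x.1)) ≤ θ)
    (hθ' : frac (fun x : Site Γ H × Fin dB => κ x.1 ≠ κ (mvB (SB x.2) x.1)) ≤ θ') :
    frac (fun x : Site Γ H × Site Γ H => κ x.1 ≠ κ x.2) ≤ θ / (1 - lA) + θ' / (1 - lB) := by
  have key : ∀ {d : ℕ} {l t : ℝ} {S : Fin d → Γ × H} (fib : H → Γ × H → Site Γ H),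
      (Bijective fun x : H × Γ × H => fib x.1 x.2) → GSpec l S → 0 < d → 0 ≤ l → l < 1 →
      ∀ mv : Γ × H → Site Γ H → Site Γ H, (∀ s k g, mv s (fib k g) = fib k (gmul g s)) →
      frac (fun x : Site Γ H × Fin d => κ x.1 ≠ κ (mv (S x.2) x.1)) ≤ t →
      frac (fun x : H × (Γ × H) × Γ × H => κ (fib x.1 x.2.1) ≠ κ (fib x.1 x.2.2)) ≤ t / (1 - l) := by
    intro d l t S fib hf hS hd hl h1 mv hmv ht
    rw [le_div_iff₀ (by linarith), mul_comm, frac_prod, ← mean_const_mul]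
    refine le_trans (mean_mono fun k => (hS.spec hd hl true).classes fun g => κ (fib k g)) ?_
    refine le_trans (le_of_eq ?_) ht
    rw [frac_prod, ← mean_bij hf, mean_prod]
    refine mean_congr fun k => ?_
    rw [frac_prod]
    simp only [hmv, gen2_true]
  have kA := key fibA fibA_bijective hA hdA hl h1 mvA mvA_fibA hθ
  have kB := key fibB fibB_bijective hB hdB hl' h1' mvB mvB_fibB hθ'
  have eA : Bijective fun z : (Site Γ H × Site Γ H) × Γ =>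
      (((z.1.1.2.2, (z.1.1.1, z.1.1.2.1), (z.2, z.1.2.2.1)), z.1.2.1, z.1.2.2.2) :
        (H × (Γ × H) × Γ × H) × Γ × H) :=
    bijective_iff_has_inverse.2 ⟨fun w => (((w.1.2.1.1, w.1.2.1.2, w.1.1),
      (w.2.1, w.1.2.2.2, w.2.2)), w.1.2.2.1), fun _ => rfl, fun _ => rfl⟩
  have eB : Bijective fun z : (Site Γ H × Site Γ H) × Γ =>
      (((z.1.2.2.1, (z.2, z.1.1.2.2), (z.1.2.1, z.1.2.2.2)), z.1.1.1, z.1.1.2.1) :
        (H × (Γ × H) × Γ × H) × Γ × H) :=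
    bijective_iff_has_inverse.2 ⟨fun w => (((w.2.1, w.2.2, w.1.2.1.2),
      (w.1.2.2.1, w.1.1, w.1.2.2.2)), w.1.2.1.1), fun _ => rfl, fun _ => rfl⟩
  rw [← frac_fst (Y := Γ × H), ← frac_bij eA] at kA
  rw [← frac_fst (Y := Γ × H), ← frac_bij eB] at kB
  rw [← frac_fst (Y := Γ)]
  refine (frac_le_add fun z hz => ?_).trans (add_le_add kA kB)
  by_contra hn
  rw [not_or, not_not, not_not] at hn
  exact hz (hn.1.trans hn.2)

end

theorem rdistStmt : RDistStmt := by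
  intro Γ H F _ _ _ _ _ _ dA dB μ hμ E _ _ ZA ZB X hA hB hX h v h1 h2
  by_contra h0
  have := hX.dist hμ (by norm_num) (by norm_num) hA hB (by norm_num) h1 h2 h0
  linarith

theorem halfStmt : HalfStmt := by
  intro Γ H F _ _ _ _ _ _ dA dB μ hμ a γ gen hγ hP E _ _ X hX h
  have hA := cons_half hμ (by norm_num) hγ hP hX
    ((frac_mono fun v ⟨h, i, hv⟩ => ⟨h, i, Or.inl hv⟩).trans_lt (h.trans (by norm_num)))
  have hB := cons_half hμ.swap (by norm_num) hγ hP hX.swap (by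
    rw [← frac_sw] at h
    exact (frac_mono fun v ⟨h, i, hv⟩ => ⟨h, i, Or.inr hv⟩).trans_lt (h.trans (by norm_num)))
  refine ⟨fun ε => X (ε, 1, 1) (Fin.last dA) (Fin.last dB), hX, fun v => ?_⟩
  exact (congrFun (hA v.1 v.2.1 1 v.2.2) _).trans (congrFun (hB v.1 v.2.2 1 1) _)

theorem ctlStmt : CtlStmt := by
  intro Γ H F _ _ _ _ _ _ dA dB μ hμ Y κ θ _ h
  have h0 : 0 ≤ θ := (frac_nonneg _).trans h
  have hA : frac (fun x : Site Γ H × Fin dA => κ x.1 ≠ κ (mvA (μ.SA x.2) x.1)) ≤ θ :=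
    frac_prod_le' h0 fun s => (frac_mono fun v hv hv' => hv (hv'.1 s).symm).trans h
  have hB : frac (fun x : Site Γ H × Fin dB => κ x.1 ≠ κ (mvB (μ.SB x.2) x.1)) ≤ θ :=
    frac_prod_le' h0 fun s => (frac_mono fun v hv hv' => hv (hv'.2 s).symm).trans h
  have h1 := pairs_le hμ.specA hμ.specB hμ.posA hμ.posB (by norm_num) (by norm_num) (by norm_num)
    (by norm_num) κ hA hB
  rw [frac_prod'] at h1
  obtain ⟨v, hv⟩ := exists_le_mean fun v : Site Γ H => frac fun u : Site Γ H => κ u ≠ κ v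
  refine ⟨κ v, hv.trans (h1.trans ?_)⟩
  norm_num
  linarith

end Vale.Agent.P330.Outer
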