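import Vale.Agent.P330.Outer.MemFrame

/-!
P330, outer system: existence and uniqueness of the encoding.
-/

set_option linter.unusedSectionVars false

namespace Vale.Agent.P330.Outer

namespace Enc

variable {Γ H : Type} [AddCommGroup Γ] [Group H] [DistribMulAction H Γ]
variable {F : Type} [Field F] {E : Type} [AddCommGroup E] [Module F E]

/-- The edge value as a linear map. -/
def evL (E : Type) [AddCommGroup E] [Module F E] {d : ℕ} (y : F) (e : Bool × Fin d) :
    (Fin (d + 1) → E) →ₗ[F] E where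
  toFun P := edgeVal y P e
  map_add' P Q := by simp only [edgeVal, Pi.add_apply, smul_add, Finset.sum_add_distrib]
  map_smul' c P := by
    simp only [edgeVal, Pi.smul_apply, RingHom.id_apply, Finset.smul_sum, smul_smul]
    exact Finset.sum_congr rfl fun i _ => by congr 1; ring

theorem evL_apply {d : ℕ} (y : F) (e : Bool × Fin d) (P : Fin (d + 1) → E) :
    evL E y e P = edgeVal y P e := rfl

theorem map_edgeVal {E' : Type} [AddCommGroup E'] [Module F E'] (φ : E →ₗ[F] E') {d : ℕ} (y : F)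
    (P : Fin (d + 1) → E) (e : Bool × Fin d) :
    φ (edgeVal y P e) = edgeVal y (fun i => φ (P i)) e := by
  simp only [edgeVal, map_smul, map_sum]

theorem edgeVal_smul_const {d : ℕ} (y : F) (P : Fin (d + 1) → F) (w : E) (e : Bool × Fin d) :
    edgeVal y (fun i => P i • w) e = edgeVal y P e • w :=
  (map_edgeVal (LinearMap.toSpanSingleton F E w) y P e).symm

theorem edgeVal_sum {I : Type} (s : Finset I) {d : ℕ} (y : F) (P : I → Fin (d + 1) → E)
    (e : Bool × Fin d) : edgeVal y (∑ k ∈ s, P k) e = ∑ k ∈ s, edgeVal y (P k) e :=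
  map_sum (evL E y e) P s

theorem edgeVal_pi {I : Type} {d : ℕ} (y : F) (P : Fin (d + 1) → I → E) (e : Bool × Fin d)
    (k : I) : edgeVal y P e k = edgeVal y (fun i => P i k) e :=
  map_edgeVal (LinearMap.proj k : (I → E) →ₗ[F] E) y P e

/-- A codeword with values in a vector space and with vanishing roots vanishes. -/
theorem eq_zero_of_nonSing {d : ℕ} {S : Fin d → Γ × H} {y : F} (h : NonSing S y)
    {P : Γ × H → Fin (d + 1) → E}
    (hP : ∀ g s, edgeVal y (P g) (true, s) = edgeVal y (P (gmul g (S s))) (false, s))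
    (h0 : ∀ g, P g (Fin.last d) = 0) (g : Γ × H) : P g = 0 := by
  funext i
  refine (Module.forall_dual_apply_eq_zero_iff F _).1 fun φ => ?_
  have h1 := h (fun g i => φ (P g i)) (fun g s => by
    rw [← map_edgeVal φ, ← map_edgeVal φ, hP]) (fun g => by rw [h0, map_zero])
  exact congrFun (congrFun h1 g) i

/-- Every choice of roots comes from a codeword. -/
theorem exists_code [Fintype Γ] [Fintype H] {d : ℕ} {S : Fin d → Γ × H} {y : F} (h : NonSing S y)
    (x : Γ × H → F) : ∃ P : Γ × H → Fin (d + 1) → F,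
      (∀ g s, edgeVal y (P g) (true, s) = edgeVal y (P (gmul g (S s))) (false, s)) ∧
      ∀ g, P g (Fin.last d) = x g := by
  let Ψ : (Γ × H → Fin (d + 1) → F) →ₗ[F] (Γ × H → Fin (d + 1) → F) :=
    { toFun := fun P g i => Fin.lastCases (P g (Fin.last d))
        (fun s => edgeVal y (P g) (true, s) - edgeVal y (P (gmul g (S s))) (false, s)) i
      map_add' := fun P Q => by
        funext g i
        refine Fin.lastCases ?_ (fun s => ?_) i
        · simp
        · simp only [Pi.add_apply, Fin.lastCases_castSucc, ← evL_apply, map_add]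
          ring
      map_smul' := fun c P => by
        funext g i
        refine Fin.lastCases ?_ (fun s => ?_) i
        · simp
        · simp only [Pi.smul_apply, Fin.lastCases_castSucc, ← evL_apply, map_smul,
            RingHom.id_apply, smul_sub] }
  have h1 : ∀ P g, Ψ P g (Fin.last d) = P g (Fin.last d) := fun P g => by simp [Ψ]
  have h2 : ∀ P g (s : Fin d), Ψ P g s.castSucc =
      edgeVal y (P g) (true, s) - edgeVal y (P (gmul g (S s))) (false, s) := fun P g s => by
    simp [Ψ]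
  have hinj : Function.Injective Ψ := by
    refine (injective_iff_map_eq_zero Ψ).2 fun P hP => h P (fun g s => ?_) fun g => ?_
    · rw [← sub_eq_zero, ← h2, hP]; rfl
    · rw [← h1 P g, hP]; rfl
  obtain ⟨P, hP⟩ := LinearMap.surjective_of_injective hinj
    fun g i => Fin.lastCases (x g) (fun _ => 0) i
  refine ⟨P, fun g s => ?_, fun g => ?_⟩
  · rw [← sub_eq_zero, ← h2, hP]; simp
  · rw [← h1 P g, hP]; simp

variable {dA dB : ℕ} {μ : Mem Γ H F dA dB}

theorem eq_zero_of_roots (nA : NonSing μ.SA μ.yA) (nB : NonSing μ.SB μ.yB)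
    {X : Site Γ H → View dA dB E} (hX : μ.Cons X)
    (h0 : ∀ v, X v (Fin.last dA) (Fin.last dB) = 0) (v : Site Γ H) : X v = 0 := by
  have h1 : ∀ v : Site Γ H, X v (Fin.last dA) = 0 := by
    intro v
    refine eq_zero_of_nonSing nB (P := fun g => X (g.1, v.2.1, g.2) (Fin.last dA))
      (fun g s => ?_) (fun g => h0 _) (v.1, v.2.2)
    have h2 := congrFun ((hX (g.1, v.2.1, g.2)).2 s) (Fin.last dA)
    rw [edgeVal_pi, edgeVal_pi] at h2
    exact h2
  exact eq_zero_of_nonSing nA (P := fun g => X (g.1, g.2, v.2.2))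
    (fun g s => (hX (g.1, g.2, v.2.2)).1 s) (fun g => h1 _) (v.1, v.2.1)

/-- The convolution of the message with two Green functions. -/
def conv [Fintype Γ] (GA : Γ × H → Fin (dA + 1) → F) (GB : Γ × H → Fin (dB + 1) → F) (x : Γ → E)
    (v : Site Γ H) : View dA dB E :=
  fun i j => ∑ a : Γ, ∑ b : Γ, GA (a, v.2.1) i • GB (b, v.2.2) j • x (v.1 - a - b)

theorem conv_tr [Fintype Γ] (GA : Γ × H → Fin (dA + 1) → F) (GB : Γ × H → Fin (dB + 1) → F)
    (x : Γ → E) (v : Site Γ H) :
    (conv GA GB x v).tr = conv GB GA x (v.1, v.2.2, v.2.1) := by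
  funext j i
  simp only [View.tr, conv]
  rw [Finset.sum_comm]
  refine Finset.sum_congr rfl fun b _ => Finset.sum_congr rfl fun a _ => ?_
  rw [smul_comm, sub_right_comm]

theorem conv_edge [Fintype Γ] {S : Fin dA → Γ × H} {y : F} {GA : Γ × H → Fin (dA + 1) → F}
    (hG : ∀ g s, edgeVal y (GA g) (true, s) = edgeVal y (GA (gmul g (S s))) (false, s))
    (GB : Γ × H → Fin (dB + 1) → F) (x : Γ → E) (v : Site Γ H) (s : Fin dA) :
    edgeVal y (conv GA GB x v) (true, s) = edgeVal y (conv GA GB x (mvA (S s) v)) (false, s) := by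
  have h1 : ∀ (v : Site Γ H) e, edgeVal y (conv GA GB x v) e = ∑ a : Γ,
      edgeVal y (GA (a, v.2.1)) e • fun j => ∑ b : Γ, GB (b, v.2.2) j • x (v.1 - a - b) := by
    intro v e
    have h2 : conv GA GB x v = ∑ a : Γ, fun i =>
        GA (a, v.2.1) i • fun j => ∑ b : Γ, GB (b, v.2.2) j • x (v.1 - a - b) := by
      funext i j
      simp only [conv, Finset.sum_apply, Pi.smul_apply, Finset.smul_sum]
    rw [h2, edgeVal_sum]
    exact Finset.sum_congr rfl fun a _ => edgeVal_smul_const _ _ _ _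
  rw [h1, h1]
  refine Fintype.sum_equiv (Equiv.addRight (v.2.1 • (S s).1)) _ _ fun a => ?_
  rw [hG]
  simp only [gmul, mvA, Equiv.coe_addRight, add_sub_add_right_eq_sub]

theorem conv_last [Fintype Γ] [DecidableEq Γ] {GA : Γ × H → Fin (dA + 1) → F}
    (hG : ∀ g, GA g (Fin.last dA) = if g.1 = 0 then 1 else 0)
    (GB : Γ × H → Fin (dB + 1) → F) (x : Γ → E) (v : Site Γ H) :
    conv GA GB x v (Fin.last dA) = fun j => ∑ b : Γ, GB (b, v.2.2) j • x (v.1 - b) := by
  funext j
  simp only [conv, hG, ite_smul, one_smul, zero_smul]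
  rw [Finset.sum_eq_single 0]
  · simp
  · intro a _ ha
    simp [ha]
  · simp

theorem isEnc_conv [Fintype Γ] [DecidableEq Γ] {GA : Γ × H → Fin (dA + 1) → F}
    {GB : Γ × H → Fin (dB + 1) → F}
    (hA : ∀ g s, edgeVal μ.yA (GA g) (true, s) = edgeVal μ.yA (GA (gmul g (μ.SA s))) (false, s))
    (hB : ∀ g s, edgeVal μ.yB (GB g) (true, s) = edgeVal μ.yB (GB (gmul g (μ.SB s))) (false, s))
    (hA' : ∀ g, GA g (Fin.last dA) = if g.1 = 0 then 1 else 0)
    (hB' : ∀ g, GB g (Fin.last dB) = if g.1 = 0 then 1 else 0) (x : Γ → E) :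
    μ.IsEnc x (conv GA GB x) := by
  refine ⟨fun v => ⟨fun s => conv_edge hA GB x v s, fun s => ?_⟩, fun v => ?_⟩
  · unfold Mem.EdgeB
    rw [conv_tr, conv_tr]
    exact conv_edge hB GA x (v.1, v.2.2, v.2.1) s
  · rw [conv_last hA']
    simp only [hB', ite_smul, one_smul, zero_smul]
    simp

end Enc

open Enc in
theorem encStmt : EncStmt := by
  intro Γ H F _ _ _ _ _ _ dA dB μ _ _ _ _ nA nB E _ _
  classical
  obtain ⟨GA, hA, hA'⟩ := exists_code nA fun g => if g.1 = 0 then 1 else 0
  obtain ⟨GB, hB, hB'⟩ := exists_code nB fun g => if g.1 = 0 then 1 else 0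
  have huniq : ∀ (x : Γ → E) X X', μ.IsEnc x X → μ.IsEnc x X' → X = X' := by
    intro x X X' h h'
    funext v
    refine sub_eq_zero.1 (eq_zero_of_roots nA nB (X := fun v => X v - X' v)
      (fun v => ⟨fun s => Fr.edgeA_sub ((h.1 v).1 s) ((h'.1 v).1 s),
        fun s => Fr.edgeB_sub ((h.1 v).2 s) ((h'.1 v).2 s)⟩) (fun v => ?_) v)
    simp only [Pi.sub_apply, h.2 v, h'.2 v, sub_self]
  refine ⟨fun x => ⟨_, isEnc_conv hA hB hA' hB' x⟩, huniq, fun x X hX ε h h' k => ?_⟩
  rw [huniq x X _ hX (isEnc_conv hA hB hA' hB' x), conv_tr, conv_tr, conv_last hA', conv_last hA',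
    conv_last hB', conv_last hB']
  exact ⟨rfl, rfl⟩

end Vale.Agent.P330.Outer
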