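import Vale.Agent.P330.Outer.MemDefs

/-!
P330, outer system: exactness of the memory code from the copies in all frames.
-/

namespace Vale.Agent.P330.Outer

namespace Fr

section Alg

variable {Γ H : Type} [AddCommGroup Γ] [Group H] [DistribMulAction H Γ]
variable {F : Type} [Field F] {E : Type} [AddCommGroup E] [Module F E]

theorem edgeVal_sub {d : ℕ} (y : F) (P Q : Fin (d + 1) → E) (e : Bool × Fin d) :
    edgeVal y (P - Q) e = edgeVal y P e - edgeVal y Q e := by
  simp only [edgeVal, Pi.sub_apply, smul_sub, Finset.sum_sub_distrib]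

theorem tau_tau (h k : H) (v : Site Γ H) : tau h (tau k v) = tau (h * k) v := by
  simp only [tau, mul_smul, mul_assoc]

theorem tau_one (v : Site Γ H) : tau (1 : H) v = v := by
  simp only [tau, one_smul, one_mul]

theorem tau_inv_tau (h : H) (v : Site Γ H) : tau h⁻¹ (tau h v) = v := by
  rw [tau_tau, inv_mul_cancel, tau_one]

theorem tau_tau_inv (h : H) (v : Site Γ H) : tau h (tau h⁻¹ v) = v := by
  rw [tau_tau, mul_inv_cancel, tau_one]

theorem tau_bij (h : H) : Function.Bijective (tau h : Site Γ H → Site Γ H) :=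
  Function.bijective_iff_has_inverse.2 ⟨tau h⁻¹, tau_inv_tau h, tau_tau_inv h⟩

theorem tau_mvA (h : H) (s : Γ × H) (v : Site Γ H) : tau h (mvA s v) = mvA s (tau h v) := by
  simp only [tau, mvA, smul_add, mul_smul, mul_assoc]

theorem tau_mvB (h : H) (s : Γ × H) (v : Site Γ H) : tau h (mvB s v) = mvB s (tau h v) := by
  simp only [tau, mvB, smul_add, mul_smul, mul_assoc]

variable {dA dB : ℕ} {μ : Mem Γ H F dA dB}

theorem edgeA_sub {X Y : Site Γ H → View dA dB E} {v : Site Γ H} {s : Fin dA}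
    (hX : μ.EdgeA X v s) (hY : μ.EdgeA Y v s) : μ.EdgeA (fun v => X v - Y v) v s := by
  unfold Mem.EdgeA at *
  rw [edgeVal_sub, edgeVal_sub, hX, hY]

theorem edgeB_sub {X Y : Site Γ H → View dA dB E} {v : Site Γ H} {s : Fin dB}
    (hX : μ.EdgeB X v s) (hY : μ.EdgeB Y v s) : μ.EdgeB (fun v => X v - Y v) v s := by
  unfold Mem.EdgeB at *
  have h : ∀ P Q : View dA dB E, (P - Q).tr = P.tr - Q.tr := fun _ _ => rfl
  rw [h, h, edgeVal_sub, edgeVal_sub, hX, hY]

theorem consOn_sub {ZA ZB : H → Prop} {X Y : Site Γ H → View dA dB E}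
    (hX : μ.ConsOn ZA ZB X) (hY : μ.ConsOn ZA ZB Y) : μ.ConsOn ZA ZB fun v => X v - Y v :=
  fun v h1 h2 => ⟨fun s hs => edgeA_sub ((hX v h1 h2).1 s hs) ((hY v h1 h2).1 s hs),
    fun s hs => edgeB_sub ((hX v h1 h2).2 s hs) ((hY v h1 h2).2 s hs)⟩

theorem consOn_mono {ZA ZB ZA' ZB' : H → Prop} {X : Site Γ H → View dA dB E}
    (hX : μ.ConsOn ZA ZB X) (hA : ∀ k, ZA k → ZA' k) (hB : ∀ k, ZB k → ZB' k) :
    μ.ConsOn ZA' ZB' X :=
  fun v h1 h2 => ⟨fun s hs => (hX v (mt (hA _) h1) (mt (hB _) h2)).1 s (mt (hA _) hs),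
    fun s hs => (hX v (mt (hA _) h1) (mt (hB _) h2)).2 s (mt (hB _) hs)⟩

theorem edgeA_tau {X : Site Γ H → View dA dB E} {h : H} {v : Site Γ H} {s : Fin dA}
    (hX : μ.EdgeA X (tau h v) s) : μ.EdgeA (fun v => X (tau h v)) v s := by
  unfold Mem.EdgeA at *
  simp only [tau_mvA]
  exact hX

theorem edgeB_tau {X : Site Γ H → View dA dB E} {h : H} {v : Site Γ H} {s : Fin dB}
    (hX : μ.EdgeB X (tau h v) s) : μ.EdgeB (fun v => X (tau h v)) v s := by
  unfold Mem.EdgeB at *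
  simp only [tau_mvB]
  exact hX

theorem consOn_tau {ZA ZB : H → Prop} {X : Site Γ H → View dA dB E} (hX : μ.ConsOn ZA ZB X)
    (h : H) : μ.ConsOn (fun k => ZA (h * k)) (fun k => ZB (h * k)) fun v => X (tau h v) :=
  fun v h1 h2 =>
    ⟨fun s hs => edgeA_tau ((hX (tau h v) h1 h2).1 s (by simpa only [tau, mul_assoc] using hs)),
      fun s hs => edgeB_tau ((hX (tau h v) h1 h2).2 s (by simpa only [tau, mul_assoc] using hs))⟩

theorem cons_tau {X : Site Γ H → View dA dB E} (hX : μ.Cons X) (h : H) :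
    μ.Cons fun v => X (tau h v) :=
  fun v => ⟨fun s => edgeA_tau ((hX (tau h v)).1 s), fun s => edgeB_tau ((hX (tau h v)).2 s)⟩

theorem consOn_of_cons {X : Site Γ H → View dA dB E} (hX : μ.Cons X) (ZA ZB : H → Prop) :
    μ.ConsOn ZA ZB X :=
  fun v _ _ => ⟨fun s _ => (hX v).1 s, fun s _ => (hX v).2 s⟩

theorem sparse_mono {d : ℕ} {η η' : ℝ} {S : Fin d → Γ × H} {Z : H → Prop} (hZ : Sparse η S Z)
    (h : η ≤ η') : Sparse η' S Z := fun k o hk => (hZ k o hk).trans h

theorem sparse_or {d : ℕ} {S : Fin d → Γ × H} {Z : H → Prop} (hZ : Sparse (1 / 20) S Z) (g : H) :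
    Sparse (1 / 10) S fun k => Z k ∨ Z (g * k) := by
  intro k o hk
  have h1 := hZ k o fun h => hk (Or.inl h)
  have h2 := hZ (g * k) o fun h => hk (Or.inr h)
  simp only [mul_assoc] at h2
  have h3 := frac_or_le (fun i => Z (k * (gen2 S (o, i)).2)) fun i => Z (g * (k * (gen2 S (o, i)).2))
  linarith

end Alg

section Poinc

variable {H : Type} [Group H] [Fintype H] {a : ℕ} {γ : ℝ} {gen : Fin a → H}

theorem frac_mul_left (p : H → Prop) (g : H) : frac (fun h => p (g * h)) = frac p :=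
  frac_equiv (Equiv.mulLeft g) p

theorem frac_mul_right (p : H → Prop) (g : H) : frac (fun h => p (h * g)) = frac p :=
  frac_equiv (Equiv.mulRight g) p

/-- The Poincare inequality for functions with values in an arbitrary type. -/
theorem poinc_ne (hP : HPoinc γ gen) {Y : Type} (ψ : H → Y) :
    γ * frac (fun x : H × H => ψ x.1 ≠ ψ x.2) ≤ ∑ i, frac fun h => ψ h ≠ ψ (gen i * h) := by
  classical
  set T : Finset Y := Finset.univ.image ψ with hT
  have key : ∀ h k : H, ∑ y ∈ T, ((if ψ h = y then (1 : ℝ) else 0) -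
      (if ψ k = y then (1 : ℝ) else 0)) ^ 2 = 2 * if ψ h ≠ ψ k then 1 else 0 := by
    intro h k
    have hh : ψ h ∈ T := Finset.mem_image_of_mem _ (Finset.mem_univ _)
    have hk : ψ k ∈ T := Finset.mem_image_of_mem _ (Finset.mem_univ _)
    by_cases e : ψ h = ψ k
    · simp [e]
    · have : ∀ y, ((if ψ h = y then (1 : ℝ) else 0) - (if ψ k = y then (1 : ℝ) else 0)) ^ 2 =
          (if ψ h = y then (1 : ℝ) else 0) + (if ψ k = y then (1 : ℝ) else 0) := by
        intro y
        by_cases h1 : ψ h = y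
        · have h2 : ψ k ≠ y := fun h2 => e (h1.trans h2.symm)
          simp [h1, h2]
        · by_cases h2 : ψ k = y <;> simp [h1, h2]
      simp only [this, Finset.sum_add_distrib, Finset.sum_ite_eq, hh, hk, if_true, ne_eq, e,
        not_false_eq_true]
      norm_num
  have h1 := Finset.sum_le_sum (s := T) fun y _ => hP fun h => if ψ h = y then (1 : ℝ) else 0
  rw [← Finset.mul_sum, ← mean_sum, Finset.sum_comm] at h1
  simp only [← mean_sum, key, mean_const_mul, ← Finset.mul_sum] at h1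
  simp only [frac_eq_mean, ← mean_sum]
  linarith

theorem closed_of_poinc (hγ : 0 < γ) (hP : HPoinc γ gen) {K : H → Prop} {k₀ : H} (h0 : K k₀)
    (hK : ∀ h i, K h → K (gen i * h)) (h : H) : K h := by
  have hinv : ∀ i k, K (gen i * k) → K k := by
    intro i k hk
    have hn : ∀ n : ℕ, K (gen i ^ n * (gen i * k)) := by
      intro n
      induction n with
      | zero => simpa using hk
      | succ n ih =>
        rw [pow_succ', mul_assoc]
        exact hK _ i ih
    have h1 := hn (orderOf (gen i) - 1)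
    rwa [← mul_assoc, ← pow_succ, Nat.sub_add_cancel (orderOf_pos (gen i)), pow_orderOf_eq_one,
      one_mul] at h1
  have h1 := poinc_ne hP K
  rw [Finset.sum_eq_zero fun i _ => frac_eq_zero fun k hk =>
    hk (propext ⟨hK k i, hinv i k⟩)] at h1
  have h2 : frac (fun x : H × H => K x.1 ≠ K x.2) ≤ 0 := by
    by_contra hc
    exact absurd h1 (not_le.2 (mul_pos hγ (not_le.1 hc)))
  have h3 := not_of_frac_le_zero h2 (k₀, h)
  exact (not_not.1 h3 : K k₀ = K h) ▸ h0

end Poinc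

section Site

variable {Γ H : Type} [AddCommGroup Γ] [Group H] [Fintype Γ] [Fintype H]

theorem frac_site_A (p : H → Prop) : frac (fun v : Site Γ H => p v.2.1) = frac p :=
  (frac_snd (X := Γ) fun q : H × H => p q.1).trans (frac_fst p)

theorem frac_site_B (p : H → Prop) : frac (fun v : Site Γ H => p v.2.2) = frac p :=
  (frac_snd (X := Γ) fun q : H × H => p q.2).trans (frac_snd p)

end Site

end Fr

open Fr in
theorem frameStmt (hR : RDistStmt) : FrameStmt := by
  intro a γ hγ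
  obtain ⟨ζ, hζ0, hζ1, hζ2⟩ : ∃ ζ : ℝ, 0 < ζ ∧ ζ ≤ 1 / 100 ∧ 4 * a * ζ ≤ γ * (1 / 100) := by
    have ha : (0 : ℝ) ≤ a := Nat.cast_nonneg a
    refine ⟨min (1 / 100) (γ / (400 * (a + 1))), by positivity, min_le_left _ _, ?_⟩
    have h1 : min (1 / 100) (γ / (400 * (a + 1))) ≤ γ / (400 * (a + 1)) := min_le_right _ _
    have h2 : 4 * a * (γ / (400 * (a + 1))) ≤ γ * (1 / 100) := by
      rw [show 4 * a * (γ / (400 * (a + 1))) = γ * (1 / 100) * (a / (a + 1)) by
        field_simp; ring]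
      exact mul_le_of_le_one_right (by positivity) ((div_le_one (by positivity)).2 (by linarith))
    exact (mul_le_mul_of_nonneg_left h1 (by positivity)).trans h2
  refine ⟨ζ, hζ0, ?_⟩
  intro Γ H F _ _ _ _ _ _ dA dB μ hμ gen hP E _ _ ZA ZB Φ hZA hZB sA sB hΦ hfr
  have hR' := hR Γ H F dA dB μ hμ E
  -- the frame equations are exact
  have step1 : ∀ h i (v : Site Γ H), ¬ ZA v.2.1 → ¬ ZB v.2.2 → ¬ ZA (gen i * v.2.1) →
      ¬ ZB (gen i * v.2.2) → Φ (gen i * h) (tau (gen i) v) = Φ h v := by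
    intro h i v h1 h2 h3 h4
    have hc : μ.ConsOn (fun k => ZA k ∨ ZA (gen i * k)) (fun k => ZB k ∨ ZB (gen i * k))
        fun v => Φ (gen i * h) (tau (gen i) v) - Φ h v :=
      consOn_sub (consOn_mono (consOn_tau (hΦ _) _) (fun _ => Or.inr) fun _ => Or.inr)
        (consOn_mono (hΦ _) (fun _ => Or.inl) fun _ => Or.inl)
    refine sub_eq_zero.1 (hR' _ _ _ (sparse_or sA _) (sparse_or sB _) hc ?_ v
      (not_or.2 ⟨h1, h3⟩) (not_or.2 ⟨h2, h4⟩))
    refine lt_of_le_of_lt ((frac_mono fun v hv => ?_).trans hfr) (by linarith)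
    exact ⟨h, i, sub_ne_zero.1 hv.2.2⟩
  -- the majority value
  have hbad : ∀ (u : Site Γ H), frac (fun h => ZA (h * u.2.1) ∨ ZB (h * u.2.2)) ≤ 2 * ζ := by
    intro u
    have h1 := frac_or_le (fun h => ZA (h * u.2.1)) fun h => ZB (h * u.2.2)
    rw [frac_mul_right ZA, frac_mul_right ZB] at h1
    linarith
  have step2 : ∀ u : Site Γ H, ∃ x, frac (fun h => Φ h (tau h u) ≠ x) ≤ 1 / 100 := by
    intro u
    have h1 := poinc_ne hP fun h => Φ h (tau h u)
    have h2 : ∀ i, frac (fun h => Φ h (tau h u) ≠ Φ (gen i * h) (tau (gen i * h) u)) ≤ 4 * ζ := by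
      intro i
      have h3 := hbad u
      have h4 := (frac_mul_left (fun h => ZA (h * u.2.1) ∨ ZB (h * u.2.2)) (gen i)).trans_le h3
      refine (frac_le_add (q := fun h => ZA (h * u.2.1) ∨ ZB (h * u.2.2))
        (r := fun h => ZA (gen i * h * u.2.1) ∨ ZB (gen i * h * u.2.2)) fun h hh => ?_).trans
        (by linarith)
      by_contra hc
      simp only [not_or] at hc
      refine hh ?_
      rw [← tau_tau]
      exact (step1 h i (tau h u) hc.1.1 hc.1.2 (by simpa only [tau, mul_assoc] using hc.2.1)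
        (by simpa only [tau, mul_assoc] using hc.2.2)).symm
    have h5 := h1.trans (Finset.sum_le_sum fun i _ => h2 i)
    rw [Finset.sum_const, Finset.card_univ, Fintype.card_fin, nsmul_eq_mul] at h5
    have h6 : frac (fun x : H × H => Φ x.1 (tau x.1 u) ≠ Φ x.2 (tau x.2 u)) ≤ 1 / 100 :=
      le_of_mul_le_mul_left (by linarith) hγ
    rw [frac_prod'] at h6
    obtain ⟨k, hk⟩ := exists_le_mean fun k : H => frac fun h : H => Φ h (tau h u) ≠ Φ k (tau k u)
    exact ⟨_, hk.trans h6⟩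
  choose X hX using step2
  have common : ∀ u u' : Site Γ H, ∃ h, (¬ ZA (h * u.2.1) ∧ ¬ ZB (h * u.2.2) ∧ Φ h (tau h u) = X u) ∧
      (¬ ZA (h * u'.2.1) ∧ ¬ ZB (h * u'.2.2) ∧ Φ h (tau h u') = X u') := by
    intro u u'
    have h1 : ∀ u : Site Γ H, frac (fun h =>
        ¬ (¬ ZA (h * u.2.1) ∧ ¬ ZB (h * u.2.2) ∧ Φ h (tau h u) = X u)) ≤ 2 * ζ + 1 / 100 := by
      intro u
      refine (frac_le_add (q := fun h => ZA (h * u.2.1) ∨ ZB (h * u.2.2))
        (r := fun h => Φ h (tau h u) ≠ X u) fun h hh => ?_).trans (add_le_add (hbad u) (hX u))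
      tauto
    obtain ⟨h, h2, h3⟩ := exists_not_and_not
      ((add_le_add (h1 u) (h1 u')).trans_lt (by linarith))
    exact ⟨h, not_not.1 h2, not_not.1 h3⟩
  have hcons : μ.Cons X := by
    refine fun u => ⟨fun s => ?_, fun s => ?_⟩
    · obtain ⟨h, h1, h2⟩ := common u (mvA (μ.SA s) u)
      have h3 := (hΦ h (tau h u) h1.1 h1.2.1).1 s
        (by simpa only [tau, mvA, mul_assoc] using h2.1)
      unfold Mem.EdgeA at h3 ⊢
      rwa [← tau_mvA, h1.2.2, h2.2.2] at h3
    · obtain ⟨h, h1, h2⟩ := common u (mvB (μ.SB s) u)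
      have h3 := (hΦ h (tau h u) h1.1 h1.2.1).2 s
        (by simpa only [tau, mvB, mul_assoc] using h2.2.1)
      unfold Mem.EdgeB at h3 ⊢
      rwa [← tau_mvB, h1.2.2, h2.2.2] at h3
  refine ⟨X, hcons, ?_⟩
  have close : ∀ h, frac (fun v : Site Γ H =>
      ¬ ZA v.2.1 ∧ ¬ ZB v.2.2 ∧ Φ h v ≠ X (tau h⁻¹ v)) < 1 / 10 →
      ∀ v : Site Γ H, ¬ ZA v.2.1 → ¬ ZB v.2.2 → Φ h v = X (tau h⁻¹ v) := by
    intro h hh v h1 h2
    refine sub_eq_zero.1 (hR' ZA ZB (fun v => Φ h v - X (tau h⁻¹ v))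
      (sparse_mono sA (by norm_num)) (sparse_mono sB (by norm_num))
      (consOn_sub (hΦ h) (consOn_of_cons (cons_tau hcons _) _ _)) ?_ v h1 h2)
    simpa only [sub_ne_zero] using hh
  obtain ⟨k₀, hk₀⟩ := exists_le_mean fun h : H => frac fun u : Site Γ H => Φ h (tau h u) ≠ X u
  have hk₁ : frac (fun u : Site Γ H => Φ k₀ (tau k₀ u) ≠ X u) ≤ 1 / 100 := by
    refine hk₀.trans ?_
    rw [mean_frac_comm fun (h : H) (u : Site Γ H) => Φ h (tau h u) ≠ X u]
    exact mean_le_of_le (by norm_num) hX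
  refine closed_of_poinc hγ hP (K := fun h => ∀ v : Site Γ H, ¬ ZA v.2.1 → ¬ ZB v.2.2 →
    Φ h v = X (tau h⁻¹ v)) (k₀ := k₀) (close k₀ ?_) fun h i hh => close _ ?_
  · have h1 := frac_bij (tau_bij k₀⁻¹) fun u : Site Γ H => Φ k₀ (tau k₀ u) ≠ X u
    simp only [tau_tau_inv] at h1
    refine lt_of_le_of_lt ((frac_mono fun v hv => hv.2.2).trans (h1.trans_le hk₁)) (by norm_num)
  · have h1 := frac_site_A (Γ := Γ) fun k => ZA ((gen i)⁻¹ * k)
    have h2 := frac_site_B (Γ := Γ) fun k => ZB ((gen i)⁻¹ * k)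
    rw [frac_mul_left] at h1 h2
    refine lt_of_le_of_lt (frac_le_add (q := fun v : Site Γ H => ZA ((gen i)⁻¹ * v.2.1))
      (r := fun v : Site Γ H => ZB ((gen i)⁻¹ * v.2.2)) fun w hw => ?_) (by linarith)
    by_contra hc
    rw [not_or] at hc
    refine hw.2.2 ?_
    have h3 := step1 h i (tau (gen i)⁻¹ w) hc.1 hc.2
      (by simpa only [tau, mul_inv_cancel_left] using hw.1)
      (by simpa only [tau, mul_inv_cancel_left] using hw.2.1)
    rw [tau_tau_inv] at h3
    rw [h3, hh _ hc.1 hc.2, tau_tau, mul_inv_rev]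

end Vale.Agent.P330.Outer
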