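import Vale.Agent.P330.Outer.MemDefs

/-!
P330, outer system: the relaxed local test of the memory code.
-/

namespace Vale.Agent.P330.Outer

namespace RL

section Alg

variable {F : Type} [Field F] {E : Type} [AddCommGroup E] [Module F E]

/-- the same edge seen from the other end -/
def fl {d : ℕ} (e : Bool × Fin d) : Bool × Fin d := (!e.1, e.2)

/-- the point of an edge -/
def pt (F : Type) [Field F] {d : ℕ} (e : Bool × Fin d) : F :=
  ((if e.1 then d + e.2 else e.2 : ℕ) : F)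

/-- the multiplier of an edge -/
def mu {d : ℕ} (y : F) (e : Bool × Fin d) : F := if e.1 then y else 1

theorem edgeVal_eq {d : ℕ} (y : F) (P : Fin (d + 1) → E) (e : Bool × Fin d) :
    edgeVal y P e = mu y e • ∑ i : Fin (d + 1), (pt F e ^ (i : ℕ)) • P i := rfl

theorem mu_ne {d : ℕ} {y : F} (h : Pts d y) (e : Bool × Fin d) : mu y e ≠ 0 := by
  unfold mu
  split_ifs
  · exact h.ne
  · exact one_ne_zero

theorem pt_inj {d : ℕ} {y : F} (h : Pts d y) :
    Function.Injective (pt F : Bool × Fin d → F) := by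
  rintro ⟨o, i⟩ ⟨o', i'⟩ hh
  have hi := i.2
  have hi' := i'.2
  have := h.inj _ _ (by split_ifs <;> omega) (by split_ifs <;> omega) hh
  cases o <;> cases o' <;> simp at this ⊢ <;> omega

theorem edgeVal_comm {dA dB : ℕ} (yA yB : F) (Φ : View dA dB E) (e : Bool × Fin dA)
    (e' : Bool × Fin dB) :
    edgeVal yB (edgeVal yA Φ e) e' = edgeVal yA (edgeVal yB Φ.tr e') e := by
  simp only [edgeVal_eq, Pi.smul_apply, Finset.sum_apply, Finset.smul_sum, smul_smul, View.tr]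
  rw [Finset.sum_comm]
  refine Finset.sum_congr rfl fun i _ => Finset.sum_congr rfl fun j _ => ?_
  congr 1
  ring

theorem mat_cancel {n : ℕ} {A B : Matrix (Fin n) (Fin n) F} (h : A * B = 1) (w : Fin n → E)
    (k : Fin n) : ∑ i, A k i • ∑ j, B i j • w j = w k := by
  simp only [Finset.smul_sum, smul_smul]
  rw [Finset.sum_comm]
  simp only [← Finset.sum_smul]
  have : ∀ j, ∑ i, A k i * B i j = (1 : Matrix (Fin n) (Fin n) F) k j := fun j => by
    rw [← h, Matrix.mul_apply]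
  simp [this, Matrix.one_apply]

theorem vdm_unit {d : ℕ} {y : F} (h : Pts d y) {φ : Fin (d + 1) → Bool × Fin d}
    (hφ : Function.Injective φ) : IsUnit (Matrix.vandermonde fun j => pt F (φ j)).det :=
  (Matrix.det_vandermonde_ne_zero_iff.2 ((pt_inj h).comp hφ)).isUnit

theorem uniq_at {d : ℕ} {y : F} (h : Pts d y) {φ : Fin (d + 1) → Bool × Fin d}
    (hφ : Function.Injective φ) {P Q : Fin (d + 1) → E}
    (hPQ : ∀ j, edgeVal y P (φ j) = edgeVal y Q (φ j)) : P = Q := by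
  funext k
  have h1 := Matrix.nonsing_inv_mul _ (vdm_unit h hφ)
  rw [← mat_cancel h1 P k, ← mat_cancel h1 Q k]
  refine Finset.sum_congr rfl fun j _ => ?_
  congr 1
  have := hPQ j
  rw [edgeVal_eq, edgeVal_eq] at this
  exact smul_right_injective E (mu_ne h (φ j)) this

theorem interp_at {d : ℕ} {y : F} (h : Pts d y) {φ : Fin (d + 1) → Bool × Fin d}
    (hφ : Function.Injective φ) (w : Bool × Fin d → E) :
    ∃ P : Fin (d + 1) → E, ∀ j, edgeVal y P (φ j) = w (φ j) := by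
  have h1 := Matrix.mul_nonsing_inv _ (vdm_unit h hφ)
  refine ⟨fun i => ∑ j, (Matrix.vandermonde fun j => pt F (φ j))⁻¹ i j •
    ((mu y (φ j))⁻¹ • w (φ j)), fun k => ?_⟩
  have := mat_cancel h1 (fun j => (mu y (φ j))⁻¹ • w (φ j)) k
  rw [edgeVal_eq]
  simp only [Matrix.vandermonde_apply] at this
  rw [this, smul_smul, mul_inv_cancel₀ (mu_ne h _), one_smul]

theorem exists_points {d : ℕ} (hd : 0 < d) {R : Bool × Fin d → Prop}
    (hR : frac (fun e => ¬ R e) < 1 / 2) :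
    ∃ φ : Fin (d + 1) → Bool × Fin d, Function.Injective φ ∧ ∀ j, R (φ j) := by
  classical
  have : Nonempty (Fin d) := ⟨⟨0, hd⟩⟩
  rw [frac_not, frac_eq] at hR
  have hd' : (0 : ℝ) < d := by exact_mod_cast hd
  have h1 : (d : ℝ) < (Finset.univ.filter R).card := by
    have h2 : (1 / 2 : ℝ) < (Finset.univ.filter R).card / Fintype.card (Bool × Fin d) := by
      linarith
    rw [lt_div_iff₀ card_pos_real] at h2
    simp only [Fintype.card_prod, Fintype.card_bool, Fintype.card_fin, Nat.cast_mul,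
      Nat.cast_ofNat] at h2
    linarith
  have h2 : d + 1 ≤ (Finset.univ.filter R).card := by exact_mod_cast h1
  obtain ⟨t, ht, hc⟩ := Finset.exists_subset_card_eq h2
  refine ⟨fun j => (Finset.equivFinOfCardEq hc).symm j, fun i j hij => ?_, fun j => ?_⟩
  · exact (Finset.equivFinOfCardEq hc).symm.injective (Subtype.ext hij)
  · exact (Finset.mem_filter.1 (ht ((Finset.equivFinOfCardEq hc).symm j).2)).2

theorem uniq {d : ℕ} {y : F} (h : Pts d y) (hd : 0 < d) {R : Bool × Fin d → Prop}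
    (hR : frac (fun e => ¬ R e) < 1 / 2) {P Q : Fin (d + 1) → E}
    (hPQ : ∀ e, R e → edgeVal y P e = edgeVal y Q e) : P = Q := by
  obtain ⟨φ, hφ, hφR⟩ := exists_points hd hR
  exact uniq_at h hφ fun j => hPQ _ (hφR j)

/-- Compatible rows and columns come from one view. -/
theorem tensor {dA dB : ℕ} {yA yB : F} (hA : Pts dA yA) (hB : Pts dB yB) (hdA : 0 < dA)
    (hdB : 0 < dB) {R : Bool × Fin dA → Prop} {C : Bool × Fin dB → Prop}
    (hR : frac (fun e => ¬ R e) < 1 / 2) (hC : frac (fun e => ¬ C e) < 1 / 2)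
    (ρ : Bool × Fin dA → Fin (dB + 1) → E) (κ : Bool × Fin dB → Fin (dA + 1) → E)
    (h : ∀ e e', R e → C e' → edgeVal yB (ρ e) e' = edgeVal yA (κ e') e) :
    ∃ Ψ : View dA dB E, (∀ e, R e → edgeVal yA Ψ e = ρ e) ∧
      ∀ e', C e' → edgeVal yB Ψ.tr e' = κ e' := by
  obtain ⟨φ, hφ, hφR⟩ := exists_points hdA hR
  obtain ⟨Ψ, hΨ⟩ := interp_at hA hφ ρ
  have h2 : ∀ e', C e' → edgeVal yB (View.tr Ψ) e' = κ e' := fun e' he' =>
    uniq_at hA hφ fun j => by rw [← edgeVal_comm, hΨ, h _ _ (hφR j) he']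
  refine ⟨Ψ, fun e he => uniq hB hdB hC fun e' he' => ?_, h2⟩
  rw [edgeVal_comm, h2 e' he', h e e' he he']

end Alg

section Mix

variable {Γ H : Type} [AddCommGroup Γ] [Group H] [DistribMulAction H Γ] [Fintype Γ] [Fintype H]

/-- Few vertices see a sparse set often. -/
theorem heavy {d : ℕ} (hd : 0 < d) {S : Fin d → Γ × H} {η : ℝ} (hη : 0 < η)
    (hS : GSpec (η / 10) S) (U : Γ × H → Prop) (hU : frac U ≤ η / 2) :
    frac (fun g => ∃ o, η < frac fun i => U (gmul g (gen2 S (o, i)))) ≤ frac U / 10 := by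
  classical
  have : Nonempty (Fin d) := ⟨⟨0, hd⟩⟩
  have h0 := frac_nonneg U
  have h1 := frac_le_one U
  have key : ∀ o, frac (fun g => η < frac fun i => U (gmul g (gen2 S (o, i)))) ≤ frac U / 25 := by
    intro o
    have hm : mean (fun g => (if U g then (1 : ℝ) else 0) - frac U) = 0 := by
      rw [mean_sub, mean_const, ← frac_eq_mean, sub_self]
    have h2 := hS o _ hm
    have h3 : mean (fun g => ((if U g then (1 : ℝ) else 0) - frac U) ^ 2) ≤ frac U := by
      have : ∀ g, ((if U g then (1 : ℝ) else 0) - frac U) ^ 2 =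
          (1 - 2 * frac U) * (if U g then (1 : ℝ) else 0) + frac U ^ 2 := fun g => by
        split_ifs <;> ring
      rw [mean_congr this, mean_add, mean_const_mul, mean_const, ← frac_eq_mean]
      nlinarith
    have h4 : ∀ g, mean (fun i => (if U (gmul g (gen2 S (o, i))) then (1 : ℝ) else 0) - frac U) =
        frac (fun i => U (gmul g (gen2 S (o, i)))) - frac U := fun g => by
      rw [mean_sub, mean_const, ← frac_eq_mean]
    simp only [h4] at h2
    have h5 := frac_mul_le_mean (t := (η / 2) ^ 2)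
      (p := fun g => η < frac fun i => U (gmul g (gen2 S (o, i))))
      (f := fun g => (frac (fun i => U (gmul g (gen2 S (o, i)))) - frac U) ^ 2)
      (fun g => sq_nonneg _) fun g hg => pow_le_pow_left₀ (by positivity) (by linarith) 2
    have h6 : (η / 10) ^ 2 * mean (fun g => ((if U g then (1 : ℝ) else 0) - frac U) ^ 2) ≤
        (η / 10) ^ 2 * frac U := mul_le_mul_of_nonneg_left h3 (by positivity)
    have h7 : (η / 2) ^ 2 * frac (fun g => η < frac fun i => U (gmul g (gen2 S (o, i)))) ≤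
        (η / 2) ^ 2 * (frac U / 25) := by
      have : (η / 10) ^ 2 * frac U = (η / 2) ^ 2 * (frac U / 25) := by ring
      linarith
    exact le_of_mul_le_mul_left h7 (by positivity)
  have := frac_exists_le_card key
  simp only [Fintype.card_bool, Nat.cast_ofNat] at this
  linarith

/-- The same in all fibres which are not dense. -/
theorem fibre {d : ℕ} (hd : 0 < d) {S : Fin d → Γ × H} {η : ℝ} (hη : 0 < η)
    (hS : GSpec (η / 10) S) (U : (Γ × H) × H → Prop) :
    ∃ K : H → Prop, frac K ≤ 2 / η * frac U ∧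
      frac (fun p : (Γ × H) × H => ¬ K p.2 ∧
        ∃ o, η < frac fun i => U (gmul p.1 (gen2 S (o, i)), p.2)) ≤ frac U / 10 := by
  refine ⟨fun b => η / 2 < frac fun g => U (g, b), ?_, ?_⟩
  · have := markov_lt (f := fun b => frac fun g => U (g, b)) (t := η / 2)
      (fun _ => frac_nonneg _) (by positivity) (frac_prod' U).ge
    refine this.trans (le_of_eq ?_)
    field_simp
  · rw [frac_prod', frac_prod' U, ← mean_div_const]
    refine mean_mono fun b => ?_
    by_cases hb : η / 2 < frac fun g => U (g, b)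
    · rw [frac_eq_zero fun g hg => hg.1 hb]
      have := frac_nonneg fun g => U (g, b)
      positivity
    · exact (frac_mono fun g hg => hg.2).trans (heavy hd hη hS (fun g => U (g, b)) (not_lt.1 hb))

/-- sites as vertices of the first graph -/
def eqA : (Γ × H) × H ≃ Site Γ H where
  toFun p := (p.1.1, p.1.2, p.2)
  invFun v := ((v.1, v.2.1), v.2.2)
  left_inv _ := rfl
  right_inv _ := rfl

/-- sites as vertices of the second graph -/
def eqB : (Γ × H) × H ≃ Site Γ H where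
  toFun p := (p.1.1, p.2, p.1.2)
  invFun v := ((v.1, v.2.2), v.2.1)
  left_inv _ := rfl
  right_inv _ := rfl

theorem fibreA {d : ℕ} (hd : 0 < d) {S : Fin d → Γ × H} {η : ℝ} (hη : 0 < η)
    (hS : GSpec (η / 10) S) (U : Site Γ H → Prop) :
    ∃ K : H → Prop, frac K ≤ 2 / η * frac U ∧
      frac (fun v : Site Γ H => ¬ K v.2.2 ∧
        ∃ o, η < frac fun i => U (mvA (gen2 S (o, i)) v)) ≤ frac U / 10 := by
  obtain ⟨K, h1, h2⟩ := fibre hd hη hS fun p => U (eqA p)
  rw [frac_equiv eqA U] at h1 h2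
  exact ⟨K, h1, by rw [← frac_equiv eqA]; exact h2⟩

theorem fibreB {d : ℕ} (hd : 0 < d) {S : Fin d → Γ × H} {η : ℝ} (hη : 0 < η)
    (hS : GSpec (η / 10) S) (U : Site Γ H → Prop) :
    ∃ K : H → Prop, frac K ≤ 2 / η * frac U ∧
      frac (fun v : Site Γ H => ¬ K v.2.1 ∧
        ∃ o, η < frac fun i => U (mvB (gen2 S (o, i)) v)) ≤ frac U / 10 := by
  obtain ⟨K, h1, h2⟩ := fibre hd hη hS fun p => U (eqB p)
  rw [frac_equiv eqB U] at h1 h2
  exact ⟨K, h1, by rw [← frac_equiv eqB]; exact h2⟩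

/-- classes with many neighbours in `Z` -/
def Hv {d : ℕ} (η : ℝ) (S : Fin d → Γ × H) (Z : H → Prop) (h : H) : Prop :=
  ∃ o, η < frac fun i => Z (h * (gen2 S (o, i)).2)

theorem heavyH {d : ℕ} (hd : 0 < d) {S : Fin d → Γ × H} {η : ℝ} (hη : 0 < η)
    (hS : GSpec (η / 10) S) (Z : H → Prop) (hZ : frac Z ≤ η / 2) :
    frac (Hv η S Z) ≤ frac Z / 10 := by
  have h1 := heavy hd hη hS (fun g => Z g.2) (by rwa [frac_snd])
  rw [frac_snd] at h1
  rw [← frac_snd (X := Γ) (Hv η S Z)]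
  exact h1

/-- the smallest sparse set containing `K` -/
def cl {d : ℕ} (η : ℝ) (S : Fin d → Γ × H) (K : H → Prop) (h : H) : Prop :=
  ∀ Z : H → Prop, (∀ x, K x → Z x) → Sparse η S Z → Z h

omit [Fintype Γ] [Fintype H] in
theorem le_cl {d : ℕ} {η : ℝ} {S : Fin d → Γ × H} {K : H → Prop} {h : H} (hh : K h) :
    cl η S K h := fun _ hZ _ => hZ h hh

omit [Fintype Γ] [Fintype H] in
theorem cl_mono {d : ℕ} {η : ℝ} {S : Fin d → Γ × H} {K K' : H → Prop} (hK : ∀ x, K x → K' x)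
    {h : H} (hh : cl η S K h) : cl η S K' h := fun Z hZ hs => hh Z (fun x hx => hZ x (hK x hx)) hs

omit [Fintype Γ] [Fintype H] in
theorem sparse_cl {d : ℕ} (η : ℝ) (S : Fin d → Γ × H) (K : H → Prop) : Sparse η S (cl η S K) := by
  intro h o hh
  simp only [cl, not_forall] at hh
  obtain ⟨Z, hZ, hs, hh⟩ := hh
  exact (frac_mono fun i hi => hi Z hZ hs).trans (hs h o hh)

theorem frac_cl {d : ℕ} (hd : 0 < d) {S : Fin d → Γ × H} {η : ℝ} (hη : 0 < η)
    (hS : GSpec (η / 10) S) (K : H → Prop) {r : ℝ} (hK : frac K ≤ r) (hr : r ≤ η / 4) :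
    frac (cl η S K) ≤ 2 * r := by
  classical
  have hr0 := (frac_nonneg K).trans hK
  obtain ⟨Z, hZ, hmax⟩ := Finset.exists_max_image
    (Finset.univ.filter fun Z : Finset H =>
      (∀ x ∈ Z, K x ∨ Hv η S (· ∈ Z) x) ∧ frac (· ∈ Z) ≤ 2 * r) Finset.card
    ⟨∅, by
      simp only [Finset.mem_filter, Finset.mem_univ, true_and]
      refine ⟨fun x hx => absurd hx (Finset.notMem_empty x), ?_⟩
      rw [frac_eq_zero fun x => Finset.notMem_empty x]
      linarith⟩
  obtain ⟨h1, h2⟩ := (Finset.mem_filter.1 hZ).2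
  set Z' : Finset H := Finset.univ.filter fun x => K x ∨ Hv η S (· ∈ Z) x with hZ'
  have hmem : ∀ x, x ∈ Z' ↔ K x ∨ Hv η S (· ∈ Z) x := fun x => by simp [hZ']
  have hsub : Z ⊆ Z' := fun x hx => (hmem x).2 (h1 x hx)
  have h3 := heavyH hd hη hS (· ∈ Z) (by linarith)
  have h4 := hmax Z' (Finset.mem_filter.2 ⟨Finset.mem_univ _, fun x hx => ?_, ?_⟩)
  · have h5 : Z = Z' := Finset.eq_of_subset_of_card_le hsub h4
    refine le_trans (frac_mono fun h hh => hh (· ∈ Z) (fun x hx => ?_) fun x o hx => ?_) h2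
    · rw [h5]
      exact (hmem x).2 (Or.inl hx)
    · by_contra hc
      exact hx (h5 ▸ (hmem x).2 (Or.inr ⟨o, not_le.1 hc⟩))
  · rcases (hmem x).1 hx with h | ⟨o, h⟩
    · exact Or.inl h
    · exact Or.inr ⟨o, h.trans_le (frac_mono fun i hi => hsub hi)⟩
  · have := frac_le_add (p := (· ∈ Z')) fun x hx => (hmem x).1 hx
    linarith

end Mix

section Repair

variable {Γ H : Type} [AddCommGroup Γ] [Group H] [DistribMulAction H Γ]
  {F : Type} [Field F] {E : Type} [AddCommGroup E] [Module F E] {dA dB : ℕ}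

theorem mv_comm (s t : Γ × H) (v : Site Γ H) : mvA s (mvB t v) = mvB t (mvA s v) := by
  simp only [mvA, mvB]
  rw [add_right_comm]

theorem mvA_inv (s : Γ × H) (v : Site Γ H) : mvA s (mvA (ginv s) v) = v := by
  simp [mvA, ginv, mul_smul]

theorem mvB_inv (s : Γ × H) (v : Site Γ H) : mvB s (mvB (ginv s) v) = v := by
  simp [mvB, ginv, mul_smul]

/-- consistency on all edges between sites of `G` -/
def Con (μ : Mem Γ H F dA dB) (G : Site Γ H → Prop) (Φ : Site Γ H → View dA dB E) : Prop :=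
  ∀ v, G v → (∀ e, G (mvA (gen2 μ.SA e) v) →
      edgeVal μ.yA (Φ v) e = edgeVal μ.yA (Φ (mvA (gen2 μ.SA e) v)) (fl e)) ∧
    ∀ e, G (mvB (gen2 μ.SB e) v) →
      edgeVal μ.yB (Φ v).tr e = edgeVal μ.yB (Φ (mvB (gen2 μ.SB e) v)).tr (fl e)

theorem Con.mono {μ : Mem Γ H F dA dB} {G G' : Site Γ H → Prop} {Φ : Site Γ H → View dA dB E}
    (h : Con μ G Φ) (hG : ∀ v, G' v → G v) : Con μ G' Φ := fun v hv =>
  ⟨fun e he => (h v (hG v hv)).1 e (hG _ he), fun e he => (h v (hG v hv)).2 e (hG _ he)⟩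

theorem con_start (μ : Mem Γ H F dA dB) (X : Site Γ H → View dA dB E) :
    Con μ (fun v => (∀ s, μ.EdgeA X v s) ∧ ∀ s, μ.EdgeB X v s) X := by
  intro v hv
  constructor
  · rintro ⟨o, s⟩ he
    cases o
    · have h := he.1 s
      simp only [Mem.EdgeA, gen2, Bool.false_eq_true, if_false, mvA_inv] at h
      exact h.symm
    · exact hv.1 s
  · rintro ⟨o, s⟩ he
    cases o
    · have h := he.2 s
      simp only [Mem.EdgeB, gen2, Bool.false_eq_true, if_false, mvB_inv] at h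
      exact h.symm
    · exact hv.2 s

theorem quarter {d : ℕ} {R R' : Bool × Fin d → Prop} (h : frac (fun e => ¬ R e) < 1 / 4)
    (h' : frac (fun e => ¬ R' e) < 1 / 4) : frac (fun e => ¬ (R e ∧ R' e)) < 1 / 2 := by
  have := frac_le_add (p := fun e => ¬ (R e ∧ R' e)) (q := fun e => ¬ R e) (r := fun e => ¬ R' e)
    fun e he => not_and_or.1 he
  linarith

/-- Sites with many good rows and columns are repaired simultaneously. -/
theorem repair {μ : Mem Γ H F dA dB} (hA : Pts dA μ.yA) (hB : Pts dB μ.yB) (hdA : 0 < dA)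
    (hdB : 0 < dB) {G G' : Site Γ H → Prop} {Φ : Site Γ H → View dA dB E} (hΦ : Con μ G Φ)
    (h : ∀ v, G' v → ∃ (R : Bool × Fin dA → Prop) (C : Bool × Fin dB → Prop),
      frac (fun e => ¬ R e) < 1 / 4 ∧ frac (fun e => ¬ C e) < 1 / 4 ∧
      (∀ e, R e → G (mvA (gen2 μ.SA e) v)) ∧ (∀ e', C e' → G (mvB (gen2 μ.SB e') v)) ∧
      ∀ e e', R e → C e' → G (mvA (gen2 μ.SA e) (mvB (gen2 μ.SB e') v))) :
    ∃ Φ' : Site Γ H → View dA dB E, Con μ G' Φ' ∧ ∀ v, G v ∨ ¬ G' v → Φ' v = Φ v := by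
  classical
  choose! R C hR hC hGR hGC hGD using h
  have hT : ∀ v, G' v → ∃ Ψ : View dA dB E,
      (∀ e, R v e → edgeVal μ.yA Ψ e = edgeVal μ.yA (Φ (mvA (gen2 μ.SA e) v)) (fl e)) ∧
      ∀ e', C v e' → edgeVal μ.yB Ψ.tr e' =
        edgeVal μ.yB (Φ (mvB (gen2 μ.SB e') v)).tr (fl e') := by
    intro v hv
    refine tensor hA hB hdA hdB ((hR v hv).trans (by norm_num)) ((hC v hv).trans (by norm_num))
      _ _ fun e e' he he' => ?_
    have hD := hGD v hv e e' he he'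
    have h1 := (hΦ _ (hGC v hv e' he')).1 e hD
    rw [mv_comm] at hD
    have h2 := (hΦ _ (hGR v hv e he)).2 e' hD
    rw [edgeVal_comm, h2, ← edgeVal_comm, ← edgeVal_comm, h1, mv_comm]
  choose! Ψ hΨA hΨB using hT
  refine ⟨fun v => if G' v then Ψ v else Φ v, fun v hv => ⟨fun e he => ?_, fun e' he' => ?_⟩,
    fun v hv => ?_⟩
  · simp only [if_pos hv, if_pos he]
    refine uniq hB hdB (quarter (hC v hv) (hC _ he)) fun e' he' => ?_
    have h1 := hGC _ he e' he'.2
    rw [← mv_comm] at h1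
    rw [edgeVal_comm _ _ (Ψ v), edgeVal_comm _ _ (Ψ (mvA _ v)), hΨB v hv e' he'.1,
      hΨB _ he e' he'.2, ← edgeVal_comm, ← edgeVal_comm, (hΦ _ (hGC v hv e' he'.1)).1 e h1,
      mv_comm]
  · simp only [if_pos hv, if_pos he']
    refine uniq hA hdA (quarter (hR v hv) (hR _ he')) fun e he => ?_
    have h1 := hGR _ he' e he.2
    rw [mv_comm] at h1
    rw [← edgeVal_comm, ← edgeVal_comm, hΨA v hv e he.1, hΨA _ he' e he.2,
      edgeVal_comm _ _ (Φ (mvA _ v)), edgeVal_comm _ _ (Φ (mvA _ (mvB _ v))),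
      (hΦ _ (hGR v hv e he.1)).2 e' h1, mv_comm]
  · by_cases hv' : G' v
    · have hG : G v := hv.resolve_right (not_not.2 hv')
      simp only [if_pos hv']
      refine uniq hA hdA ((hR v hv').trans (by norm_num)) fun e he => ?_
      rw [hΨA v hv' e he, (hΦ v hG).1 e (hGR v hv' e he)]
    · simp only [if_neg hv']

end Repair

section Round

variable {Γ H : Type} [AddCommGroup Γ] [Group H] [DistribMulAction H Γ] [Fintype Γ] [Fintype H]
  {F : Type} [Field F] {E : Type} [AddCommGroup E] [Module F E] {dA dB : ℕ}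

/-- One round: the set of unrepaired sites is halved. -/
theorem round {μ : Mem Γ H F dA dB} {a : ℝ} (ha : 0 < a) (ha' : a * (dB + 1) ≤ 1 / 20)
    (hμ : μ.Ok (a / 10) (1 / 20 / 10)) (U : Site Γ H → Prop) :
    ∃ (KA KB : H → Prop) (U' : Site Γ H → Prop), frac KA ≤ 44 * frac U ∧
      frac KB ≤ 2 / a * frac U ∧ frac U' ≤ frac U / 2 ∧
      ∀ ZA ZB : H → Prop, (∀ h, KA h → ZA h) → (∀ h, KB h → ZB h) → Sparse a μ.SA ZA →
        Sparse (1 / 20) μ.SB ZB → ∀ Φ : Site Γ H → View dA dB E,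
        Con μ (fun v => ¬ ZA v.2.1 ∧ ¬ ZB v.2.2 ∧ ¬ U v) Φ →
        ∃ Φ' : Site Γ H → View dA dB E, Con μ (fun v => ¬ ZA v.2.1 ∧ ¬ ZB v.2.2 ∧ ¬ U' v) Φ' ∧
          ∀ v, ¬ U v → Φ' v = Φ v := by
  obtain ⟨KB, hKB, hW⟩ := fibreA hμ.posA ha hμ.specA U
  set W : Site Γ H → Prop := fun v => ¬ KB v.2.2 ∧
    ∃ o, a < frac fun i => U (mvA (gen2 μ.SA (o, i)) v) with hWdef
  obtain ⟨KA, hKA, hT⟩ := fibreB hμ.posB (by norm_num : (0 : ℝ) < 1 / 20) hμ.specB
    fun v => U v ∨ W v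
  set T : Site Γ H → Prop := fun v => ¬ KA v.2.1 ∧
    ∃ o, 1 / 20 < frac fun i => U (mvB (gen2 μ.SB (o, i)) v) ∨ W (mvB (gen2 μ.SB (o, i)) v)
    with hTdef
  have h1 := frac_or_le U W
  have h2 := frac_or_le W T
  have h0 := frac_nonneg U
  refine ⟨KA, KB, fun v => W v ∨ T v, by linarith, hKB, by linarith, ?_⟩
  intro ZA ZB hZA hZB sA sB Φ hΦ
  have hWle : ∀ v : Site Γ H, ¬ ZB v.2.2 → ¬ W v →
      frac (fun e => U (mvA (gen2 μ.SA e) v)) ≤ a := fun v hv hw =>
    frac_prod_le ha.le fun o => not_lt.1 fun hc => hw ⟨fun hk => hv (hZB _ hk), o, hc⟩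
  obtain ⟨Φ', h3, h4⟩ := repair hμ.ptsA hμ.ptsB hμ.posA hμ.posB hΦ
    (G' := fun v => ¬ ZA v.2.1 ∧ ¬ ZB v.2.2 ∧ ¬ (W v ∨ T v)) (by
    rintro v ⟨hvA, hvB, hv⟩
    rw [not_or] at hv
    set C : Bool × Fin dB → Prop := fun e' => ¬ ZB (v.2.2 * (gen2 μ.SB e').2) ∧
      ¬ (U (mvB (gen2 μ.SB e') v) ∨ W (mvB (gen2 μ.SB e') v)) with hC
    refine ⟨fun e => ¬ ZA (v.2.1 * (gen2 μ.SA e).2) ∧ ¬ U (mvA (gen2 μ.SA e) v) ∧
      ¬ ∃ e', C e' ∧ U (mvA (gen2 μ.SA e) (mvB (gen2 μ.SB e') v)), C, ?_, ?_,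
      fun e he => ⟨he.1, hvB, he.2.1⟩, fun e' he' => ⟨hvA, he'.1, fun hu => he'.2 (Or.inl hu)⟩,
      fun e e' he he' => ⟨he.1, he'.1, fun hu => he.2.2 ⟨e', he', hu⟩⟩⟩
    · have b1 : frac (fun e => ZA (v.2.1 * (gen2 μ.SA e).2)) ≤ a :=
        frac_prod_le ha.le fun o => sA _ o hvA
      have b2 := hWle v hvB hv.1
      have b3 : frac (fun e => ∃ e', C e' ∧ U (mvA (gen2 μ.SA e) (mvB (gen2 μ.SB e') v))) ≤
          Fintype.card (Bool × Fin dB) * a := by
        refine frac_exists_le_card fun e' => ?_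
        by_cases he' : C e'
        · exact (frac_mono fun e he => he.2).trans
            (hWle (mvB (gen2 μ.SB e') v) he'.1 fun hw => he'.2 (Or.inr hw))
        · rw [frac_eq_zero fun e he => he' he.1]
          exact ha.le
      simp only [Fintype.card_prod, Fintype.card_bool, Fintype.card_fin, Nat.cast_mul,
        Nat.cast_ofNat] at b3
      refine (frac_le_add3 (q := fun e => ZA (v.2.1 * (gen2 μ.SA e).2))
        (r := fun e => U (mvA (gen2 μ.SA e) v))
        (s := fun e => ∃ e', C e' ∧ U (mvA (gen2 μ.SA e) (mvB (gen2 μ.SB e') v)))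
        fun e he => by
          by_contra hc
          simp only [not_or] at hc
          exact he hc).trans_lt ?_
      nlinarith
    · have b1 : frac (fun e => ZB (v.2.2 * (gen2 μ.SB e).2)) ≤ 1 / 20 :=
        frac_prod_le (by norm_num) fun o => sB _ o hvB
      have b2 : frac (fun e => U (mvB (gen2 μ.SB e) v) ∨ W (mvB (gen2 μ.SB e) v)) ≤ 1 / 20 :=
        frac_prod_le (by norm_num) fun o =>
          not_lt.1 fun hc => hv.2 ⟨fun hk => hvA (hZA _ hk), o, hc⟩
      refine (frac_le_add (q := fun e => ZB (v.2.2 * (gen2 μ.SB e).2))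
        (r := fun e => U (mvB (gen2 μ.SB e) v) ∨ W (mvB (gen2 μ.SB e) v))
        fun e he => by simp only [hC] at he; tauto).trans_lt ?_
      linarith)
  refine ⟨Φ', h3, fun v hv => h4 v ?_⟩
  tauto

/-- The iteration of the rounds. -/
theorem iter {μ : Mem Γ H F dA dB} {a : ℝ} (ha : 0 < a) (ha' : a * (dB + 1) ≤ 1 / 20)
    (hμ : μ.Ok (a / 10) (1 / 20 / 10)) (X : Site Γ H → View dA dB E) {θ : ℝ}
    (hθ : frac (fun v => ¬ ((∀ s, μ.EdgeA X v s) ∧ ∀ s, μ.EdgeB X v s)) ≤ θ) (k : ℕ) :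
    ∃ (KA KB : H → Prop) (U : Site Γ H → Prop) (Φ : Site Γ H → View dA dB E),
      frac KA + 88 * frac U ≤ 88 * θ ∧ frac KB + 4 / a * frac U ≤ 4 / a * θ ∧
      frac (fun v => X v ≠ Φ v) + 2 * frac U ≤ 2 * θ ∧ frac U ≤ (1 / 2) ^ k ∧
      Con μ (fun v => ¬ cl a μ.SA KA v.2.1 ∧ ¬ cl (1 / 20) μ.SB KB v.2.2 ∧ ¬ U v) Φ := by
  induction k with
  | zero =>
    refine ⟨fun _ => False, fun _ => False,
      fun v => ¬ ((∀ s, μ.EdgeA X v s) ∧ ∀ s, μ.EdgeB X v s), X, ?_, ?_, ?_, ?_, ?_⟩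
    · rw [frac_false]
      linarith
    · rw [frac_false, zero_add]
      exact mul_le_mul_of_nonneg_left hθ (by positivity)
    · rw [frac_eq_zero fun v hv => hv rfl]
      linarith
    · exact (frac_le_one _).trans (by norm_num)
    · exact (con_start μ X).mono fun v hv => not_not.1 hv.2.2
  | succ k ih =>
    obtain ⟨KA, KB, U, Φ, h1, h2, h3, h4, h5⟩ := ih
    obtain ⟨LA, LB, U', g1, g2, g3, g4⟩ := round (E := E) ha ha' hμ U
    obtain ⟨Φ', g5, g6⟩ := g4 (cl a μ.SA fun h => KA h ∨ LA h)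
      (cl (1 / 20) μ.SB fun h => KB h ∨ LB h) (fun h hh => le_cl (Or.inr hh))
      (fun h hh => le_cl (Or.inr hh)) (sparse_cl _ _ _) (sparse_cl _ _ _) Φ
      (h5.mono fun v hv => ⟨fun hc => hv.1 (cl_mono (fun _ => Or.inl) hc),
        fun hc => hv.2.1 (cl_mono (fun _ => Or.inl) hc), hv.2.2⟩)
    refine ⟨fun h => KA h ∨ LA h, fun h => KB h ∨ LB h, U', Φ', ?_, ?_, ?_, ?_, g5⟩
    · have := frac_or_le KA LA
      linarith
    · have := frac_or_le KB LB
      have b1 : 4 / a * frac U' ≤ 4 / a * (frac U / 2) :=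
        mul_le_mul_of_nonneg_left g3 (by positivity)
      have b2 : 4 / a * (frac U / 2) = 2 / a * frac U := by ring
      have b3 : 4 / a * frac U = 2 / a * frac U + 2 / a * frac U := by ring
      linarith
    · have := frac_le_add (p := fun v => X v ≠ Φ' v) (q := fun v => X v ≠ Φ v) (r := U)
        fun v hv => by
          by_cases hu : U v
          · exact Or.inr hu
          · exact Or.inl (g6 v hu ▸ hv)
      linarith
    · rw [pow_succ]
      linarith

end Round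

end RL

open RL in
theorem rltcStmt : RLTCStmt := by
  refine ⟨1 / 20 / 10, by norm_num, fun dB => ?_⟩
  obtain ⟨a, ha, ha'⟩ : ∃ a : ℝ, 0 < a ∧ a * (dB + 1) ≤ 1 / 20 :=
    ⟨1 / 20 / (dB + 1), by positivity, le_of_eq (by field_simp)⟩
  have ha1 : a ≤ 1 / 20 := by
    have : (0 : ℝ) ≤ a * dB := by positivity
    linarith
  refine ⟨a / 10, a / 400, 10 / a, by positivity, by positivity, by positivity, ?_⟩
  intro Γ H F _ _ _ _ _ _ dA μ hμ E _ _ X θ hθ hX
  have hθ0 : 0 ≤ θ := (frac_nonneg _).trans hX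
  obtain ⟨k, hk⟩ := exists_pow_lt_of_lt_one (x := 1 / (Fintype.card (Site Γ H) : ℝ))
    (y := (1 / 2 : ℝ)) (by have := card_pos_real (C := Site Γ H); positivity) (by norm_num)
  obtain ⟨KA, KB, U, Φ, h1, h2, h3, h4, h5⟩ := iter ha ha' hμ X hX k
  have hU : ∀ v, ¬ U v := not_of_frac_lt (h4.trans_lt hk)
  rw [frac_eq_zero hU, mul_zero, add_zero] at h1 h2 h3
  have hd : (1 : ℝ) ≤ dA := by exact_mod_cast hμ.posA
  have b0 : 0 ≤ 1 / a * θ := by positivity
  have b1 : 20 * θ ≤ 1 / a * θ := by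
    refine mul_le_mul_of_nonneg_right ?_ hθ0
    rw [le_div_iff₀ ha]
    linarith
  have b2 : 10 * (1 / a * θ) ≤ 10 / a * dA * θ := by
    have : 10 / a * dA * θ = 10 * (1 / a * θ) * dA := by ring
    rw [this]
    exact le_mul_of_one_le_right (by positivity) hd
  have b3 : 1 / a * θ ≤ 1 / 400 := by
    have : 1 / a * θ ≤ 1 / a * (a / 400) := mul_le_mul_of_nonneg_left hθ (by positivity)
    refine this.trans (le_of_eq ?_)
    field_simp
  have b4 : 4 / a * θ = 4 * (1 / a * θ) := by ring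
  have c1 := frac_cl hμ.posA ha hμ.specA KA h1 (by linarith)
  have c2 := frac_cl hμ.posB (by norm_num : (0 : ℝ) < 1 / 20) hμ.specB KB h2 (by linarith)
  refine ⟨cl a μ.SA KA, cl (1 / 20) μ.SB KB, Φ, by linarith, by linarith,
    fun h o hh => (sparse_cl _ _ _ h o hh).trans ha1, sparse_cl _ _ _, fun v hA hB => ?_,
    by linarith⟩
  have := h5 v ⟨hA, hB, hU v⟩
  exact ⟨fun s hs => this.1 (true, s) ⟨hs, hB, hU _⟩, fun s hs => this.2 (true, s) ⟨hA, hs, hU _⟩⟩

end Vale.Agent.P330.Outer
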