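import Vale.Agent.P330.BasicPT

/-!
P330: matrices over prime fields in polynomial time (products, powers, inverses).
-/

set_option linter.unusedSectionVars false

namespace Vale.Agent.P330.Outer.MemPTP

open Vale.Agent.Lib.PolyTime hiding C P
open Vale.Agent.Lib.Dep
open Matrix

/-- the order of the general linear group -/
def gle (q n : ℕ) : ℕ := ∏ i ∈ Finset.range n, (q ^ n - q ^ i)

theorem gle_pos {q : ℕ} (hq : 1 < q) (n : ℕ) : 0 < gle q n :=
  Finset.prod_pos fun _ hi => Nat.sub_pos_of_lt (Nat.pow_lt_pow_right hq (Finset.mem_range.1 hi))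

theorem pow_gle {N F : Type} [Fintype N] [DecidableEq N] [Field F] [Fintype F] {M : Matrix N N F}
    (h : IsUnit M) : M ^ gle (Fintype.card F) (Fintype.card N) = 1 := by
  let φ := reindexRingEquiv F (Fintype.equivFin N)
  obtain ⟨u, hu⟩ := h.map φ
  have h1 : u ^ Nat.card (GL (Fin (Fintype.card N)) F) = 1 := pow_card_eq_one'
  rw [card_GL_field, Fin.prod_univ_eq_prod_range
    (fun i => Fintype.card F ^ Fintype.card N - Fintype.card F ^ i)] at h1
  refine φ.injective ?_
  rw [map_pow, map_one, ← hu, ← Units.val_pow_eq_pow_val]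
  exact congrArg Units.val h1

theorem exists_isUnit {N F : Type} [Fintype N] [DecidableEq N] [Field F] [Fintype F]
    (A : Matrix N N F) {B : Matrix N N F} (hB : IsUnit B)
    (hc : Fintype.card N + 1 < Fintype.card F) : ∃ y : F, y ≠ 0 ∧ IsUnit (y • A + B) := by
  by_contra hcon
  push Not at hcon
  set Q := det ((Polynomial.X : Polynomial F) • A.map Polynomial.C + B.map Polynomial.C) with hQ
  have h1 : ∀ y : F, Q.eval y = det (y • A + B) := fun y => by
    rw [hQ, ← Polynomial.coe_evalRingHom, RingHom.map_det]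
    congr 1
    ext i j
    simp only [RingHom.mapMatrix_apply, Matrix.map_apply, Matrix.add_apply, Matrix.smul_apply,
      smul_eq_mul, Polynomial.coe_evalRingHom, Polynomial.eval_add, Polynomial.eval_mul,
      Polynomial.eval_X, Polynomial.eval_C]
  have h2 : Polynomial.X * Q = 0 := by
    refine Polynomial.eq_zero_of_natDegree_lt_card_of_eval_eq_zero _ Function.injective_id
      (fun y => ?_) (Polynomial.natDegree_mul_le.trans_lt (lt_of_le_of_lt ?_ hc))
    · rw [id, Polynomial.eval_mul, Polynomial.eval_X, h1, mul_eq_zero, or_iff_not_imp_left]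
      intro hy
      simpa [isUnit_iff_isUnit_det] using hcon y hy
    · have := Polynomial.natDegree_det_X_add_C_le A B
      rw [Polynomial.natDegree_X, hQ]
      omega
  have h3 := h1 0
  rw [(mul_eq_zero.1 h2).resolve_left Polynomial.X_ne_zero, Polynomial.eval_zero, zero_smul,
    zero_add] at h3
  exact ((isUnit_iff_isUnit_det B).1 hB).ne_zero h3.symm

theorem foldl_bits_pow' {R : Type} [Monoid R] (x : R) (n : ℕ) :
    n.bits.reverse.foldl (fun u b => u * u * bif b then x else 1) 1 = x ^ n := by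
  induction n using Nat.binaryRec' with
  | zero => simp
  | bit b n h ih =>
    rw [Nat.bits_append_bit _ _ h, List.reverse_cons, List.foldl_append, ih]
    cases b <;> simp [Nat.bit_val, pow_succ, two_mul, pow_add]

/-- a matrix as a vector -/
def toV {N F : Type} (M : Matrix N N F) : Vec (N × N) F := fun x => M x.1 x.2

/-- a vector as a matrix -/
def ofV {N F : Type} (u : Vec (N × N) F) : Matrix N N F := fun i j => u (i, j)

section PT

variable {α : Type} [Enc α] {N F : α → Type} [∀ a, Enc (N a)]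

@[fun_prop]
theorem dpt_gle {q n : α → ℕ} (hq : DPT q) (hn : DPT n) (hb : PBd n) :
    DPT fun a => gle (q a) (n a) := by
  have h1 : DPT fun a => (List.range (n a)).map fun i => q a ^ n a - q a ^ i := by fun_prop
  exact (DPT.ofPT (PT.prod h1.toPT)).congr fun a => prod_map_range _ _

variable [∀ a, CommRing (F a)] [∀ a, Code (F a)]

/-- The entries are computable in polynomial time. -/
def MPT (M : ∀ a, Matrix (N a) (N a) (F a)) : Prop :=
  DPT fun x : Σ a, N a × N a => M x.1 x.2.1 x.2.2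

theorem MPT.at {M : ∀ a, Matrix (N a) (N a) (F a)} (h : MPT M) {κ : Type} [Enc κ] {c : κ → α}
    {i j : ∀ x, N (c x)} (hc : DPT c) (hi : DPT i) (hj : DPT j) :
    DPT fun x => M (c x) (i x) (j x) := DPT.fn2 (fun a i j => M a i j) h hc hi hj

theorem MPT.comp {M : ∀ a, Matrix (N a) (N a) (F a)} (h : MPT M) {κ : Type} [Enc κ] {c : κ → α}
    (hc : DPT c) : MPT (N := fun x => N (c x)) (F := fun x => F (c x)) fun x => M (c x) :=
  h.at (hc.comp DPT.id.sfst) DPT.ssnd.fst DPT.ssnd.snd

theorem MPT.cond {A B : ∀ a, Matrix (N a) (N a) (F a)} {b : α → Bool} (hb : DPT b) (hA : MPT A)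
    (hB : MPT B) : MPT fun a => bif b a then A a else B a :=
  (DPT.cond (hb.comp DPT.id.sfst) hA hB).congr fun x => by
    beta_reduce
    cases b x.1 <;> rfl

variable [∀ a, En (N a)] [∀ a, EncInj (N a)] [∀ a, Fintype (N a)] [∀ a, DecidableEq (N a)]

theorem MPT.one (hF : PTRing F) : MPT fun a => (1 : Matrix (N a) (N a) (F a)) :=
  (DPT.ite (DPr.eq DPT.ssnd.fst DPT.ssnd.snd) (hF.one.comp DPT.id.sfst)
    (hF.zero.comp DPT.id.sfst)).congr fun _ => (Matrix.one_apply).symm

theorem MPT.mul {A B : ∀ a, Matrix (N a) (N a) (F a)} (hF : PTRing F)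
    (hN : DPT fun a => elems (N a)) (hA : MPT A) (hB : MPT B) : MPT fun a => A a * B a :=
  (dpt_sum (V := fun x : Σ a, N a × N a => N x.1) (R := fun x => F x.1)
    (f := fun x k => A x.1 x.2.1 k * B x.1 k x.2.2) (hF.comp DPT.id.sfst) (hN.comp DPT.id.sfst)
    (DPT.mul (hF.comp DPT.id.sfst.sfst)
      (hA.at DPT.id.sfst.sfst (by fun_prop) DPT.ssnd)
      (hB.at DPT.id.sfst.sfst DPT.ssnd (by fun_prop)))).congr
    fun _ => (Matrix.mul_apply).symm

theorem MPT.toV {M : ∀ a, Matrix (N a) (N a) (F a)} (hN : DPT fun a => elems (N a)) (h : MPT M) :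
    DPT fun a => toV (M a) := dpt_vecMk (dpt_elems_prod hN hN) h

theorem MPT.ofV {u : ∀ a, Vec (N a × N a) (F a)} (hN : DPT fun a => elems (N a)) (h : DPT u) :
    MPT fun a => ofV (u a) := dpt_vecEnt (dpt_elems_prod hN hN) h

/-- powers with the exponent in binary -/
theorem MPT.pow [∀ a, HtZero (F a)] {M : ∀ a, Matrix (N a) (N a) (F a)} {n : α → ℕ}
    (hF : PTRing F) (hN : DPT fun a => elems (N a)) (h : MPT M) (hn : DPT n) :
    MPT fun a => M a ^ n a := by
  obtain ⟨b, hb, h1⟩ := hF.sz.pbd (PBd.const 0)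
  have h2 : DPT fun a => (n a).bits.reverse.foldl
      (fun u b => MemPTP.toV (MemPTP.ofV u * MemPTP.ofV u * bif b then M a else 1))
      (MemPTP.toV (1 : Matrix (N a) (N a) (F a))) := by
    refine dpt_foldl_bdd (W := fun _ => Bool) (exists_esize_vec_le (dpt_elems_prod hN hN)
      ⟨b, hb, fun a y => h1 a y (ht_eq_zero y).le⟩) (by fun_prop) ((MPT.one hF).toV hN) ?_
    have hN' := hN.comp (DPT.id.sfst (β := fun a =>
      Vec (N a × N a) (F a) × {x // x ∈ (n a).bits.reverse}))
    have hF' := hF.comp (DPT.id.sfst (β := fun a =>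
      Vec (N a × N a) (F a) × {x // x ∈ (n a).bits.reverse}))
    have h3 := MPT.ofV hN' DPT.ssnd.fst
    exact ((h3.mul hF' hN' h3).mul hF' hN'
      (MPT.cond DPT.ssnd.snd.val (h.comp DPT.id.sfst) (MPT.one hF'))).toV hN'
  refine (MPT.ofV hN h2).congr fun x => ?_
  beta_reduce
  rw [← foldl_bits_pow']
  exact congrFun (List.foldl_hom MemPTP.toV fun _ _ => rfl) _

theorem MPT.eq {A B : ∀ a, Matrix (N a) (N a) (F a)} (hN : DPT fun a => elems (N a)) (hA : MPT A)
    (hB : MPT B) : DPr fun a => A a = B a :=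
  (DPr.eq (hA.toV hN) (hB.toV hN)).congr fun _ =>
    ⟨fun h => congrArg MemPTP.ofV h, fun h => congrArg MemPTP.toV h⟩

theorem MPT.mulVec {M : ∀ a, Matrix (N a) (N a) (F a)} {v : ∀ a, N a → F a} (hF : PTRing F)
    (hN : DPT fun a => elems (N a)) (h : MPT M) (hv : DPT fun x : Σ a, N a => v x.1 x.2) :
    DPT fun x : Σ a, N a => (M x.1 *ᵥ v x.1) x.2 :=
  dpt_sum (V := fun x : Σ a, N a => N x.1) (R := fun x => F x.1)
    (f := fun x k => M x.1 x.2 k * v x.1 k) (hF.comp DPT.id.sfst) (hN.comp DPT.id.sfst)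
    (DPT.mul (hF.comp DPT.id.sfst.sfst)
      (h.at DPT.id.sfst.sfst (DPT.ssnd.comp DPT.id.sfst) DPT.ssnd)
      (DPT.fn v hv DPT.id.sfst.sfst DPT.ssnd))

end PT

end Vale.Agent.P330.Outer.MemPTP
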