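import Vale.Agent.P330.Outer.GrpDefs
import Vale.Agent.P330.Outer.MemEnc
import Vale.Agent.P330.Outer.MatPT

/-!
P330, outer system: multipliers and the encoder of the memory code in polynomial time.
-/

set_option linter.unusedSectionVars false

namespace Vale.Agent.P330.Outer

open Vale.Agent.Lib.PolyTime hiding C P
open Vale.Agent.Lib.Dep
open Vale.Agent.P330.Bohr
open Matrix

namespace MemPTP

section Alg

variable {G F : Type} [Fintype G] [DecidableEq G] [Field F] {d : ℕ}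

/-- The matrix of the edge equations and of the leading coefficients. -/
def mat (σ : Fin d → G → G) (y : F) : Matrix (G × Fin (d + 1)) (G × Fin (d + 1)) F := fun a b =>
  Fin.lastCases (if a.1 = b.1 then if b.2 = Fin.last d then 1 else 0 else 0)
    (fun s => (if a.1 = b.1 then y * ((d + s : ℕ) : F) ^ (b.2 : ℕ) else 0) -
      if σ s a.1 = b.1 then ((s : ℕ) : F) ^ (b.2 : ℕ) else 0) a.2

theorem mat_last (σ : Fin d → G → G) (y : F) (P : G × Fin (d + 1) → F) (g : G) :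
    (mat σ y *ᵥ P) (g, Fin.last d) = P (g, Fin.last d) := by
  simp [mat, mulVec, dotProduct, Fintype.sum_prod_type, Finset.sum_ite_irrel]

theorem mat_edge (σ : Fin d → G → G) (y : F) (P : G × Fin (d + 1) → F) (g : G) (s : Fin d) :
    (mat σ y *ᵥ P) (g, s.castSucc) = edgeVal y (fun i => P (g, i)) (true, s) -
      edgeVal y (fun i => P (σ s g, i)) (false, s) := by
  simp [mat, mulVec, dotProduct, Fintype.sum_prod_type, sub_mul, Finset.sum_ite_irrel, edgeVal,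
    Finset.mul_sum, mul_assoc]

theorem mat_eq (σ : Fin d → G → G) (y : F) : mat σ y = y • (mat σ 1 - mat σ 0) + mat σ 0 := by
  ext ⟨g, i⟩ b
  refine Fin.lastCases ?_ (fun s => ?_) i
  · simp [mat]
  · by_cases h : g = b.1 <;> simp [mat, h]
    ring

theorem isUnit_mat_zero {σ : Fin d → G → G} (hσ : ∀ s, Function.Surjective (σ s))
    (hinj : ∀ i j : ℕ, i < 2 * d → j < 2 * d → (i : F) = j → i = j) : IsUnit (mat σ (0 : F)) := by
  refine mulVec_injective_iff_isUnit.1 ((injective_iff_map_eq_zero (mat σ (0 : F)).mulVecLin).2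
    fun P hP => ?_)
  have h1 : ∀ g, P (g, Fin.last d) = 0 := fun g => (mat_last σ 0 P g).symm.trans (congrFun hP _)
  funext ⟨g, i⟩
  refine Fin.lastCases (h1 g) (fun s => ?_) i
  refine congrFun (eq_zero_of_forall_index_sum_pow_mul_eq_zero (f := fun s : Fin d => ((s : ℕ) : F))
    (v := fun s => P (g, s.castSucc))
    (fun i j h => Fin.ext (hinj i j (by omega) (by omega) h)) fun s => ?_) s
  obtain ⟨g, rfl⟩ := hσ s g
  have h2 := (mat_edge σ 0 P g s).symm.trans (congrFun hP _)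
  simpa [edgeVal, Fin.sum_univ_castSucc, h1] using h2

end Alg

section PT

variable {α : Type} [Enc α] {G : α → Type} [∀ a, Enc (G a)] [∀ a, En (G a)] [∀ a, EncInj (G a)]
  [∀ a, Fintype (G a)] [∀ a, DecidableEq (G a)] {p : α → ℕ} [∀ a, Fact (p a).Prime] {d : ℕ}

theorem mpt_mat {σ : ∀ a, Fin d → G a → G a} {y : ∀ a, ZMod (p a)} (hp : DPT p)
    (hσ : ∀ s, DPT fun x : Σ a, G a => σ x.1 s x.2) (hy : DPT y) : MPT fun a => mat (σ a) (y a) := by
  refine dpt_cases (f := fun i (x : Σ a, (G a × Fin (d + 1)) × G a × Fin (d + 1)) =>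
    mat (σ x.1) (y x.1) (x.2.1.1, i) x.2.2) DPT.ssnd.fst.snd fun i => ?_
  refine dpt_cases (f := fun j (x : Σ a, (G a × Fin (d + 1)) × G a × Fin (d + 1)) =>
    mat (σ x.1) (y x.1) (x.2.1.1, i) (x.2.2.1, j)) DPT.ssnd.snd.snd fun j => ?_
  refine Fin.lastCases ?_ (fun s => ?_) i
  · simp only [mat, Fin.lastCases_last]
    fun_prop
  · simp only [mat, Fin.lastCases_castSucc]
    have := DPT.fn (fun a => σ a s) (hσ s)
    fun_prop

/-- The multiplier and the Green function of one graph. -/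
theorem exists_green {σ : ∀ a, Fin d → G a → G a} {r : ∀ a, G a → ZMod (p a)} (hp : DPT p)
    (hb : PBd p) (hG : DPT fun a => elems (G a)) (hσ : ∀ s, DPT fun x : Σ a, G a => σ x.1 s x.2)
    (hr : DPT fun x : Σ a, G a => r x.1 x.2) (hs : ∀ a s, Function.Surjective (σ a s))
    (h1 : ∀ a, 2 * d ≤ p a) (h2 : ∀ a, Fintype.card (G a) * (d + 1) + 1 < p a) :
    ∃ (y : ∀ a, ZMod (p a)) (P : ∀ a, G a → Fin (d + 1) → ZMod (p a)), DPT y ∧
      (∀ i, DPT fun x : Σ a, G a => P x.1 x.2 i) ∧ ∀ a, Pts d (y a) ∧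
        (∀ Q : G a → Fin (d + 1) → ZMod (p a), (∀ g s, edgeVal (y a) (Q g) (true, s) =
          edgeVal (y a) (Q (σ a s g)) (false, s)) → (∀ g, Q g (Fin.last d) = 0) → Q = 0) ∧
        (∀ g s, edgeVal (y a) (P a g) (true, s) = edgeVal (y a) (P a (σ a s g)) (false, s)) ∧
        ∀ g, P a g (Fin.last d) = r a g := by
  let e : α → ℕ := fun a => gle (p a) (Fintype.card (G a × Fin (d + 1)))
  have hN : DPT fun a => elems (G a × Fin (d + 1)) := dpt_elems_prod hG (DPT.const _)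
  have he : DPT e := dpt_gle hp (dpt_card hN) (pbd_card hN)
  have he0 : ∀ a, 0 < e a := fun a => gle_pos (Fact.out : (p a).Prime).one_lt _
  have hF := PTRing.zmod hp
  have hinj : ∀ a (i j : ℕ), i < 2 * d → j < 2 * d → (i : ZMod (p a)) = j → i = j :=
    fun a i j hi hj h => by
      have := congrArg ZMod.val h
      rwa [ZMod.val_cast_of_lt (hi.trans_le (h1 a)), ZMod.val_cast_of_lt (hj.trans_le (h1 a))]
        at this
  let y : ∀ a, ZMod (p a) := fun a => firstD (fun y => y ≠ 0 ∧ mat (σ a) y ^ e a = 1) 0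
  have hy : DPT y := by
    have hN' := hN.comp (DPT.id.sfst (β := fun a => ZMod (p a)))
    have hF' := hF.comp (DPT.id.sfst (β := fun a => ZMod (p a)))
    exact dpt_firstD (dpt_elems_zmod hp hb) ((DPr.ne DPT.ssnd hF'.zero).and (MPT.eq hN'
      ((mpt_mat (hp.comp DPT.id.sfst)
        (fun s => DPT.fn (fun a => σ a s) (hσ s) DPT.id.sfst.sfst DPT.ssnd) DPT.ssnd).pow hF' hN'
          (he.comp DPT.id.sfst)) (MPT.one hF'))) hF.zero
  have hy' : ∀ a, y a ≠ 0 ∧ mat (σ a) (y a) ^ e a = 1 := fun a => by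
    refine firstD_spec (q := fun y => y ≠ 0 ∧ mat (σ a) y ^ e a = 1) ?_ 0
    obtain ⟨z, h3, h4⟩ := exists_isUnit (mat (σ a) 1 - mat (σ a) 0)
      (isUnit_mat_zero (hs a) (hinj a)) (by simpa using h2 a)
    refine ⟨z, h3, ?_⟩
    simpa only [ZMod.card, ← mat_eq] using pow_gle h4
  let v : ∀ a, G a × Fin (d + 1) → ZMod (p a) := fun a x => if x.2 = Fin.last d then r a x.1 else 0
  have hv : DPT fun x : Σ a, G a × Fin (d + 1) => v x.1 x.2 := by
    have := DPT.fn r hr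
    simp only [v]
    fun_prop
  have h3 := ((mpt_mat hp hσ hy).pow hF hN (he.natSub (DPT.const 1))).mulVec hF hN hv
  have h4 : ∀ a, mat (σ a) (y a) *ᵥ (mat (σ a) (y a) ^ (e a - 1) *ᵥ v a) = v a := fun a => by
    rw [mulVec_mulVec, ← pow_succ', Nat.sub_add_cancel (he0 a), (hy' a).2, one_mulVec]
  refine ⟨y, fun a g i => (mat (σ a) (y a) ^ (e a - 1) *ᵥ v a) (g, i), hy,
    fun i => DPT.fn (fun a => mat (σ a) (y a) ^ (e a - 1) *ᵥ v a) h3 DPT.id.sfst
      (DPT.ssnd.pair (DPT.const i)), fun a => ⟨⟨hinj a, (hy' a).1⟩, fun Q e1 e2 => ?_,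
      fun g s => ?_, fun g => ?_⟩⟩
  · have h5 : mat (σ a) (y a) *ᵥ (fun x => Q x.1 x.2) = 0 := by
      funext ⟨g, i⟩
      refine Fin.lastCases ((mat_last _ _ _ g).trans (e2 g)) (fun s => ?_) i
      exact (mat_edge _ _ _ g s).trans (sub_eq_zero.2 (e1 g s))
    have h6 := congrArg (fun w => mat (σ a) (y a) ^ (e a - 1) *ᵥ w) h5
    simp only [mulVec_mulVec, ← pow_succ, Nat.sub_add_cancel (he0 a), (hy' a).2, one_mulVec,
      mulVec_zero] at h6
    funext g i
    exact congrFun h6 (g, i)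
  · rw [← sub_eq_zero, ← mat_edge, h4]
    exact if_neg (Fin.castSucc_lt_last s).ne
  · exact (mat_last (σ a) (y a) _ g).symm.trans ((congrFun (h4 a) _).trans (if_pos rfl))

theorem dpt_gadd {m : α → ℕ} {f g : ∀ a, Gam (m a)} (hm : DPT m) (hb : PBd m) (hf : DPT f)
    (hg : DPT g) : DPT fun a => f a + g a :=
  dpt_vecMk (dpt_elems_fin hm hb) (DPT.add (S := fun _ => ZMod 2) (by fun_prop)
    (dpt_vecEnt (dpt_elems_fin hm hb) hf) (dpt_vecEnt (dpt_elems_fin hm hb) hg))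

theorem dpt_gsub {m : α → ℕ} {f g : ∀ a, Gam (m a)} (hm : DPT m) (hb : PBd m) (hf : DPT f)
    (hg : DPT g) : DPT fun a => f a - g a :=
  dpt_vecMk (dpt_elems_fin hm hb) (DPT.sub (S := fun _ => ZMod 2) (by fun_prop)
    (dpt_vecEnt (dpt_elems_fin hm hb) hf) (dpt_vecEnt (dpt_elems_fin hm hb) hg))

theorem dpt_gzero {m : α → ℕ} (hm : DPT m) (hb : PBd m) : DPT fun a => (0 : Gam (m a)) :=
  dpt_vecMk (dpt_elems_fin hm hb) (DPT.const (0 : ZMod 2))

end PT

theorem dpt_gsmul {π : Par} (g : GP π) {κ : Type} [Enc κ] {c : κ → π.β} {h : ∀ x, g.H.T (c x)}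
    {ε : ∀ x, Gam (π.m (c x))} (hc : DPT c) (hh : DPT h) (hε : DPT ε) : DPT fun x => h x • ε x := by
  have h1 := dpt_elems_fin (π.ptm.comp hc) (pbd_comp π.pbm hc)
  exact dpt_vecMk h1 (dpt_vecAt (f := fun x : Σ x, Fin (π.m (c x)) => ε x.1) (h1.comp DPT.id.sfst)
    (hε.comp DPT.id.sfst) (DPT.fn2 (fun b h (i : Fin (π.m b)) => h • i) g.ptAct
      (hc.comp DPT.id.sfst)
      (DPT.fn (fun _ h => h⁻¹) g.ptInv (hc.comp DPT.id.sfst) (hh.comp DPT.id.sfst)) DPT.ssnd))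

theorem dpt_gmul {π : Par} (g : GP π) {κ : Type} [Enc κ] {c : κ → π.β}
    {u v : ∀ x, Gam (π.m (c x)) × g.H.T (c x)} (hc : DPT c) (hu : DPT u) (hv : DPT v) :
    DPT fun x => gmul (u x) (v x) :=
  (dpt_gadd (π.ptm.comp hc) (pbd_comp π.pbm hc) hu.fst (dpt_gsmul g hc hu.snd hv.fst)).pair
    (DPT.fn2 (fun _ h k => h * k) g.ptMul hc hu.snd hv.snd)

theorem dpt_elems_gam (π : Par) : DPT fun I => elems (Gam (π.m (π.par I))) :=
  dpt_elems_vec (dpt_elems_fin (π.ptm.comp π.ptPar) (pbd_comp π.pbm π.ptPar)) (DPT.const _)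
    (π.ql.pbd.mono fun I => by simp [length_elems])

theorem gmul_surj {Γ H : Type} [AddCommGroup Γ] [Group H] [DistribMulAction H Γ] (s : Γ × H) :
    Function.Surjective fun g : Γ × H => gmul g s := fun g =>
  ⟨gmul g (ginv s), by simp [gmul, ginv, mul_smul]⟩

theorem green {π : Par} (g : GP π) {d e : ℕ} (hL : π.Large e) (he : g.e + (d + 2) ≤ e)
    (S : ∀ I, Fin d → Gam (π.m (π.par I)) × g.H.T (π.par I)) (hS : ∀ i, DPT fun I => S I i) :
    ∃ (y : ∀ I, ZMod (π.p (π.par I))) (P : ∀ I, Gam (π.m (π.par I)) × g.H.T (π.par I) →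
      Fin (d + 1) → ZMod (π.p (π.par I))), DPT y ∧
      (∀ i, DPT fun x : Σ I, Gam (π.m (π.par I)) × g.H.T (π.par I) => P x.1 x.2 i) ∧
      ∀ I, Pts d (y I) ∧ NonSing (S I) (y I) ∧
        (∀ u s, edgeVal (y I) (P I u) (true, s) = edgeVal (y I) (P I (gmul u (S I s))) (false, s)) ∧
        ∀ u, P I u (Fin.last d) = if u.1 = 0 then 1 else 0 := by
  have key : ∀ b, Fintype.card (Gam (π.m b) × g.H.T b) * (4 * (d + 1)) ≤ π.p b := fun b => by
    refine le_trans ?_ (hL b)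
    rw [Fintype.card_prod, card_vec, ZMod.card, Fintype.card_fin, mul_assoc]
    refine Nat.mul_le_mul_left _ (le_trans ?_ (Nat.pow_le_pow_right (by omega) he))
    rw [pow_add]
    refine Nat.mul_le_mul (g.card b) (le_trans ?_ (Nat.pow_le_pow_left (Nat.le_add_left 2 _) _))
    have := Nat.lt_two_pow_self (n := d)
    rw [pow_add]
    omega
  have hp := π.ptp.comp π.ptPar
  refine exists_green (σ := fun I s u => gmul u (S I s)) hp π.pbp
    (dpt_elems_prod (dpt_elems_gam π) (g.H.pt' π.ptPar))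
    (fun s => dpt_gmul g (π.ptPar.comp DPT.id.sfst) DPT.ssnd ((hS s).comp DPT.id.sfst))
    (DPT.ite (DPr.eq DPT.ssnd.fst (dpt_gzero ((π.ptm.comp π.ptPar).comp DPT.id.sfst)
      (pbd_comp π.pbm (π.ptPar.comp DPT.id.sfst))))
      ((PTRing.zmod hp).one.comp DPT.id.sfst) ((PTRing.zmod hp).zero.comp DPT.id.sfst))
    (fun I s => gmul_surj _) (fun I => ?_) fun I => ?_
  all_goals
    have h1 := key (π.par I)
    have h2 : 0 < Fintype.card (Gam (π.m (π.par I)) × g.H.T (π.par I)) := Fintype.card_pos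
    nlinarith

end MemPTP

open MemPTP in
theorem memPTStmt : MemPTStmt := by
  intro e dA dB _ _
  refine ⟨e + (dA + dB + 2), fun π g he hL SA SB hA hB => ?_⟩
  obtain ⟨yA, GA, a1, a2, a3⟩ := green g hL (by omega) SA hA
  obtain ⟨yB, GB, b1, b2, b3⟩ := green g hL (by omega) SB hB
  refine ⟨yA, yB, fun I x => Enc.conv (GA I) (GB I) x, a1, b1, fun i j => ?_, fun I =>
    ⟨(a3 I).1, (b3 I).1, (a3 I).2.1, (b3 I).2.1, fun x => Enc.isEnc_conv
      (μ := ⟨SA I, SB I, yA I, yB I⟩) (a3 I).2.2.1 (b3 I).2.2.1 (a3 I).2.2.2 (b3 I).2.2.2 x⟩⟩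
  have hF := PTRing.zmod (π.ptp.comp π.ptPar)
  have hΓ := dpt_elems_gam π
  have hm := π.ptm.comp π.ptPar
  simp only [Enc.conv, smul_eq_mul]
  refine dpt_sum (hF.comp DPT.id.sfst) (hΓ.comp DPT.id.sfst)
    (dpt_sum (hF.comp DPT.id.sfst.sfst) (hΓ.comp DPT.id.sfst.sfst) ?_)
  have hc := (DPT.id (α := Σ x : Σ x : Σ I, Vec (Gam (π.m (π.par I))) (ZMod (π.p (π.par I))) ×
    Site (Gam (π.m (π.par I))) (g.H.T (π.par I)), Gam (π.m (π.par x.1)),
      Gam (π.m (π.par x.1.1)))).sfst.sfst.sfst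
  refine DPT.mul (hF.comp hc) (DPT.fn (fun I u => GA I u i) (a2 i) hc (by fun_prop))
    (DPT.mul (hF.comp hc) (DPT.fn (fun I u => GB I u j) (b2 j) hc (by fun_prop)) ?_)
  have hb := pbd_comp π.pbm (π.ptPar.comp hc)
  exact dpt_vecAt (hΓ.comp hc) (by fun_prop) (dpt_gsub (hm.comp hc) hb
    (dpt_gsub (hm.comp hc) hb (by fun_prop) (by fun_prop)) DPT.ssnd)

end Vale.Agent.P330.Outer
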