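import Vale.Agent.P330.Outer.Defs

/-!
P330, O4: from typed outer systems to outer systems on bit strings.
-/

namespace Vale.Agent.P330.Outer

open Vale.Agent.Lib.PolyTime hiding C P
open Vale.Agent.Lib.Dep

namespace RawP

/-! ### Simulation of a line system on codes of the symbols -/

/-- The system `L'` works on the codes of the symbols of `L`. -/
structure Sim {c c' : ℕ} {Q T A : Type} (L : LRLS 0 c Q Unit T) (L' : LRLS 0 c' Q Unit A)
    (cd : T → A) (ps : A → T) : Prop where
  inv : ∀ v, ps (cd v) = v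
  tst : ∀ q s W, (L'.tst q s).eval noInp W = true ↔
    cd (ps (W q)) = W q ∧ (L.tst q s).eval noInp (fun p => ps (W p)) = true
  cor : ∀ q s W, (L'.cor q s).eval noInp W = cd ((L.cor q s).eval noInp fun p => ps (W p))
  suc : ∀ q s W, (L'.suc q s).eval noInp W = cd ((L.suc q s).eval noInp fun p => ps (W p))
  pre : ∀ q s W, (L'.pre q s).eval noInp W = cd ((L.pre q s).eval noInp fun p => ps (W p))
  st : ∀ q, L'.st q = cd (L.st q)

namespace Sim

variable {c c' : ℕ} {Q T A : Type} {L : LRLS 0 c Q Unit T} {L' : LRLS 0 c' Q Unit A}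
  {cd : T → A} {ps : A → T} (h : Sim L L' cd ps)

include h

theorem ps_cd (W : Q → T) : (fun p => ps (cd (W p))) = W := funext fun _ => h.inv _

theorem valid {W : Q → A} : L'.Valid noInp W ↔
    (∀ q, cd (ps (W q)) = W q) ∧ L.Valid noInp fun p => ps (W p) :=
  ⟨fun hW => ⟨fun q => ((h.tst q () W).1 (hW q ())).1, fun q s => ((h.tst q s W).1 (hW q s)).2⟩,
    fun hW q s => (h.tst q s W).2 ⟨hW.1 q, hW.2 q s⟩⟩

theorem valid_cd {W : Q → T} (hW : L.Valid noInp W) : L'.Valid noInp fun p => cd (W p) :=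
  h.valid.2 ⟨fun q => by rw [h.inv], by rwa [h.ps_cd]⟩

theorem step_ps {W W' : Q → A} (hs : L'.Step noInp W W') :
    L.Step noInp (fun p => ps (W p)) fun p => ps (W' p) :=
  ⟨(h.valid.1 hs.1).2, (h.valid.1 hs.2.1).2,
    fun p s => by beta_reduce; rw [← hs.2.2.1 p s, h.suc, h.inv],
    fun p s => by beta_reduce; rw [← hs.2.2.2 p s, h.pre, h.inv]⟩

theorem step_cd {W W' : Q → T} (hs : L.Step noInp W W') :
    L'.Step noInp (fun p => cd (W p)) fun p => cd (W' p) :=
  ⟨h.valid_cd hs.1, h.valid_cd hs.2.1, fun p s => by rw [h.suc, h.ps_cd, hs.2.2.1],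
    fun p s => by rw [h.pre, h.ps_cd, hs.2.2.2]⟩

theorem start (hs : L.Start noInp) : L'.Start noInp := by
  have h1 : L'.st = fun p => cd (L.st p) := funext h.st
  obtain ⟨h2, ⟨W, h3⟩, h4⟩ := hs
  refine ⟨h1 ▸ h.valid_cd h2, ⟨_, h1 ▸ h.step_cd h3⟩, fun ⟨W', h5⟩ => h4 ⟨fun p => ps (W' p), ?_⟩⟩
  have h6 := h.step_ps h5
  rwa [h1, h.ps_cd] at h6

theorem ends {W : Q → A} (hW : L'.End noInp W) : L.End noInp fun p => ps (W p) := by
  obtain ⟨h1, h2⟩ := h.valid.1 hW.1
  have h3 : (fun p => cd (ps (W p))) = W := funext h1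
  refine ⟨h2, hW.2.imp (fun h4 ⟨U, h5⟩ => h4 ⟨_, h3 ▸ h.step_cd h5⟩)
    fun h4 => ⟨fun h5 => h4.1 ?_, fun ⟨U, h5⟩ => h4.2 ⟨_, h3 ▸ h.step_cd h5⟩⟩⟩
  funext q
  rw [h.st, ← h5, h1]

theorem good [Fintype Q] {Δ θ h0 : ℝ} (hG : L.Good noInp Δ θ h0)
    (hs : ∀ W, frac (fun q => (L.tst q ()).eval noInp W = false) ≤ θ →
      ∃ W', L.Valid noInp W' ∧ frac (fun q => W q ≠ W' q) ≤ h0 / 4) :
    L'.Good noInp Δ (min θ (h0 / 4)) h0 := by
  refine ⟨fun W W' hW hW' hne => ?_, fun W hW => ?_, fun W hW B hB => ?_⟩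
  · obtain ⟨h1, h2⟩ := h.valid.1 hW
    obtain ⟨h3, h4⟩ := h.valid.1 hW'
    have h5 : (fun p => ps (W p)) ≠ fun p => ps (W' p) := fun e => hne (funext fun q => by
      have h6 : ps (W q) = ps (W' q) := congrFun e q
      rw [← h1, ← h3, h6])
    exact (hG.dist _ _ h2 h4 h5).trans (frac_mono fun p hp e => hp (congrArg ps e))
  · have h1 : frac (fun q => (L'.tst q ()).eval noInp W = false) ≤ min θ (h0 / 4) :=
      (frac_fst (Y := Unit) fun q => (L'.tst q ()).eval noInp W = false).symm.le.trans hW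
    have h2 : frac (fun q => (L.tst q ()).eval noInp (fun p => ps (W p)) = false) ≤
        frac fun q => (L'.tst q ()).eval noInp W = false := frac_mono fun q hq => by
      rw [Bool.eq_false_iff, ne_eq, h.tst, hq]
      simp
    obtain ⟨U, hU, h3⟩ := hs (fun p => ps (W p)) (h2.trans (h1.trans (min_le_left _ _)))
    have h4 : frac (fun q => W q ≠ cd (U q)) ≤
        frac (fun q => (L'.tst q ()).eval noInp W = false) + frac fun q => ps (W q) ≠ U q := by
      refine frac_le_add fun q hq => ?_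
      by_contra h5
      rw [not_or, Bool.not_eq_false, not_not, h.tst] at h5
      exact hq (by rw [← h5.2, h5.1.1])
    exact ⟨fun q => cd (U q), h.valid_cd hU, by linarith [min_le_right θ (h0 / 4)]⟩
  · obtain ⟨h1, h2⟩ := h.valid.1 hW
    have h3 : ∀ p, frac (fun s => ¬ (L'.cor p s).Safe W B (W p)) ≤
        frac fun s => ¬ (L.cor p s).Safe (fun p => ps (W p)) B (ps (W p)) := fun p =>
      frac_mono fun s hs' h3 => hs' fun W' hW' => by
        rw [h.cor, h3 (fun p => ps (W' p)) fun q hq => congrArg ps (hW' q hq), h1]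
    have h4 := hG.cor _ h2 B hB
    exact le_trans (frac_mono fun p hp => le_trans hp (h3 p)) h4

end Sim

/-! ### Codes of fixed width -/

theorem val_testBit (s n : ℕ) : val ((List.range s).map n.testBit) = n % 2 ^ s := by
  induction s generalizing n with
  | zero => simp [Nat.mod_one]
  | succ s ih =>
    rw [List.range_succ_eq_map, List.map_cons, List.map_map, val_cons,
      List.map_congr_left (f := n.testBit ∘ Nat.succ) (g := (n / 2).testBit)
        fun i _ => Nat.testBit_succ n i, ih,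
      Nat.toNat_testBit, pow_zero, Nat.div_one, pow_succ', Nat.mod_mul]

/-- the bits of a vector of residues, `s` bits for each entry -/
noncomputable def cdL {J : Type} [En J] [Nonempty J] [Fintype J] {p : ℕ} (s : ℕ)
    (v : Vec J (ZMod p)) : List Bool :=
  (List.range (Fintype.card J * s)).map fun i => (v (enth J (i / s))).val.testBit (i % s)

/-- the vector of residues with the given bits -/
noncomputable def psL (J : Type) [En J] (p s : ℕ) (l : List Bool) : Vec J (ZMod p) :=
  fun j => (val ((List.range s).map fun i => l.getD (eidx j * s + i) false) : ℕ)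

theorem length_cdL {J : Type} [En J] [Nonempty J] [Fintype J] {p : ℕ} (s : ℕ)
    (v : Vec J (ZMod p)) : (cdL s v).length = Fintype.card J * s := by simp [cdL]

theorem psL_of {J : Type} [En J] [Nonempty J] [Fintype J] {p : ℕ} [NeZero p] (v : Vec J (ZMod p))
    {l : List Bool} (h : ∀ i, l.getD i false = (cdL p.size v).getD i false) :
    psL J p p.size l = v := by
  funext j
  have h1 : ((List.range p.size).map fun i => l.getD (eidx j * p.size + i) false) =
      (List.range p.size).map (v j).val.testBit := by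
    refine List.map_congr_left fun i hi => ?_
    rw [List.mem_range] at hi
    have h2 : eidx j * p.size + i < Fintype.card J * p.size := by
      have := Nat.mul_le_mul_right p.size (Nat.succ_le_of_lt (eidx_lt j))
      rw [Nat.succ_mul] at this
      omega
    rw [h, List.getD_eq_getElem _ _ (by rwa [length_cdL])]
    simp only [cdL, List.getElem_map, List.getElem_range]
    rw [add_comm, Nat.add_mul_div_right _ _ (by omega), Nat.div_eq_of_lt hi, zero_add, enth_eidx,
      Nat.add_mul_mod_self_right, Nat.mod_eq_of_lt hi]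
  rw [psL, h1, val_testBit, Nat.mod_eq_of_lt ((ZMod.val_lt _).trans (Nat.lt_size_self p)),
    ZMod.natCast_zmod_val]

/-- a list as a string of length `ℓ` -/
def pad (ℓ : ℕ) (l : List Bool) : Sym ℓ := fun i => l.getD i false

/-- a string as a list -/
def sl {ℓ : ℕ} (σ : Sym ℓ) : List Bool := List.ofFn fun i => σ i

theorem length_sl {ℓ : ℕ} (σ : Sym ℓ) : (sl σ).length = ℓ := List.length_ofFn

theorem getElem_sl {ℓ : ℕ} (σ : Sym ℓ) (i : ℕ) (h : i < (sl σ).length) :
    (sl σ)[i] = σ ⟨i, length_sl σ ▸ h⟩ := List.getElem_ofFn _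

theorem sl_inj {ℓ : ℕ} {σ τ : Sym ℓ} : sl σ = sl τ ↔ σ = τ := List.ofFn_inj

theorem sl_pad {ℓ : ℕ} {l : List Bool} (h : l.length ≤ ℓ) :
    sl (pad ℓ l) = l ++ List.replicate (ℓ - l.length) false := by
  refine List.ext_getElem (by simp [length_sl]; omega) fun i h1 h2 => ?_
  rw [getElem_sl, pad, List.getElem_append]
  split_ifs with h3
  · exact List.getD_eq_getElem _ _ h3
  · rw [List.getElem_replicate]
    exact List.getD_eq_default _ _ (not_lt.1 h3)

theorem sl_pad' (ℓ : ℕ) (l : List Bool) :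
    sl (pad ℓ l) = (List.range ℓ).map fun i => l.getD i false := by
  refine List.ext_getElem (by simp [length_sl]) fun i h1 h2 => ?_
  rw [getElem_sl, pad, List.getElem_map, List.getElem_range]

theorem appF_cons (F : List (List Bool) → List Bool) {c ℓ : ℕ} (u : Sym ℓ)
    (y : Fin (c + 1) → Sym ℓ) : appF F (Fin.cons u y : Fin (c + 2) → Sym ℓ) =
      pad ℓ (F (sl u :: sl (y 0) :: List.ofFn fun j : Fin c => sl (y j.succ))) := by
  funext i
  simp only [appF, List.ofFn_succ, Fin.cons_zero, Fin.cons_succ]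
  rfl

theorem getD_append_false (l : List Bool) (n i : ℕ) :
    (l ++ List.replicate n false).getD i false = l.getD i false := by
  by_cases h : i < l.length
  · exact List.getD_append _ _ _ _ h
  · rw [List.getD_append_right _ _ _ _ (not_lt.1 h), List.getD_eq_default _ _ (not_lt.1 h)]
    by_cases h2 : i - l.length < n
    · rw [List.getD_eq_getElem _ _ (by simpa using h2), List.getElem_replicate]
    · exact List.getD_eq_default _ _ (by simpa using h2)

theorem pr_append (x y z : Word) : pr x y ++ z = pr x (y ++ z) := by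
  rw [pr_eq, pr_eq, List.append_assoc, List.cons_append]

theorem drop_pr (x y : Word) : (pr x y).drop (2 * x.length + 1) = y := by
  induction x with
  | nil => rfl
  | cons b x ih => exact ih

section PT

variable {α κ : Type} [Enc α] [Enc κ] {c : κ → α} {p : α → ℕ} [∀ a, NeZero (p a)]

theorem dpt_cdL (J : TF α) (hp : DPT p) (hc : DPT c) {v : ∀ x, Vec (J.T (c x)) (ZMod (p (c x)))}
    (hv : DPT v) : DPT fun x => cdL (p (c x)).size (v x) := by
  have h1 : DPT fun x => (p (c x)).size := (hp.comp hc).natSize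
  have h2 : PBd fun x => (p (c x)).size := pbd_size (hp.comp hc)
  have h3 := J.pt.comp hc
  refine DPT.map (DPT.range ((dpt_card h3).natMul h1) ((pbd_card h3).mul h2)) ?_
  have h4 := h3.comp (DPT.id (α := Σ x, {i // i ∈ List.range (Fintype.card (J.T (c x)) *
    (p (c x)).size)})).sfst
  exact DPT.testBit (DPT.zmodVal (dpt_vecAt h4 (hv.comp DPT.id.sfst)
    (dpt_enth h4 (DPT.ssnd.val.natDiv (h1.comp DPT.id.sfst)))))
    (DPT.ssnd.val.natMod (h1.comp DPT.id.sfst))

theorem dpt_psL (J : TF α) (hp : DPT p) (hc : DPT c) {l : κ → List Bool} (hl : DPT l) :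
    DPT fun x => psL (J.T (c x)) (p (c x)) (p (c x)).size (l x) := by
  have h1 : DPT fun x => (p (c x)).size := (hp.comp hc).natSize
  have h2 : PBd fun x => (p (c x)).size := pbd_size (hp.comp hc)
  have h3 := J.pt.comp hc
  refine dpt_vecMk h3 (DPT.natCast (PTRing.zmod ((hp.comp hc).comp DPT.id.sfst))
    (DPT.ofPT (PT.valList (DPT.toPT (DPT.map (DPT.range (h1.comp DPT.id.sfst)
      (pbd_comp (b := fun x => (p (c x)).size) h2 DPT.id.sfst)) ?_)))))
  exact DPT.getD (hl.comp DPT.id.sfst.sfst)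
    ((((dpt_eidx (h3.comp DPT.id.sfst) DPT.ssnd).natMul (h1.comp DPT.id.sfst)).comp
      DPT.id.sfst).natAdd DPT.ssnd.val) (DPT.const false)

theorem dpt_pad {n : κ → ℕ} {l : κ → List Bool} (hn : DPT n) (hb : PBd n) (hl : DPT l) :
    DPT fun x => pad (n x) (l x) :=
  dpt_vecMk (dpt_elems_fin hn hb)
    (DPT.getD (hl.comp DPT.id.sfst) (dpt_finVal DPT.ssnd) (DPT.const false))

theorem dpt_pr {b : κ → α} {l : κ → List Bool} (hb : DPT b) (hl : DPT l) :
    DPT fun x => (pr (enc (b x)) (l x) : List Bool) :=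
  DPT.ofPT (PT.listOfRaw (f := fun x => ⟨pr (enc (b x)) (l x)⟩)
    ((hb.rawPT.pair (PT.rawOfList hl.toPT)).imp fun _ h => h))

/-- A function with a parameter as a function which finds the parameter in its first argument. -/
theorem exists_uniform {f : α × List (List Bool) → List Bool} (hf : DPT f) :
    ∃ F : List (List Bool) → List Bool, DPT F ∧
      ∀ b w ys, F (pr (enc b) w :: ys) = f (b, pr (enc b) w :: ys) := by
  obtain ⟨g, hg, hg'⟩ := PT.rawOfList hf.toPT
  obtain ⟨u, hu, hu'⟩ := PT.rawOfList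
    (DPT.headD (DPT.id (α := List (List Bool))) (DPT.const [])).toPT
  refine ⟨fun l => g (pr (fstW (l.headD [])) (enc l)),
    DPT.ofPT (PT.listOfRaw
      (f := fun l : List (List Bool) => ⟨g (pr (fstW (l.headD [])) (enc l))⟩)
      ⟨fun w => g (pr (fstW (u w)) w), hg.comp ((FP.fst.comp hu).pair FP.id), fun l => ?_⟩),
    fun b w ys => ?_⟩
  · beta_reduce
    rw [hu']
    rfl
  · beta_reduce
    rw [List.headD_cons, fstW_pr]
    exact hg' (b, pr (enc b) w :: ys)

end PT

theorem pl_comp {β : Type} [Enc β] {par : EOL → β} {f : β → ℕ} (hp : PL fun I => esize (par I))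
    (hf : PBd f) : PL fun I => f (par I) := by
  obtain ⟨c, hc⟩ := hf
  exact ((hp.add (PL.const 2)).pow c).mono fun I => hc _

/-! ### The system on bit strings -/

section Sys

variable {π : Par} {c : ℕ} (O : TOS π c)

/-- the length of the symbols -/
def len (b : π.β) : ℕ :=
  2 * esize b + 3 + (Fintype.card (O.J.T b) + Fintype.card (O.Jc.T b)) * (π.p b).size

/-- the code of a symbol -/
noncomputable def cd (b : π.β) (v : Vec (O.J.T b) (ZMod (π.p b))) : Sym (len O b) :=
  pad _ (cdL (π.p b).size v)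

/-- the symbol with a given code -/
noncomputable def ps (b : π.β) (σ : Sym (len O b)) : Vec (O.J.T b) (ZMod (π.p b)) :=
  psL _ _ (π.p b).size (sl σ)

/-- the constant string -/
noncomputable def cstL (b : π.β) (o : Fin 4) (v : Vec (O.Jc.T b) (ZMod (π.p b))) : List Bool :=
  pr (enc b) (decide (o.1 / 2 = 1) :: decide (o.1 % 2 = 1) :: cdL (π.p b).size v)

/-- the constant in the list of arguments -/
noncomputable def argC (x : π.β × List (List Bool)) : Vec (O.Jc.T x.1) (ZMod (π.p x.1)) :=
  psL _ _ (π.p x.1).size ((x.2.headD []).drop (2 * esize x.1 + 3))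

/-- the symbols in the list of arguments -/
noncomputable def argS (x : π.β × List (List Bool)) : Fin c → Vec (O.J.T x.1) (ZMod (π.p x.1)) :=
  fun j => psL _ _ (π.p x.1).size (x.2.getD (j + 2) [])

/-- the result of the operation `o` -/
noncomputable def opF (o : Fin 4) (x : π.β × List (List Bool)) : List Bool :=
  if o = 0 then
    if (List.range (x.2.getD 1 []).length).map (fun i => (cdL (π.p x.1).size
        (psL (O.J.T x.1) (π.p x.1) (π.p x.1).size (x.2.getD 1 []))).getD i false) = x.2.getD 1 [] ∧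
      O.tf x.1 (argC O x) (argS O x) = true then [] else [true]
  else cdL (π.p x.1).size (O.fn x.1 o (argC O x) (argS O x))

/-- the operation with the given bits -/
def opOf (u : Bool × Bool) : Fin 4 := bif u.1 then (bif u.2 then 3 else 2) else bif u.2 then 1 else 0

/-- the function of all sites -/
noncomputable def allF (x : π.β × List (List Bool)) : List Bool :=
  opF O (opOf ((x.2.headD []).getD (2 * esize x.1 + 1) false,
    (x.2.headD []).getD (2 * esize x.1 + 2) false)) x

theorem dpt_len : DPT (len O) :=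
  (((DPT.const 2).natMul DPT.id.esize).natAdd (DPT.const 3)).natAdd
    ((O.J.dpt_card.natAdd O.Jc.dpt_card).natMul π.ptp.natSize)

theorem pbd_len : PBd (len O) :=
  (((PBd.const 2).mul PBd.esize).add (PBd.const 3)).add
    ((O.J.pbd_card.add O.Jc.pbd_card).mul (pbd_size π.ptp))

theorem ps_cd (b : π.β) (v : Vec (O.J.T b) (ZMod (π.p b))) : ps O b (cd O b v) = v := by
  refine psL_of v fun i => ?_
  rw [cd, sl_pad (by rw [length_cdL, len, add_mul]; omega), getD_append_false]

variable {O} in
theorem dpt_allF {K Δ θ h : ℝ} {dec : _} (hO : TOSOk O K Δ θ h dec) : DPT (allF O) := by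
  have h0 : DPT fun x : π.β × List (List Bool) => x.1 := DPT.id.fst
  have h1 : DPT fun x : π.β × List (List Bool) => x.2.headD [] := DPT.id.snd.headD (DPT.const _)
  have h2 : DPT fun x : π.β × List (List Bool) => 2 * esize x.1 := (DPT.const 2).natMul h0.esize
  have h3 : DPT (argC O) := dpt_psL O.Jc π.ptp h0 (h1.drop (h2.natAdd (DPT.const 3)))
  have h4 : DPT (argS O) := dpt_piMk fun j =>
    dpt_psL O.J π.ptp h0 (DPT.id.snd.getD (DPT.const _) (DPT.const _))
  have h5 : DPT fun x : π.β × List (List Bool) => x.2.getD 1 [] :=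
    DPT.id.snd.getD (DPT.const _) (DPT.const _)
  refine dpt_cases (f := opF O) (dpt_finComp opOf ((h1.getD (h2.natAdd (DPT.const 1))
    (DPT.const _)).pair (h1.getD (h2.natAdd (DPT.const 2)) (DPT.const _)))) fun o => ?_
  refine DPT.ite (DPr.const _) (DPT.ite (DPr.and (DPr.eq (DPT.map (h5.length.range (pbd_length h5))
    (DPT.getD ((dpt_cdL O.J π.ptp h0 (dpt_psL O.J π.ptp h0 h5)).comp DPT.id.sfst) DPT.ssnd.val
      (DPT.const _))) h5) (DPr.eq (DPT.fn2 O.tf hO.tf h0 h3 h4) (DPT.const _))) (DPT.const _)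
      (DPT.const _)) (dpt_cdL O.J π.ptp h0 (DPT.fn2 (fun b => O.fn b o) (hO.fn o) h0 h3 h4))

theorem allF_eq (b : π.β) (o : Fin 4) (v : Vec (O.Jc.T b) (ZMod (π.p b))) (z : List Bool)
    (ys : List (List Bool)) :
    allF O (b, (cstL O b o v ++ z) :: ys) = opF O o (b, (cstL O b o v ++ z) :: ys) := by
  unfold allF
  congr 1
  have h1 : ∀ i, (cstL O b o v ++ z).getD (2 * esize b + 1 + i) false =
      (decide (o.1 / 2 = 1) :: decide (o.1 % 2 = 1) :: (cdL (π.p b).size v ++ z)).getD i false := by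
    intro i
    rw [cstL, pr_append, List.getD_eq_getElem?_getD, List.getD_eq_getElem?_getD,
      ← List.getElem?_drop, esize, drop_pr]
    rfl
  have h2 := h1 0
  have h3 := h1 1
  simp only [List.headD_cons, add_zero] at h2 ⊢
  rw [h2, h3]
  revert o
  intro o _ _ _
  fin_cases o <;> rfl

/-- the outer system -/
@[reducible] noncomputable def fam (F : List (List Bool) → List Bool) : OFam EOL (c + 1) where
  ℓ I := len O (π.par I)
  Q := O.Q
  rd I o q := Fin.cons q (O.rd I o q)
  cst I o q := pad _ (cstL O (π.par I) o (O.cst I q))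
  st I q := cd O _ (O.st I q)
  F := F

theorem rule_eval {F : List (List Bool) → List Bool}
    (hF : ∀ b w ys, F (pr (enc b) w :: ys) = allF O (b, pr (enc b) w :: ys)) (I : EOL) (o : Fin 4)
    (q : O.Q.T I) (W : O.Q.T I → Sym (len O (π.par I))) :
    ∃ l, argC O (π.par I, l) = O.cst I q ∧
      (argS O (π.par I, l) = fun j => ps O _ (W (O.rd I o q j))) ∧ l.getD 1 [] = sl (W q) ∧
      ((fam O F).rule I o q).eval noInp W = pad _ (opF O o (π.par I, l)) := by
  have h1 : (cstL O (π.par I) o (O.cst I q)).length ≤ len O (π.par I) := by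
    rw [cstL, length_pr, List.length_cons, List.length_cons, length_cdL, len, add_mul, esize]
    omega
  refine ⟨(cstL O (π.par I) o (O.cst I q) ++ List.replicate (len O (π.par I) -
    (cstL O (π.par I) o (O.cst I q)).length) false) :: sl (W q) ::
      List.ofFn fun j => sl (W (O.rd I o q j)), ?_, ?_, rfl, ?_⟩
  · refine psL_of _ fun i => ?_
    generalize len O (π.par I) - _ = n
    rw [List.headD_cons, cstL, pr_append, show 2 * esize (π.par I) + 3 =
      2 * (enc (π.par I)).length + 1 + 2 from rfl, ← List.drop_drop, drop_pr]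
    exact getD_append_false _ _ _
  · funext j
    simp only [argS, ps]
    rw [List.getD_cons_succ, List.getD_cons_succ, List.getD_eq_getElem _ _ (by simp),
      List.getElem_ofFn]
  · refine (Rule.eval_noInp _ _).trans ((appF_cons F (pad _ (cstL O (π.par I) o (O.cst I q)))
      fun j => W ((Fin.cons q (O.rd I o q) : Fin (c + 1) → O.Q.T I) j)).trans ?_)
    rw [← allF_eq, sl_pad h1, cstL, pr_append, hF]
    rfl

theorem sim {F : List (List Bool) → List Bool}
    (hF : ∀ b w ys, F (pr (enc b) w :: ys) = allF O (b, pr (enc b) w :: ys)) (I : EOL) :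
    Sim (O.sys I) ((fam O F).sys I) (cd O _) (ps O _) where
  inv := ps_cd O _
  tst q s W := by
    obtain ⟨l, h1, h2, h3, h4⟩ := rule_eval O hF I 0 q W
    have h7 : (List.range (sl (W q)).length).map (fun i => (cdL (π.p (π.par I)).size
        (psL (O.J.T (π.par I)) (π.p (π.par I)) (π.p (π.par I)).size (sl (W q)))).getD i
          false) = sl (W q) ↔ cd O _ (ps O _ (W q)) = W q := by
      rw [← sl_inj, length_sl, cd, sl_pad', ps]
    change decide (((fam O F).rule I 0 q).eval noInp W = zsym _) = true ↔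
      _ ∧ (O.tf _ (O.cst I q) fun j => ps O _ (W (O.rd I 0 q j))) = true
    rw [h4, decide_eq_true_eq, opF, if_pos rfl, h1, h2, h3, ← h7]
    split_ifs with h8
    · exact iff_of_true rfl h8
    · refine iff_of_false (fun e => ?_) h8
      have := congrFun e ⟨0, by simp [len]⟩
      simp [pad, zsym] at this
  cor q s W := by
    obtain ⟨l, h1, h2, -, h4⟩ := rule_eval O hF I 1 q W
    refine h4.trans ?_
    rw [opF, if_neg (by decide), h1, h2]
    rfl
  suc q s W := by
    obtain ⟨l, h1, h2, -, h4⟩ := rule_eval O hF I 2 q W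
    refine h4.trans ?_
    rw [opF, if_neg (by decide), h1, h2]
    rfl
  pre q s W := by
    obtain ⟨l, h1, h2, -, h4⟩ := rule_eval O hF I 3 q W
    refine h4.trans ?_
    rw [opF, if_neg (by decide), h1, h2]
    rfl
  st q := rfl

theorem bal_rule (F : List (List Bool) → List Bool) (I : EOL) (o : Fin 4) {K : ℝ}
    (h : ∀ j, Bal K fun x : O.Q.T I × Unit => O.rd I o x.1 j) (j : Fin (c + 1)) :
    Bal (max K 1) fun x : O.Q.T I × Unit => (fam O F).rd I o x.1 j := by
  refine Fin.cases ?_ (fun j => ?_) j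
  · exact Bal.fst.mono (le_max_right _ _)
  · exact (h j).mono (le_max_left _ _)

end Sys

end RawP

open RawP in
theorem outer_of_tos (h : TOSStmt) : OuterStmt := by
  obtain ⟨π, c, O, K, Δ, θ, h0, dec, hO⟩ := h
  obtain ⟨F, hF, hF'⟩ := exists_uniform (dpt_allF hO)
  have h1 : DPT fun I => len O (π.par I) := (dpt_len O).comp π.ptPar
  have h2 : PBd fun I => len O (π.par I) := pbd_comp (pbd_len O) π.ptPar
  have h3 : DPT fun x : Σ I, O.Q.T I => π.par x.1 := π.ptPar.comp DPT.id.sfst
  refine ⟨c + 1, fam O F, max K 1, Δ, min θ (h0 / 4), h0,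
    fun I W => dec I fun q => ps O _ (W q), hO.posΔ, lt_min hO.posθ (by linarith [hO.posh]),
    hO.posh, ⟨h1, h2, fun o j => ?_, fun o => ?_, ?_, hF⟩, pl_comp (par := π.par) π.plPar (pbd_len O), hO.card, ?_,
    fun I => ?_, fun I => (sim O hF' I).good (hO.good I) (hO.sound I),
    fun I => (sim O hF' I).start (hO.start I), fun I W hW => hO.ends I _ ((sim O hF' I).ends hW)⟩
  · refine Fin.cases ?_ (fun j => ?_) j
    · exact DPT.ssnd
    · exact hO.rd o j
  · exact dpt_pad (h1.comp DPT.id.sfst) (pbd_comp h2 DPT.id.sfst) (dpt_pr h3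
      (DPT.cons (DPT.const _) (DPT.cons (DPT.const _) (dpt_cdL O.Jc π.ptp h3 hO.cst))))
  · exact dpt_pad (h1.comp DPT.id.sfst) (pbd_comp h2 DPT.id.sfst) (dpt_cdL O.J π.ptp h3 hO.st)
  · have h4 : DPT fun x : Σ I, Vec (O.Q.T I) (Sym (len O (π.par I))) => x.1 := DPT.id.sfst
    refine DPT.fn dec hO.ptDec h4 (dpt_vecMk (O.Q.pt.comp h4) ?_)
    exact dpt_psL O.J π.ptp (π.ptPar.comp (h4.comp DPT.id.sfst)) (dpt_symL
      (dpt_vecAt (O.Q.pt.comp (h4.comp DPT.id.sfst)) (DPT.ssnd.comp DPT.id.sfst) DPT.ssnd))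
  · have h4 := hO.bal I
    exact ⟨⟨bal_rule O F I 0 h4.code.tst, bal_rule O F I 1 h4.code.cor⟩, bal_rule O F I 2 h4.suc,
      bal_rule O F I 3 h4.pre, bal_rule O F I 1 h4.out⟩

end Vale.Agent.P330.Outer
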