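import Vale.Agent.P330.Outer.Disp
import Mathlib.Analysis.SpecialFunctions.Complex.CircleAddChar
import Mathlib.RingTheory.Artinian.Ring

/-!
P330, outer system: relative property (T) for the plane over `ZMod n` and bounded generation of
`SL3` by elementary matrices.
-/

namespace Vale.Agent.P330.Outer

namespace RelT

/-! ### The combinatorial lemma -/

theorem two_maps {P : Type} [Fintype P] (μ ν₁ ν₂ : P → ℝ) (hμ : ∀ p, 0 ≤ μ p)
    (h1 : ∀ p, 0 ≤ ν₁ p) (h2 : ∀ p, 0 ≤ ν₂ p) (Q D B : P → Prop) [DecidablePred Q]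
    [DecidablePred D] [DecidablePred B] (g₁ g₂ : P ≃ P)
    (e₁ : ∀ p, Q p → ¬ B p → Q (g₁ p) ∧ D (g₁ p)) (e₂ : ∀ p, Q p → ¬ B p → Q (g₂ p) ∧ ¬ D (g₂ p))
    (m₁ : ∀ p, 2 * μ p ≤ 3 * μ (g₁ p) + ν₁ p) (m₂ : ∀ p, 2 * μ p ≤ 3 * μ (g₂ p) + ν₂ p) :
    ∑ p, (if Q p then μ p else 0) ≤
      4 * ∑ p, (if B p then μ p else 0) + ∑ p, ν₁ p + ∑ p, ν₂ p := by
  have a1 : ∑ p, (if Q (g₁ p) ∧ D (g₁ p) then μ (g₁ p) else 0) =
      ∑ p, if Q p ∧ D p then μ p else 0 :=
    Equiv.sum_comp g₁ fun p => if Q p ∧ D p then μ p else 0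
  have a2 : ∑ p, (if Q (g₂ p) ∧ ¬ D (g₂ p) then μ (g₂ p) else 0) =
      ∑ p, if Q p ∧ ¬ D p then μ p else 0 :=
    Equiv.sum_comp g₂ fun p => if Q p ∧ ¬ D p then μ p else 0
  have a3 : ∑ p, (if Q p ∧ D p then μ p else 0) + ∑ p, (if Q p ∧ ¬ D p then μ p else 0) =
      ∑ p, if Q p then μ p else 0 := by
    rw [← Finset.sum_add_distrib]
    refine Finset.sum_congr rfl fun p _ => ?_
    by_cases hq : Q p <;> by_cases hd : D p <;> simp [hq, hd]
  have a4 : ∑ p, 4 * (if Q p then μ p else 0) ≤ ∑ p, (4 * (if B p then μ p else 0) +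
      3 * (if Q (g₁ p) ∧ D (g₁ p) then μ (g₁ p) else 0) +
      3 * (if Q (g₂ p) ∧ ¬ D (g₂ p) then μ (g₂ p) else 0) + ν₁ p + ν₂ p) := by
    refine Finset.sum_le_sum fun p _ => ?_
    have b0 := hμ p
    have b1 := h1 p
    have b2 := h2 p
    have b3 : 0 ≤ if Q (g₁ p) ∧ D (g₁ p) then μ (g₁ p) else 0 := by
      split_ifs
      exacts [hμ _, le_rfl]
    have b4 : 0 ≤ if Q (g₂ p) ∧ ¬ D (g₂ p) then μ (g₂ p) else 0 := by
      split_ifs
      exacts [hμ _, le_rfl]
    by_cases hb : B p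
    · rw [if_pos hb]
      by_cases hq : Q p
      · rw [if_pos hq]
        linarith
      · rw [if_neg hq]
        linarith
    · rw [if_neg hb]
      by_cases hq : Q p
      · rw [if_pos hq, if_pos (e₁ p hq hb), if_pos (e₂ p hq hb)]
        linarith [m₁ p, m₂ p]
      · rw [if_neg hq]
        linarith
  simp only [Finset.sum_add_distrib, ← Finset.mul_sum] at a4
  linarith

section Plane

variable {n : ℕ} [NeZero n]

/-- the representative is not small -/
def Big (a : ZMod n) : Prop := (n : ℤ) ≤ 4 * |a.valMinAbs|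

instance : DecidablePred (Big : ZMod n → Prop) := fun _ => by unfold Big; infer_instance

theorem vma_add {a b : ZMod n} (ha : ¬ Big a) (hb : ¬ Big b) :
    (a + b).valMinAbs = a.valMinAbs + b.valMinAbs := by
  unfold Big at ha hb
  rw [ZMod.valMinAbs_spec]
  refine ⟨by simp, ?_, ?_⟩
  · have := neg_abs_le a.valMinAbs
    have := neg_abs_le b.valMinAbs
    omega
  · have := le_abs_self a.valMinAbs
    have := le_abs_self b.valMinAbs
    omega

theorem vma_sub {a b : ZMod n} (ha : ¬ Big a) (hb : ¬ Big b) :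
    (a - b).valMinAbs = a.valMinAbs - b.valMinAbs := by
  unfold Big at ha hb
  rw [ZMod.valMinAbs_spec]
  refine ⟨by simp, ?_, ?_⟩
  · have := neg_abs_le a.valMinAbs
    have := le_abs_self b.valMinAbs
    omega
  · have := le_abs_self a.valMinAbs
    have := neg_abs_le b.valMinAbs
    omega

/-- shear of the second coordinate -/
def shL (c : ZMod n) : ZMod n × ZMod n ≃ ZMod n × ZMod n where
  toFun p := (p.1, p.2 + c * p.1)
  invFun p := (p.1, p.2 - c * p.1)
  left_inv p := by simp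
  right_inv p := by simp

/-- shear of the first coordinate -/
def shU (c : ZMod n) : ZMod n × ZMod n ≃ ZMod n × ZMod n where
  toFun p := (p.1 + c * p.2, p.2)
  invFun p := (p.1 - c * p.2, p.2)
  left_inv p := by simp
  right_inv p := by simp

theorem plane (μ ν₁ ν₂ ν₃ ν₄ : ZMod n × ZMod n → ℝ) (hμ : ∀ p, 0 ≤ μ p) (h1 : ∀ p, 0 ≤ ν₁ p)
    (h2 : ∀ p, 0 ≤ ν₂ p) (h3 : ∀ p, 0 ≤ ν₃ p) (h4 : ∀ p, 0 ≤ ν₄ p)
    (m₁ : ∀ p, 2 * μ p ≤ 3 * μ (shU 1 p) + ν₁ p) (m₂ : ∀ p, 2 * μ p ≤ 3 * μ (shL 1 p) + ν₂ p)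
    (m₃ : ∀ p, 2 * μ p ≤ 3 * μ (shL (-1) p) + ν₃ p)
    (m₄ : ∀ p, 2 * μ p ≤ 3 * μ (shU (-1) p) + ν₄ p) :
    ∑ p, (if p ≠ 0 then μ p else 0) ≤ 8 * ∑ p, (if Big p.1 ∨ Big p.2 then μ p else 0) +
      ∑ p, ν₁ p + ∑ p, ν₂ p + ∑ p, ν₃ p + ∑ p, ν₄ p := by
  have a1 := two_maps μ ν₁ ν₂ hμ h1 h2
    (fun p => 0 ≤ p.1.valMinAbs * p.2.valMinAbs ∧ p.1.valMinAbs ≠ 0)
    (fun p => p.2.valMinAbs ^ 2 < p.1.valMinAbs ^ 2) (fun p => Big p.1 ∨ Big p.2) (shU 1) (shL 1)
    (fun p hq hb => by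
      rw [not_or] at hb
      have e : (shU 1 p).1.valMinAbs = p.1.valMinAbs + p.2.valMinAbs := by
        rw [← vma_add hb.1 hb.2]; simp [shU]
      have e' : (shU 1 p).2 = p.2 := rfl
      rw [e, e']
      have := sq_pos_of_ne_zero hq.2
      refine ⟨⟨by nlinarith [hq.1], fun h0 => ?_⟩, by nlinarith [hq.1]⟩
      have : p.2.valMinAbs = -p.1.valMinAbs := by omega
      have h5 := hq.1
      rw [this] at h5
      nlinarith)
    (fun p hq hb => by
      rw [not_or] at hb
      have e : (shL 1 p).2.valMinAbs = p.2.valMinAbs + p.1.valMinAbs := by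
        rw [← vma_add hb.2 hb.1]; simp [shL]
      have e' : (shL 1 p).1 = p.1 := rfl
      rw [e, e']
      exact ⟨⟨by nlinarith [hq.1, sq_nonneg p.1.valMinAbs], hq.2⟩, by nlinarith [hq.1]⟩) m₁ m₂
  have a2 := two_maps μ ν₃ ν₄ hμ h3 h4
    (fun p => p.1.valMinAbs * p.2.valMinAbs ≤ 0 ∧ p.2.valMinAbs ≠ 0)
    (fun p => p.1.valMinAbs ^ 2 < p.2.valMinAbs ^ 2) (fun p => Big p.1 ∨ Big p.2) (shL (-1))
    (shU (-1))
    (fun p hq hb => by
      rw [not_or] at hb
      have e : (shL (-1) p).2.valMinAbs = p.2.valMinAbs - p.1.valMinAbs := by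
        rw [← vma_sub hb.2 hb.1]; simp [shL, sub_eq_add_neg]
      have e' : (shL (-1) p).1 = p.1 := rfl
      rw [e, e']
      have := sq_pos_of_ne_zero hq.2
      refine ⟨⟨by nlinarith [hq.1], fun h0 => ?_⟩, by nlinarith [hq.1]⟩
      have : p.1.valMinAbs = p.2.valMinAbs := by omega
      have h5 := hq.1
      rw [this] at h5
      nlinarith)
    (fun p hq hb => by
      rw [not_or] at hb
      have e : (shU (-1) p).1.valMinAbs = p.1.valMinAbs - p.2.valMinAbs := by
        rw [← vma_sub hb.1 hb.2]; simp [shU, sub_eq_add_neg]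
      have e' : (shU (-1) p).2 = p.2 := rfl
      rw [e, e']
      exact ⟨⟨by nlinarith [hq.1, sq_nonneg p.2.valMinAbs], hq.2⟩, by nlinarith [hq.1]⟩) m₃ m₄
  have a3 : ∑ p, (if p ≠ 0 then μ p else 0) ≤
      ∑ p : ZMod n × ZMod n,
        ((if 0 ≤ p.1.valMinAbs * p.2.valMinAbs ∧ p.1.valMinAbs ≠ 0 then μ p else 0) +
          if p.1.valMinAbs * p.2.valMinAbs ≤ 0 ∧ p.2.valMinAbs ≠ 0 then μ p else 0) := by
    refine Finset.sum_le_sum fun p _ => ?_
    have b0 := hμ p
    split_ifs with c1 c2 c3 <;> try linarith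
    exfalso
    apply c1
    rename_i c4
    have hx : p.1.valMinAbs = 0 ∧ p.2.valMinAbs = 0 := by
      by_cases hx : p.1.valMinAbs = 0
      · refine ⟨hx, ?_⟩
        by_contra hy
        exact c4 ⟨by rw [hx]; simp, hy⟩
      · exfalso
        have h5 : p.1.valMinAbs * p.2.valMinAbs < 0 := not_le.1 fun h => c2 ⟨h, hx⟩
        refine c4 ⟨h5.le, fun hy => ?_⟩
        rw [hy] at h5
        simp at h5
    exact Prod.ext (ZMod.valMinAbs_eq_zero _ |>.1 hx.1) (ZMod.valMinAbs_eq_zero _ |>.1 hx.2)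
  rw [Finset.sum_add_distrib] at a3
  linarith

/-! ### Fourier decomposition -/

/-- the characters of the plane -/
noncomputable def chi (k u : ZMod n × ZMod n) : ℂ := ZMod.stdAddChar (k.1 * u.1 + k.2 * u.2)

theorem chi_add (k u v : ZMod n × ZMod n) : chi k (u + v) = chi k u * chi k v := by
  unfold chi
  rw [← AddChar.map_add_eq_mul]
  congr 1
  simp only [Prod.fst_add, Prod.snd_add]
  ring

theorem chi_zero (u : ZMod n × ZMod n) : chi 0 u = 1 := by simp [chi]

theorem norm_std (a : ZMod n) : ‖ZMod.stdAddChar a‖ = 1 := by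
  rw [ZMod.stdAddChar_apply]
  exact Circle.norm_coe _

theorem conj_chi (k u : ZMod n × ZMod n) : (starRingEnd ℂ) (chi k u) = chi k (-u) := by
  unfold chi
  rw [← Complex.inv_eq_conj (norm_std _), ← AddChar.map_neg_eq_inv]
  congr 1
  simp only [Prod.fst_neg, Prod.snd_neg]
  ring

theorem sum_chi (u : ZMod n × ZMod n) : ∑ k, chi k u = if u = 0 then ((n : ℂ) * n) else 0 := by
  unfold chi
  simp only [AddChar.map_add_eq_mul]
  rw [Fintype.sum_prod_type]
  simp only [← Finset.mul_sum]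
  rw [← Finset.sum_mul, AddChar.sum_mulShift _ (ZMod.isPrimitive_stdAddChar n),
    AddChar.sum_mulShift _ (ZMod.isPrimitive_stdAddChar n), ZMod.card]
  obtain ⟨x, y⟩ := u
  by_cases hx : x = 0 <;> by_cases hy : y = 0 <;> simp [hx, hy]

theorem parseval (g : ZMod n × ZMod n → ℝ) :
    ∑ k, Complex.normSq (∑ u, chi k u * g u) = (n : ℝ) * n * ∑ u, g u ^ 2 := by
  have h : ((∑ k, Complex.normSq (∑ u, chi k u * g u) : ℝ) : ℂ) =
      (((n : ℝ) * n * ∑ u, g u ^ 2 : ℝ) : ℂ) := by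
    push_cast
    simp only [Complex.normSq_eq_conj_mul_self, map_sum, map_mul, conj_chi, Complex.conj_ofReal,
      Finset.sum_mul_sum]
    rw [Finset.sum_comm, Finset.mul_sum]
    refine Finset.sum_congr rfl fun u _ => ?_
    rw [Finset.sum_comm]
    have h1 : ∀ v, ∑ k, chi k (-u) * g u * (chi k v * g v) =
        (if v = u then ((n : ℂ) * n) else 0) * (g u * g v) := fun v => by
      have h2 : ∀ k, chi k (-u) * g u * (chi k v * g v) = chi k (v - u) * (g u * g v) :=
        fun k => by rw [sub_eq_add_neg, chi_add]; ring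
      simp only [h2]
      rw [← Finset.sum_mul, sum_chi]
      simp only [sub_eq_zero]
    simp only [h1, ite_mul, zero_mul, Finset.sum_ite_eq', Finset.mem_univ, if_true]
    ring
  exact_mod_cast h

theorem normSq_std_sub (a : ZMod n) : Complex.normSq (ZMod.stdAddChar a - 1) =
    2 - 2 * Real.cos (2 * Real.pi * a.valMinAbs / n) := by
  have h1 : ZMod.stdAddChar a = Complex.exp ((2 * Real.pi * a.valMinAbs / n : ℝ) * Complex.I) := by
    conv_lhs => rw [← ZMod.coe_valMinAbs a]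
    rw [ZMod.stdAddChar_coe]
    congr 1
    push_cast
    ring
  rw [h1, Complex.normSq_apply]
  simp only [Complex.sub_re, Complex.sub_im, Complex.exp_ofReal_mul_I_re,
    Complex.exp_ofReal_mul_I_im, Complex.one_re, Complex.one_im]
  nlinarith [Real.sin_sq_add_cos_sq (2 * Real.pi * a.valMinAbs / n)]

theorem two_le_normSq {a : ZMod n} (h : Big a) : 2 ≤ Complex.normSq (ZMod.stdAddChar a - 1) := by
  rw [normSq_std_sub, ← Real.cos_abs]
  have hn : (0 : ℝ) < n := by exact_mod_cast Nat.pos_of_ne_zero (NeZero.ne n)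
  have h1 : (n : ℝ) ≤ 4 * |(a.valMinAbs : ℝ)| := by exact_mod_cast h
  have h2 : 2 * |(a.valMinAbs : ℝ)| ≤ n := by
    obtain ⟨h5, h6⟩ := Set.mem_Ioc.1 (ZMod.valMinAbs_mem_Ioc a)
    have h3 : 2 * |a.valMinAbs| ≤ (n : ℤ) := by
      rcases abs_cases a.valMinAbs with h4 | h4 <;> omega
    exact_mod_cast h3
  have hp := Real.pi_pos
  have h3 : |2 * Real.pi * a.valMinAbs / n| = 2 * Real.pi * |(a.valMinAbs : ℝ)| / n := by
    rw [abs_div, abs_mul, abs_of_pos hn, abs_of_pos (by positivity : 0 < 2 * Real.pi)]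
  have h4 : Real.cos |2 * Real.pi * a.valMinAbs / n| ≤ 0 := by
    rw [h3]
    refine Real.cos_nonpos_of_pi_div_two_le_of_le ?_ ?_
    · rw [div_le_div_iff₀ two_pos hn]
      nlinarith
    · rw [div_le_iff₀ hn]
      nlinarith
  linarith

theorem normSq_chi_sub_le (k u : ZMod n × ZMod n) : Complex.normSq (chi k u - 1) ≤ 4 := by
  unfold chi
  rw [normSq_std_sub]
  linarith [Real.neg_one_le_cos (2 * Real.pi * (k.1 * u.1 + k.2 * u.2).valMinAbs / n)]

theorem big_neg {a : ZMod n} (h : Big a) : 2 ≤ Complex.normSq (ZMod.stdAddChar (-a) - 1) := by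
  have h1 := two_le_normSq h
  rw [← Complex.normSq_conj, map_sub, map_one, ← Complex.inv_eq_conj (norm_std _),
    ← AddChar.map_neg_eq_inv] at h1
  exact h1

theorem normSq_add_le (u v : ℂ) :
    2 * Complex.normSq (u + v) ≤ 3 * Complex.normSq u + 6 * Complex.normSq v := by
  simp only [Complex.normSq_apply, Complex.add_re, Complex.add_im]
  nlinarith [sq_nonneg (u.re - 2 * v.re), sq_nonneg (u.im - 2 * v.im)]

variable {G X : Type} [Group G] [MulAction G X] [Fintype X]
  (τ : Multiplicative (ZMod n × ZMod n) →* G)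

/-- the Fourier coefficient along the orbit -/
noncomputable def co (f : X → ℝ) (k : ZMod n × ZMod n) (z : X) : ℂ :=
  ∑ u, chi k u * f (τ (.ofAdd u) • z)

/-- the weight of a frequency -/
noncomputable def wt (f : X → ℝ) (k : ZMod n × ZMod n) : ℝ := ∑ z, Complex.normSq (co τ f k z)

theorem wt_nonneg (f : X → ℝ) (k : ZMod n × ZMod n) : 0 ≤ wt τ f k :=
  Finset.sum_nonneg fun _ _ => Complex.normSq_nonneg _

theorem sum_wt (f : X → ℝ) : ∑ k, wt τ f k = (n : ℝ) ^ 4 * ∑ z, f z ^ 2 := by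
  unfold wt co
  rw [Finset.sum_comm]
  simp only [parseval, ← Finset.mul_sum]
  rw [Finset.sum_comm]
  simp only [fun u : ZMod n × ZMod n => sum_smul_eq (τ (.ofAdd u)) fun z => f z ^ 2]
  rw [Finset.sum_const, Finset.card_univ, Fintype.card_prod, ZMod.card, nsmul_eq_mul]
  push_cast
  ring

omit [Fintype X] in
theorem co_sub (f g : X → ℝ) (k : ZMod n × ZMod n) (z : X) :
    co τ (fun x => f x - g x) k z = co τ f k z - co τ g k z := by
  unfold co
  rw [← Finset.sum_sub_distrib]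
  exact Finset.sum_congr rfl fun u _ => by push_cast; ring

omit [Fintype X] in
theorem co_shift (f : X → ℝ) (t k : ZMod n × ZMod n) (z : X) :
    co τ (fun x => f (τ (.ofAdd t) • x)) k z = chi k (-t) * co τ f k z := by
  unfold co
  rw [Finset.mul_sum, ← Equiv.sum_comp (Equiv.addLeft t)
    fun u => chi k (-t) * (chi k u * f (τ (.ofAdd u) • z))]
  refine Finset.sum_congr rfl fun u _ => ?_
  beta_reduce
  rw [← mul_smul, ← map_mul, ← mul_assoc, ← chi_add]
  simp [ofAdd_add]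

theorem disp_shift (f : X → ℝ) (t : ZMod n × ZMod n) :
    (n : ℝ) ^ 4 * disp (τ (.ofAdd t)) f = ∑ k, Complex.normSq (chi k (-t) - 1) * wt τ f k := by
  unfold disp
  rw [← sum_wt τ fun x => f (τ (.ofAdd t) • x) - f x]
  refine Finset.sum_congr rfl fun k _ => ?_
  unfold wt
  rw [Finset.mul_sum]
  refine Finset.sum_congr rfl fun z _ => ?_
  rw [co_sub, co_shift, ← Complex.normSq_mul]
  congr 1
  ring

theorem wt_conj (f : X → ℝ) (s : G) (σ : ZMod n × ZMod n ≃ ZMod n × ZMod n)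
    (hs : ∀ u, s * τ (.ofAdd u) * s⁻¹ = τ (.ofAdd (σ u))) {k k' : ZMod n × ZMod n}
    (hk : ∀ u, chi k u = chi k' (σ u)) : wt τ (fun x => f (s • x)) k = wt τ f k' := by
  unfold wt
  rw [← sum_smul_eq s fun z => Complex.normSq (co τ f k' z)]
  refine Finset.sum_congr rfl fun z _ => ?_
  congr 1
  unfold co
  rw [← Equiv.sum_comp σ fun u => chi k' u * f (τ (.ofAdd u) • s • z)]
  refine Finset.sum_congr rfl fun u _ => ?_
  beta_reduce
  rw [hk, ← hs, ← mul_smul, ← mul_smul, inv_mul_cancel_right]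

theorem wt_le (f g : X → ℝ) (k : ZMod n × ZMod n) :
    2 * wt τ f k ≤ 3 * wt τ g k + 6 * wt τ (fun x => f x - g x) k ∧
      2 * wt τ g k ≤ 3 * wt τ f k + 6 * wt τ (fun x => f x - g x) k := by
  unfold wt
  simp only [Finset.mul_sum, ← Finset.sum_add_distrib, co_sub]
  constructor <;> refine Finset.sum_le_sum fun z _ => ?_
  · simpa using normSq_add_le (co τ g k z) (co τ f k z - co τ g k z)
  · have := normSq_add_le (co τ f k z) (-(co τ f k z - co τ g k z))
    rw [Complex.normSq_neg] at this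
    simpa using this

end Plane

end RelT

open RelT in
/-- G1 -/
theorem relTStmt : RelTStmt := by
  refine ⟨48, by norm_num, fun n _ G X _ _ _ τ s r hs hr f t => ?_⟩
  have hn : (0 : ℝ) < (n : ℝ) ^ 4 := by
    have : (0 : ℝ) < n := by exact_mod_cast Nat.pos_of_ne_zero (NeZero.ne n)
    positivity
  have ws : ∀ k, wt τ (fun x => f (s • x)) k = wt τ f (shL (-1) k) := fun k =>
    wt_conj τ f s (shU 1) (fun u => by simpa [shU] using hs u.1 u.2) fun u => by
      unfold chi; congr 1; simp [shU, shL]; ring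
  have wr : ∀ k, wt τ (fun x => f (r • x)) k = wt τ f (shU (-1) k) := fun k =>
    wt_conj τ f r (shL 1) (fun u => by simpa [shL, add_comm] using hr u.1 u.2) fun u => by
      unfold chi; congr 1; simp [shU, shL]; ring
  set ds := fun k => 6 * wt τ (fun x => f (s • x) - f x) k with hds
  set dr := fun k => 6 * wt τ (fun x => f (r • x) - f x) k with hdr
  have ps : ∀ k, 0 ≤ ds k := fun k => mul_nonneg (by norm_num) (wt_nonneg τ _ k)
  have pr : ∀ k, 0 ≤ dr k := fun k => mul_nonneg (by norm_num) (wt_nonneg τ _ k)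
  have h1 := plane (wt τ f) (fun k => dr (shU 1 k)) (fun k => ds (shL 1 k)) ds dr (wt_nonneg τ f)
    (fun _ => pr _) (fun _ => ps _) ps pr
    (fun k => by
      have := (wt_le τ (fun x => f (r • x)) f (shU 1 k)).1
      rwa [wr, show shU (-1) (shU 1 k) = k by simp [shU]] at this)
    (fun k => by
      have := (wt_le τ (fun x => f (s • x)) f (shL 1 k)).1
      rwa [ws, show shL (-1) (shL 1 k) = k by simp [shL]] at this)
    (fun k => by
      have := (wt_le τ (fun x => f (s • x)) f k).2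
      rwa [ws] at this)
    (fun k => by
      have := (wt_le τ (fun x => f (r • x)) f k).2
      rwa [wr] at this)
  rw [Equiv.sum_comp (shU 1) dr, Equiv.sum_comp (shL 1) ds] at h1
  have e1 : ∑ k, ds k = 6 * ((n : ℝ) ^ 4 * disp s f) := by
    rw [hds, ← Finset.mul_sum, sum_wt, disp]
  have e2 : ∑ k, dr k = 6 * ((n : ℝ) ^ 4 * disp r f) := by
    rw [hdr, ← Finset.mul_sum, sum_wt, disp]
  have e3 : 2 * ∑ k : ZMod n × ZMod n, (if Big k.1 ∨ Big k.2 then wt τ f k else 0) ≤
      (n : ℝ) ^ 4 * disp (τ (.ofAdd (1, 0))) f + (n : ℝ) ^ 4 * disp (τ (.ofAdd (0, 1))) f := by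
    rw [disp_shift, disp_shift, Finset.mul_sum, ← Finset.sum_add_distrib]
    refine Finset.sum_le_sum fun k _ => ?_
    have c1 : chi k (-(1, 0)) = ZMod.stdAddChar (-k.1) := by simp [chi]
    have c2 : chi k (-(0, 1)) = ZMod.stdAddChar (-k.2) := by simp [chi]
    rw [c1, c2, ← add_mul]
    have b0 := wt_nonneg τ f k
    have b1 := Complex.normSq_nonneg (ZMod.stdAddChar (-k.1) - 1)
    have b2 := Complex.normSq_nonneg (ZMod.stdAddChar (-k.2) - 1)
    split_ifs with hb
    · refine mul_le_mul_of_nonneg_right ?_ b0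
      rcases hb with hb | hb <;> linarith [big_neg hb]
    · rw [mul_zero]
      positivity
  have e4 : (n : ℝ) ^ 4 * disp (τ t) f ≤ 4 * ∑ k, if k ≠ 0 then wt τ f k else 0 := by
    have := disp_shift τ f t.toAdd
    rw [ofAdd_toAdd] at this
    rw [this, Finset.mul_sum]
    refine Finset.sum_le_sum fun k _ => ?_
    split_ifs with hk
    · exact mul_le_mul_of_nonneg_right (normSq_chi_sub_le _ _) (wt_nonneg τ f k)
    · rw [not_not.1 hk, chi_zero]
      simp
  have p1 := mul_nonneg hn.le (disp_nonneg (τ (.ofAdd (1, 0))) f)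
  have p2 := mul_nonneg hn.le (disp_nonneg (τ (.ofAdd (0, 1))) f)
  refine le_of_mul_le_mul_left ?_ hn
  linarith

namespace BddGen

/-- A finite commutative ring has stable range one. -/
theorem stable {R : Type} [CommRing R] [Finite R] {a d u : R} (h : u * a + d = 1) :
    ∃ x, IsUnit (a + x * d) := by
  obtain ⟨k, y, hy⟩ := IsArtinian.exists_pow_succ_smul_dvd (R := R) a (1 : R)
  simp only [smul_eq_mul, mul_one, Nat.succ_eq_add_one] at hy
  have h1 : a ^ k * (1 - (a * y) ^ k) = 0 := by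
    obtain ⟨q, hq⟩ := one_sub_dvd_one_sub_pow (a * y) k
    rw [hq]
    linear_combination (-q) * hy
  obtain ⟨q, hq⟩ := one_sub_dvd_one_sub_pow (u * a) k
  refine ⟨q * (1 - (a * y) ^ k), ?_⟩
  have h2 : q * (1 - (a * y) ^ k) * d = 1 - (a * y) ^ k := by
    have h3 : d = 1 - u * a := by linear_combination h
    rw [mul_pow] at hq
    rw [h3]
    linear_combination (-(1 - (a * y) ^ k)) * hq - u ^ k * h1
  rw [h2]
  have h4 : Function.Injective fun z => (a + (1 - (a * y) ^ k)) * z := by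
    refine (injective_iff_map_eq_zero (AddMonoidHom.mulLeft (a + (1 - (a * y) ^ k)))).2
      fun z hz => ?_
    change (a + (1 - (a * y) ^ k)) * z = 0 at hz
    have h5 : a ^ k * z = 0 := by
      linear_combination y * a ^ k * hz - y * z * h1 - z * hy
    have h6 : a * z = -z := by
      rw [mul_pow] at hz
      linear_combination hz + y ^ k * h5
    have h7 : ∀ j : ℕ, a ^ j * z = (-1) ^ j * z := fun j => by
      induction j with
      | zero => simp
      | succ j ih => linear_combination a * ih + (-1) ^ j * h6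
    rw [h7] at h5
    exact ((isUnit_one.neg.pow k).mul_right_eq_zero).1 h5
  obtain ⟨z, hz⟩ := Finite.injective_iff_surjective.1 h4 1
  exact IsUnit.of_mul_eq_one z hz

variable {R : Type} [CommRing R]

open Matrix

/-- products of at most `c` elementary matrices -/
def Gen (c : ℕ) (M : Matrix (Fin 3) (Fin 3) R) : Prop :=
  ∃ l : List (Fin 3 × Fin 3 × R), l.length ≤ c ∧ (∀ x ∈ l, x.1 ≠ x.2.1) ∧
    M = (l.map fun x => transvection x.1 x.2.1 x.2.2).prod

theorem step {k : ℕ} {M : Matrix (Fin 3) (Fin 3) R} (i j : Fin 3) (h : i ≠ j) (c : R)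
    (hM : Gen k (transvection i j c * M)) : Gen (k + 1) M := by
  obtain ⟨l, h1, h2, h3⟩ := hM
  refine ⟨(i, j, -c) :: l, by simpa using h1, by simpa using ⟨h, by simpa using h2⟩, ?_⟩
  rw [List.map_cons, List.prod_cons, ← h3, ← Matrix.mul_assoc, transvection_mul_transvection_same _ _ h]
  simp

theorem det_step {M : Matrix (Fin 3) (Fin 3) R} (i j : Fin 3) (h : i ≠ j) (c : R)
    (hM : M.det = 1) : (transvection i j c * M).det = 1 := by
  rw [det_mul, det_transvection_of_ne _ _ h, hM, one_mul]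

theorem genA {M : Matrix (Fin 3) (Fin 3) R} (h00 : M 0 0 = 1) (h10 : M 1 0 = 0) (h20 : M 2 0 = 0)
    (h11 : M 1 1 = 1) (h21 : M 2 1 = 0) (h22 : M 2 2 = 1) : Gen 3 M := by
  refine ⟨[(1, 2, M 1 2), (0, 1, M 0 1), (0, 2, M 0 2)], le_rfl, by simp, ?_⟩
  ext i j
  fin_cases i <;> fin_cases j <;>
    simp [h00, h10, h20, h11, h21, h22, transvection, Matrix.mul_apply, Fin.sum_univ_three,
      Matrix.one_apply, Matrix.single_apply]

theorem genB {M : Matrix (Fin 3) (Fin 3) R} (hd : M.det = 1) (h00 : M 0 0 = 1) (h10 : M 1 0 = 0)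
    (h20 : M 2 0 = 0) (h11 : M 1 1 = 1) : Gen 4 M := by
  rw [det_fin_three, h00, h10, h20, h11] at hd
  refine step 2 1 (by decide) (-M 2 1) (genA ?_ ?_ ?_ ?_ ?_ ?_) <;>
    simp [h00, h10, h20, h11]
  linear_combination hd

theorem genC {M : Matrix (Fin 3) (Fin 3) R} (hd : M.det = 1) (h00 : M 0 0 = 1) (h10 : M 1 0 = 0)
    (h20 : M 2 0 = 0) (h11 : M 1 1 + M 2 1 = 1) : Gen 5 M := by
  refine step 1 2 (by decide) 1 (genB (det_step _ _ (by decide) _ hd) ?_ ?_ ?_ ?_) <;>
    simp [h00, h10, h20, h11]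

theorem genD {M : Matrix (Fin 3) (Fin 3) R} (hd : M.det = 1) (h00 : M 0 0 = 1) (h10 : M 1 0 = 0)
    (h20 : M 2 0 = 0) (h11 : IsUnit (M 1 1)) : Gen 6 M := by
  obtain ⟨v, hv⟩ := h11.exists_left_inv
  refine step 2 1 (by decide) ((1 - M 1 1 - M 2 1) * v)
    (genC (det_step _ _ (by decide) _ hd) ?_ ?_ ?_ ?_) <;> simp [h00, h10, h20]
  linear_combination (1 - M 1 1 - M 2 1) * hv

theorem genE [Finite R] {M : Matrix (Fin 3) (Fin 3) R} (hd : M.det = 1) (h00 : M 0 0 = 1)
    (h10 : M 1 0 = 0) (h20 : M 2 0 = 0) : Gen 7 M := by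
  have h := hd
  rw [det_fin_three, h00, h10, h20] at h
  obtain ⟨x, hx⟩ := stable (a := M 1 1) (d := -M 1 2 * M 2 1) (u := M 2 2)
    (by linear_combination h)
  refine step 1 2 (by decide) (-x * M 1 2) (genD (det_step _ _ (by decide) _ hd) ?_ ?_ ?_ ?_)
  · simp [h00]
  · simp [h10, h20]
  · simp [h20]
  · rw [transvection_mul_apply_same]
    convert hx using 1
    ring

theorem genG [Finite R] {M : Matrix (Fin 3) (Fin 3) R} (hd : M.det = 1) (h00 : M 0 0 = 1) :
    Gen 9 M := by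
  refine step 1 0 (by decide) (-M 1 0) (step 2 0 (by decide) (-M 2 0)
    (genE (det_step _ _ (by decide) _ (det_step _ _ (by decide) _ hd)) ?_ ?_ ?_)) <;> simp [h00]

theorem genI [Finite R] {M : Matrix (Fin 3) (Fin 3) R} (hd : M.det = 1) (h00 : IsUnit (M 0 0)) :
    Gen 11 M := by
  obtain ⟨v, hv⟩ := h00.exists_left_inv
  refine step 1 0 (by decide) ((1 - M 0 0 - M 1 0) * v) (step 0 1 (by decide) 1
    (genG (det_step _ _ (by decide) _ (det_step _ _ (by decide) _ hd)) ?_))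
  simp
  linear_combination (1 - M 0 0 - M 1 0) * hv

theorem genK [Finite R] {M : Matrix (Fin 3) (Fin 3) R} (hd : M.det = 1) : Gen 13 M := by
  have h := hd
  rw [det_fin_three] at h
  obtain ⟨x, hx⟩ := stable (a := M 0 0) (u := M 1 1 * M 2 2 - M 1 2 * M 2 1)
    (d := (M 0 2 * M 2 1 - M 0 1 * M 2 2) * M 1 0 + (M 0 1 * M 1 2 - M 0 2 * M 1 1) * M 2 0)
    (by linear_combination h)
  refine step 0 1 (by decide) (x * (M 0 2 * M 2 1 - M 0 1 * M 2 2))
    (step 0 2 (by decide) (x * (M 0 1 * M 1 2 - M 0 2 * M 1 1))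
      (genI (det_step _ _ (by decide) _ (det_step _ _ (by decide) _ hd)) ?_))
  rw [transvection_mul_apply_same, transvection_mul_apply_same,
    transvection_mul_apply_of_ne _ _ _ _ (by decide)]
  convert hx using 1
  ring

end BddGen

/-- G2 -/
theorem bddGenStmt : BddGenStmt := ⟨13, fun _ _ g => BddGen.genK g.2⟩

end Vale.Agent.P330.Outer
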