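import Vale.Agent.P330.Outer.Defs

/-!
P330, outer system: routing of arbitrary maps on the cube. The requests are sorted by radix sort;
every pass is a map which is monotone on two colour classes, and such a map is routed by fixing
the bits upwards (towards the rank) and then downwards (towards the target).
-/

namespace Vale.Agent.P330.Outer

open Vale.Agent.Lib.PolyTime hiding C P
open Vale.Agent.Lib.Dep
open Vale.Agent.P330.Bohr
open Finset

namespace RouteP

/-! ### From paths to masks -/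

theorem route_of_paths {m : ℕ} {T W : Type} (S : T → Prop) (L : ℕ) (dir : ℕ → Fin m)
    (P : ℕ → T → Gam m) (μ : ℕ → Gam m → Bool)
    (hstep : ∀ t < L, ∀ j, S j → P (t + 1) j = P t j ∨ P (t + 1) j = P t j + eV (dir t))
    (hcons : ∀ t < L, ∀ j j', S j → S j' → P t j = P t j' → P (t + 1) j = P (t + 1) j')
    (hμ : ∀ t ε, μ t ε = true ↔ ∃ j, S j ∧ P t j = ε ∧ P (t + 1) j ≠ ε) (x : Gam m → W)
    (k : ℕ) (hk : k ≤ L) (j : T) (hj : S j) :
    (List.range k).foldl (fun y i => layer (dir (L - 1 - i)) (μ (L - 1 - i)) y) x (P (L - k) j) =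
      x (P L j) := by
  induction k with
  | zero => rfl
  | succ k ih =>
    have h1 : L - (k + 1) = L - 1 - k := by omega
    have h2 : L - k = L - 1 - k + 1 := by omega
    have h3 : L - 1 - k < L := by omega
    rw [List.range_succ, List.foldl_append, List.foldl_cons, List.foldl_nil, ← ih (by omega), h1,
      h2, layer]
    split_ifs with h
    · obtain ⟨j', hj', e, hne⟩ := (hμ _ _).1 h
      rw [hcons _ h3 j' j hj' hj e] at hne
      rw [(hstep _ h3 j hj).resolve_left hne]
    · have h4 : P (L - 1 - k + 1) j = P (L - 1 - k) j := by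
        by_contra hne
        exact h ((hμ _ _).2 ⟨j, hj, rfl, hne⟩)
      rw [h4]

theorem step_of_agree {m : ℕ} {u v : Gam m} {ω : Fin m} (h : ∀ i, i ≠ ω → u i = v i) :
    u = v ∨ u = v + eV ω := by
  by_cases e : u ω = v ω
  · exact Or.inl (funext fun i => if hi : i = ω then hi ▸ e else h i hi)
  refine Or.inr (funext fun i => ?_)
  change u i = v i + if i = ω then 1 else 0
  split_ifs with hi
  · subst hi
    revert e
    generalize u i = a
    generalize v i = b
    revert a b
    decide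
  · rw [h i hi, add_zero]

/-! ### One phase -/

/-- the bit `i` of the point with colour `c`, low bits from `g` and high bits from `a` -/
def bt (c : Bool) (a g k i : ℕ) : Bool :=
  if i = 0 then c else if i - 1 < k then g.testBit (i - 1) else a.testBit (i - 1)

/-- the point with colour `c`, the `k` low bits from `g` and the high bits from `a` -/
def cpt (m : ℕ) (c : Bool) (a g k : ℕ) : Gam (m + 1) := fun i => bif bt c a g k i then 1 else 0

theorem cpt_eq_iff {m : ℕ} {c c' : Bool} {a g k a' g' k' : ℕ} :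
    cpt m c a g k = cpt m c' a' g' k' ↔ ∀ i ≤ m, bt c a g k i = bt c' a' g' k' i := by
  refine ⟨fun h i hi => ?_, fun h => funext fun i => ?_⟩
  · have h1 := congrFun h ⟨i, Nat.lt_succ_of_le hi⟩
    simp only [cpt] at h1
    revert h1
    cases bt c a g k i <;> cases bt c' a' g' k' i <;> decide
  · rw [cpt, cpt, h i (Nat.le_of_lt_succ i.2)]

theorem cpt_inj {m : ℕ} {c c' : Bool} {a g k a' g' : ℕ} (ha : a < 2 ^ m) (ha' : a' < 2 ^ m)
    (hk : k ≤ m) (h : cpt m c a g k = cpt m c' a' g' k) :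
    c = c' ∧ g % 2 ^ k = g' % 2 ^ k ∧ a / 2 ^ k = a' / 2 ^ k := by
  rw [cpt_eq_iff] at h
  refine ⟨by simpa [bt] using h 0 (Nat.zero_le _), Nat.eq_of_testBit_eq fun i => ?_,
    Nat.eq_of_testBit_eq fun i => ?_⟩
  · rw [Nat.testBit_mod_two_pow, Nat.testBit_mod_two_pow]
    by_cases hi : i < k
    · have h1 := h (i + 1) (by omega)
      simp only [bt, Nat.add_one_ne_zero, if_false, Nat.add_sub_cancel, hi, if_true] at h1
      rw [h1]
    · simp [hi]
  · rw [Nat.testBit_div_two_pow, Nat.testBit_div_two_pow]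
    by_cases hi : i + k < m
    · have h1 := h (i + k + 1) (by omega)
      have h2 : ¬ i + k < k := by omega
      simpa only [bt, Nat.add_one_ne_zero, if_false, Nat.add_sub_cancel, h2] using h1
    · have h2 : 2 ^ m ≤ 2 ^ (i + k) := Nat.pow_le_pow_right (by norm_num) (by omega)
      rw [Nat.testBit_lt_two_pow (ha.trans_le h2), Nat.testBit_lt_two_pow (ha'.trans_le h2)]

theorem eq_of_close {M a a' g g' : ℕ} (hM : 0 < M) (h1 : g % M = g' % M) (h2 : a / M = a' / M)
    (h3 : |(g' : ℤ) - g| ≤ |(a' : ℤ) - a|) : g = g' := by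
  refine Nat.ModEq.eq_of_abs_lt (m := M) h1 (h3.trans_lt ?_)
  have e1 := Nat.div_add_mod a M
  have e2 := Nat.div_add_mod a' M
  have e3 := Nat.mod_lt a hM
  have e4 := Nat.mod_lt a' hM
  rw [h2] at e1
  generalize M * (a' / M) = r at e1 e2
  rw [abs_lt]
  omega

/-- the position after `s` steps of a phase -/
def ph (m : ℕ) (c : Bool) (a g b s : ℕ) : Gam (m + 1) :=
  if s = 0 then cpt m false a 0 0 else if s ≤ m + 1 then cpt m c a g (s - 1)
  else if s ≤ 2 * m + 1 then cpt m c b g (2 * m + 1 - s) else cpt m false b 0 0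

/-- the direction of the step `s` of a phase -/
def dr (m s : ℕ) : ℕ := if s ≤ m then s else 2 * m + 1 - s

theorem dr_lt (m s : ℕ) : dr m s < m + 1 := by
  unfold dr
  split_ifs <;> omega

theorem ph_step (m : ℕ) (c : Bool) (a g b : ℕ) {s : ℕ} (hs : s < 2 * m + 2) (i : Fin (m + 1))
    (hi : (i : ℕ) ≠ dr m s) : ph m c a g b (s + 1) i = ph m c a g b s i := by
  have h0 := i.2
  have key : ∀ {c c' a g k a' g' k'}, bt c a g k i = bt c' a' g' k' i →
      cpt m c a g k i = cpt m c' a' g' k' i := fun h => by rw [cpt, cpt, h]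
  unfold dr at hi
  unfold ph
  rw [if_neg (Nat.succ_ne_zero s)]
  split_ifs at hi ⊢ <;>
    first | omega | (refine key ?_; unfold bt; split_ifs <;> first | rfl | omega)

theorem ph_cons {m : ℕ} {c c' : Bool} {a g b a' g' b' : ℕ} (ha : a < 2 ^ m) (ha' : a' < 2 ^ m)
    (hb : b < 2 ^ m) (hb' : b' < 2 ^ m) (H0 : a = a' → c = c' ∧ g = g' ∧ b = b')
    (H1 : c = c' → |(g' : ℤ) - g| ≤ |(a' : ℤ) - a|) (H2 : c = c' → |(g' : ℤ) - g| ≤ |(b' : ℤ) - b|)
    (H3 : c = c' → g = g' → b = b') {s : ℕ} (hs : s < 2 * m + 2)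
    (h : ph m c a g b s = ph m c' a' g' b' s) :
    ph m c a g b (s + 1) = ph m c' a' g' b' (s + 1) := by
  by_cases h0 : s = 0
  · rw [ph, ph, if_pos h0, if_pos h0] at h
    have h1 : a = a' := by simpa using (cpt_inj ha ha' (Nat.zero_le _) h).2.2
    obtain ⟨rfl, rfl, rfl⟩ := H0 h1
    rw [h1]
  by_cases h1 : s ≤ m + 1
  · rw [ph, ph, if_neg h0, if_neg h0, if_pos h1, if_pos h1] at h
    obtain ⟨rfl, h2, h3⟩ := cpt_inj ha ha' (by omega) h
    obtain rfl := eq_of_close (by positivity) h2 h3 (H1 rfl)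
    obtain rfl := H3 rfl rfl
    rw [ph, ph, if_neg (Nat.succ_ne_zero s), if_neg (Nat.succ_ne_zero s)]
    split_ifs with h4
    · rw [cpt_eq_iff] at h ⊢
      intro i hi
      have h5 := h i hi
      unfold bt at h5 ⊢
      split_ifs at h5 ⊢ <;> first | rfl | exact h5 | omega
    · rfl
    · rfl
  · rw [ph, ph, if_neg h0, if_neg h0, if_neg h1, if_neg h1, if_pos (by omega),
      if_pos (by omega)] at h
    obtain ⟨rfl, h2, h3⟩ := cpt_inj hb hb' (by omega) h
    obtain rfl := eq_of_close (by positivity) h2 h3 (H2 rfl)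
    obtain rfl := H3 rfl rfl
    rw [ph, ph, if_neg (Nat.succ_ne_zero s), if_neg (Nat.succ_ne_zero s), if_neg (by omega),
      if_neg (c := s + 1 ≤ m + 1) (by omega)]

/-! ### Radix sort -/

/-- the key of the request `j` before the pass `k` -/
def key (l : List ℕ) (k j : ℕ) : ℕ := l.getD j 0 % 2 ^ k * l.length + j

/-- the rank of the key -/
def sg (l : List ℕ) (k j : ℕ) : ℕ :=
  ((range l.length).filter fun j' => key l k j' < key l k j).card

/-- the position of the request `j` before the phase `k` -/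
def pa (m : ℕ) (l : List ℕ) (k j : ℕ) : ℕ := if k ≤ m then sg l k j else l.getD j 0

/-- the colour -/
def col (l : List ℕ) (k j : ℕ) : Bool := (l.getD j 0).testBit k

/-- the rank of the target among the targets of the same colour -/
def rk (m : ℕ) (l : List ℕ) (k j : ℕ) : ℕ :=
  ((range (pa m l (k + 1) j)).filter fun v =>
    ∃ j' ∈ List.range l.length, col l k j' = col l k j ∧ pa m l (k + 1) j' = v).card

section Srt

variable {m : ℕ} {l : List ℕ} {k j j' : ℕ}

theorem key_inj (hj : j < l.length) (hj' : j' < l.length) (h : key l k j = key l k j') :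
    j = j' := by
  have h1 := congrArg (· % l.length) h
  simp only [key, Nat.mul_add_mod_self_right] at h1
  rwa [Nat.mod_eq_of_lt hj, Nat.mod_eq_of_lt hj'] at h1

theorem sg_mono (h : key l k j ≤ key l k j') : sg l k j ≤ sg l k j' :=
  card_le_card fun _ hx => mem_filter.2 ⟨(mem_filter.1 hx).1, (mem_filter.1 hx).2.trans_le h⟩

theorem sg_strict (hj : j < l.length) (h : key l k j < key l k j') : sg l k j < sg l k j' :=
  card_lt_card ⟨fun _ hx => mem_filter.2 ⟨(mem_filter.1 hx).1, (mem_filter.1 hx).2.trans h⟩,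
    fun hs => lt_irrefl _ (mem_filter.1 (hs (mem_filter.2 ⟨mem_range.2 hj, h⟩))).2⟩

theorem key_le_of_sg (hj' : j' < l.length) (h : sg l k j ≤ sg l k j') : key l k j ≤ key l k j' :=
  not_lt.1 fun h1 => not_lt.2 h (sg_strict hj' h1)

theorem sg_lt (hj : j < l.length) : sg l k j < l.length := by
  refine lt_of_lt_of_eq (card_lt_card ⟨filter_subset _ _, fun hs => ?_⟩) (card_range _)
  exact lt_irrefl _ (mem_filter.1 (hs (mem_range.2 hj))).2

theorem sg_zero (hj : j < l.length) : sg l 0 j = j := by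
  have h : ((range l.length).filter fun j' => key l 0 j' < key l 0 j) = range j := by
    ext x
    simp only [key, pow_zero, Nat.mod_one, zero_mul, zero_add, mem_filter, mem_range]
    omega
  rw [sg, h, card_range]

theorem pa_inj (hk : k ≤ m) (hj : j < l.length) (hj' : j' < l.length)
    (h : pa m l k j = pa m l k j') : j = j' := by
  rw [pa, pa, if_pos hk, if_pos hk] at h
  exact key_inj hj hj' (le_antisymm (key_le_of_sg hj' h.le) (key_le_of_sg hj h.ge))

theorem pa_lt (hl : l.length = 2 ^ m) (hF : ∀ j, l.getD j 0 < 2 ^ m) (hj : j < l.length) :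
    pa m l k j < 2 ^ m := by
  unfold pa
  split_ifs
  · exact hl ▸ sg_lt hj
  · exact hF j

theorem pa_mono (hF : ∀ j, l.getD j 0 < 2 ^ m) (hk : k ≤ m) (hj' : j' < l.length)
    (hc : col l k j = col l k j') (h : pa m l k j ≤ pa m l k j') :
    pa m l (k + 1) j ≤ pa m l (k + 1) j' := by
  rw [pa, pa, if_pos hk, if_pos hk] at h
  have h1 := key_le_of_sg hj' h
  unfold pa
  split_ifs with h2
  · refine sg_mono ?_
    have h3 : l.getD j 0 / 2 ^ k % 2 = l.getD j' 0 / 2 ^ k % 2 := by
      rw [col, col, Nat.testBit_eq_decide_div_mod_eq, Nat.testBit_eq_decide_div_mod_eq,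
        decide_eq_decide] at hc
      omega
    rw [key, key] at h1
    rw [key, key, Nat.mod_pow_succ, Nat.mod_pow_succ, h3, add_mul, add_mul]
    omega
  · obtain rfl : k = m := by omega
    rw [key, key, Nat.mod_eq_of_lt (hF j), Nat.mod_eq_of_lt (hF j')] at h1
    by_contra h3
    have h4 : (l.getD j' 0 + 1) * l.length ≤ l.getD j 0 * l.length :=
      Nat.mul_le_mul_right _ (by omega)
    rw [add_mul] at h4
    omega

theorem rk_sub (hc : col l k j = col l k j') (h : pa m l (k + 1) j ≤ pa m l (k + 1) j') :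
    rk m l k j' = rk m l k j + ((Ico (pa m l (k + 1) j) (pa m l (k + 1) j')).filter fun v =>
      ∃ i ∈ List.range l.length, col l k i = col l k j ∧ pa m l (k + 1) i = v).card := by
  rw [rk, rk, ← hc, range_eq_Ico, range_eq_Ico, ← Ico_union_Ico_eq_Ico (Nat.zero_le _) h,
    filter_union, card_union_of_disjoint (disjoint_filter_filter (Ico_disjoint_Ico_consecutive _ _ _))]

theorem rk_le_b (hc : col l k j = col l k j') (h : pa m l (k + 1) j ≤ pa m l (k + 1) j') :
    rk m l k j ≤ rk m l k j' ∧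
      rk m l k j' ≤ rk m l k j + (pa m l (k + 1) j' - pa m l (k + 1) j) := by
  rw [rk_sub hc h]
  exact ⟨Nat.le_add_right _ _,
    Nat.add_le_add_left ((card_filter_le _ _).trans (Nat.card_Ico _ _).le) _⟩

theorem rk_strict (hj : j < l.length) (hc : col l k j = col l k j')
    (h : pa m l (k + 1) j < pa m l (k + 1) j') : rk m l k j < rk m l k j' := by
  rw [rk_sub hc h.le]
  exact Nat.lt_add_of_pos_right (card_pos.2 ⟨_, mem_filter.2 ⟨mem_Ico.2 ⟨le_rfl, h⟩,
    j, List.mem_range.2 hj, rfl, rfl⟩⟩)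

theorem rk_le_a (hF : ∀ j, l.getD j 0 < 2 ^ m) (hk : k ≤ m) (hj : j < l.length)
    (hj' : j' < l.length) (hc : col l k j = col l k j') (h : pa m l k j ≤ pa m l k j') :
    rk m l k j ≤ rk m l k j' ∧ rk m l k j' ≤ rk m l k j + (pa m l k j' - pa m l k j) := by
  have h1 := pa_mono hF hk hj' hc h
  refine ⟨(rk_le_b hc h1).1, ?_⟩
  rw [rk_sub hc h1]
  refine Nat.add_le_add_left ?_ _
  let T := (range l.length).filter fun i =>
    col l k i = col l k j ∧ pa m l k j ≤ pa m l k i ∧ pa m l k i < pa m l k j'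
  have h2 : T.card ≤ pa m l k j' - pa m l k j := by
    rw [← Nat.card_Ico]
    exact card_le_card_of_injOn (pa m l k) (fun i hi => mem_Ico.2 (mem_filter.1 hi).2.2)
      fun i hi i' hi' e => pa_inj hk (mem_range.1 (mem_filter.1 hi).1)
        (mem_range.1 (mem_filter.1 hi').1) e
  refine le_trans (card_le_card_of_surjOn (pa m l (k + 1)) fun v hv => ?_) h2
  obtain ⟨hv1, i, hi, hci, rfl⟩ := mem_filter.1 (mem_coe.1 hv)
  have hi' := List.mem_range.1 hi
  obtain ⟨hv2, hv3⟩ := mem_Ico.1 hv1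
  rcases le_or_gt (pa m l k j) (pa m l k i) with h3 | h3
  · refine ⟨i, mem_filter.2 ⟨mem_range.2 hi', hci, h3, not_le.1 fun h4 => ?_⟩, rfl⟩
    exact not_le.2 hv3 (pa_mono hF hk hi' (hc.symm.trans hci.symm) h4)
  · have h4 := pa_mono hF hk hj hci h3.le
    refine ⟨j, mem_filter.2 ⟨mem_range.2 hj, rfl, le_rfl, not_le.1 fun h5 => ?_⟩,
      le_antisymm hv2 h4⟩
    exact not_le.2 (hv2.trans_lt hv3) (pa_mono hF hk hj hc.symm h5)

end Srt

/-- the position of the request `j` at the time `t` -/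
def pos (m : ℕ) (l : List ℕ) (t j : ℕ) : Gam (m + 1) :=
  ph m (col l (t / (2 * m + 2)) j) (pa m l (t / (2 * m + 2)) j) (rk m l (t / (2 * m + 2)) j)
    (pa m l (t / (2 * m + 2) + 1) j) (t % (2 * m + 2))

theorem pos_succ (m : ℕ) (l : List ℕ) (t j : ℕ) : pos m l (t + 1) j =
    ph m (col l (t / (2 * m + 2)) j) (pa m l (t / (2 * m + 2)) j) (rk m l (t / (2 * m + 2)) j)
      (pa m l (t / (2 * m + 2) + 1) j) (t % (2 * m + 2) + 1) := by
  have hM : 0 < 2 * m + 2 := by omega
  have h1 := Nat.mod_lt t hM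
  have h2 := Nat.div_add_mod t (2 * m + 2)
  by_cases h : t % (2 * m + 2) + 1 < 2 * m + 2
  · have h3 := (Nat.div_mod_unique (a := t + 1) (c := t % (2 * m + 2) + 1)
      (d := t / (2 * m + 2)) hM).2 ⟨by omega, h⟩
    rw [pos, h3.1, h3.2]
  · have h3 := (Nat.div_mod_unique (a := t + 1) (c := 0) (d := t / (2 * m + 2) + 1) hM).2
      ⟨by rw [mul_add]; omega, hM⟩
    rw [pos, h3.1, h3.2, ph, if_pos rfl, ph, if_neg (by omega), if_neg (by omega),
      if_neg (by omega)]

theorem pos_step (m : ℕ) (l : List ℕ) (t j : ℕ) : pos m l (t + 1) j = pos m l t j ∨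
    pos m l (t + 1) j = pos m l t j + eV ⟨dr m (t % (2 * m + 2)), dr_lt _ _⟩ := by
  rw [pos_succ]
  exact step_of_agree fun i hi =>
    ph_step _ _ _ _ _ (Nat.mod_lt _ (by omega)) i fun e => hi (Fin.ext e)

theorem abs_le_of {g g' a a' : ℕ} (h : a ≤ a' → g ≤ g' ∧ g' ≤ g + (a' - a))
    (h' : a' ≤ a → g' ≤ g ∧ g ≤ g' + (a - a')) : |(g' : ℤ) - g| ≤ |(a' : ℤ) - a| := by
  rcases le_total a a' with e | e
  · have := h e
    rw [abs_of_nonneg (by omega), abs_of_nonneg (by omega)]
    omega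
  · have := h' e
    rw [abs_of_nonpos (by omega), abs_of_nonpos (by omega)]
    omega

theorem pos_cons {m : ℕ} {l : List ℕ} (hl : l.length = 2 ^ m) (hF : ∀ j, l.getD j 0 < 2 ^ m)
    {t j j' : ℕ} (ht : t < (m + 1) * (2 * m + 2)) (hj : j < l.length) (hj' : j' < l.length)
    (h : pos m l t j = pos m l t j') : pos m l (t + 1) j = pos m l (t + 1) j' := by
  have hk : t / (2 * m + 2) ≤ m :=
    Nat.le_of_lt_succ ((Nat.div_lt_iff_lt_mul (by omega)).2 ht)
  rw [pos_succ, pos_succ]
  refine ph_cons (pa_lt hl hF hj) (pa_lt hl hF hj') (pa_lt hl hF hj) (pa_lt hl hF hj')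
    (fun e => ?_) (fun e => ?_) (fun e => ?_) (fun e e' => ?_) (Nat.mod_lt _ (by omega)) h
  · rw [pa_inj hk hj hj' e]
    exact ⟨rfl, rfl, rfl⟩
  · exact abs_le_of (rk_le_a hF hk hj hj' e) (rk_le_a hF hk hj' hj e.symm)
  · exact abs_le_of (rk_le_b e) (rk_le_b e.symm)
  · exact le_antisymm (not_lt.1 fun h1 => (rk_strict hj' e.symm h1).ne e'.symm)
      (not_lt.1 fun h1 => (rk_strict hj e h1).ne e')

theorem pos_zero {m : ℕ} {l : List ℕ} {j : ℕ} (hj : j < l.length) :
    pos m l 0 j = cpt m false j 0 0 := by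
  rw [pos, Nat.zero_div, Nat.zero_mod, ph, if_pos rfl, pa, if_pos (Nat.zero_le _), sg_zero hj]

theorem pos_last (m : ℕ) (l : List ℕ) (j : ℕ) :
    pos m l ((m + 1) * (2 * m + 2)) j = cpt m false (l.getD j 0) 0 0 := by
  rw [pos, Nat.mul_div_cancel _ (by omega), Nat.mul_mod_left, ph, if_pos rfl, pa,
    if_neg (by omega)]

theorem exists_cpt {m : ℕ} (ε : Gam (m + 1)) (h : ε 0 = 0) :
    ∃ j < 2 ^ m, cpt m false j 0 0 = ε := by
  refine ⟨Nat.ofBits fun i : Fin m => decide (ε i.succ = 1), Nat.ofBits_lt_two_pow _,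
    funext fun i => ?_⟩
  refine Fin.cases ?_ (fun k => ?_) i
  · rw [h]; rfl
  · simp only [cpt, bt, Fin.val_succ, Nat.add_one_ne_zero, if_false, Nat.add_sub_cancel,
      Nat.not_lt_zero, Nat.testBit_ofBits_lt _ _ k.2]
    change (bif decide (ε k.succ = 1) then 1 else 0) = ε k.succ
    generalize ε k.succ = a
    revert a
    decide

/-- the list of the numbers of the destinations -/
def dests (m : ℕ) (f : Vec (Gam (m + 1)) (Gam (m + 1))) : List ℕ :=
  (List.range (2 ^ m)).map fun j =>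
    ((List.range (2 ^ m)).find? fun v => decide (cpt m false v 0 0 = f (cpt m false j 0 0))).getD 0

theorem length_dests (m : ℕ) (f : Vec (Gam (m + 1)) (Gam (m + 1))) :
    (dests m f).length = 2 ^ m := by simp [dests]

theorem dests_lt (m : ℕ) (f : Vec (Gam (m + 1)) (Gam (m + 1))) (j : ℕ) :
    (dests m f).getD j 0 < 2 ^ m := by
  by_cases hj : j < (dests m f).length
  · rw [List.getD_eq_getElem _ _ hj]
    simp only [dests, List.getElem_map]
    cases hf : List.find? _ (List.range (2 ^ m)) with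
    | none => exact Nat.two_pow_pos m
    | some v => exact List.mem_range.1 (List.mem_of_find?_eq_some hf)
  · rw [List.getD_eq_default _ _ (not_lt.1 hj)]
    exact Nat.two_pow_pos m

theorem cpt_dests {m : ℕ} {f : Vec (Gam (m + 1)) (Gam (m + 1))} (hf : ∀ ε, f ε 0 = 0) {j : ℕ}
    (hj : j < 2 ^ m) : cpt m false ((dests m f).getD j 0) 0 0 = f (cpt m false j 0 0) := by
  rw [List.getD_eq_getElem _ _ (by rwa [length_dests])]
  simp only [dests, List.getElem_map, List.getElem_range]
  obtain ⟨v, hv, e⟩ := exists_cpt _ (hf (cpt m false j 0 0))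
  cases h : List.find? _ (List.range (2 ^ m)) with
  | none => exact absurd (decide_eq_true e) (List.find?_eq_none.1 h v (List.mem_range.2 hv))
  | some v' =>
    exact of_decide_eq_true
      (List.find?_some (p := fun v => decide (cpt m false v 0 0 = f (cpt m false j 0 0))) h)

/-- the mask at the time `t` -/
def msk (m : ℕ) (l : List ℕ) (t : ℕ) (ε : Gam (m + 1)) : Bool :=
  (List.range l.length).any fun j => decide (pos m l t j = ε ∧ pos m l (t + 1) j ≠ ε)

/-! ### Polynomial time -/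

variable {α : Type} [Enc α]

theorem dpt_count {n : α → ℕ} {q : α → ℕ → Prop} [∀ a, DecidablePred (q a)] (hn : DPT n)
    (hb : PBd n) (hq : DPr fun x : Σ a, {i // i ∈ List.range (n a)} => q x.1 x.2.1) :
    DPT fun a => ((range (n a)).filter (q a)).card :=
  (DPT.filter (f := fun a v => decide (q a v)) (hn.range hb) (DPT.decide hq)).length.congr
    fun _ => rfl

@[fun_prop]
theorem dpt_cpt {m a g k : α → ℕ} {c : α → Bool} (hm : DPT m) (hb : PBd m) (hc : DPT c)
    (ha : DPT a) (hg : DPT g) (hk : DPT k) : DPT fun x => cpt (m x) (c x) (a x) (g x) (k x) := by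
  refine dpt_vecMk (V := fun x => Fin (m x + 1)) (T := fun _ => ZMod 2) (by fun_prop) ?_
  unfold cpt bt
  fun_prop

@[fun_prop]
theorem dpt_ph {m a g b s : α → ℕ} {c : α → Bool} (hm : DPT m) (hb : PBd m) (hc : DPT c)
    (ha : DPT a) (hg : DPT g) (hb' : DPT b) (hs : DPT s) :
    DPT fun x => ph (m x) (c x) (a x) (g x) (b x) (s x) := by
  unfold ph
  fun_prop

variable {m k j t : α → ℕ} {l : α → List ℕ}

@[fun_prop]
theorem dpt_key (hl : DPT l) (hk : DPT k) (hb : PBd k) (hj : DPT j) :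
    DPT fun x => key (l x) (k x) (j x) := by
  unfold key
  fun_prop

@[fun_prop]
theorem dpt_sg (hl : DPT l) (hk : DPT k) (hb : PBd k) (hj : DPT j) :
    DPT fun x => sg (l x) (k x) (j x) :=
  dpt_count (by fun_prop) (by fun_prop) (by fun_prop)

@[fun_prop]
theorem dpt_pa (hm : DPT m) (hl : DPT l) (hk : DPT k) (hb : PBd k) (hj : DPT j) :
    DPT fun x => pa (m x) (l x) (k x) (j x) := by
  unfold pa
  fun_prop

@[fun_prop]
theorem dpt_col (hl : DPT l) (hk : DPT k) (hj : DPT j) : DPT fun x => col (l x) (k x) (j x) := by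
  unfold col
  fun_prop

theorem dpt_rk (hm : DPT m) (hl : DPT l) (hk : DPT k) (hb : PBd k) (hj : DPT j)
    (hp : PBd fun x => pa (m x) (l x) (k x + 1) (j x)) :
    DPT fun x => rk (m x) (l x) (k x) (j x) :=
  dpt_count (by fun_prop) hp (DPr.exists_mem (by fun_prop) (by fun_prop))

theorem dpt_pos (hm : DPT m) (hmb : PBd m) (hl : DPT l) (ht : DPT t) (hb : PBd t) (hj : DPT j)
    (hF : ∀ x i, (l x).getD i 0 ≤ (l x).length) : DPT fun x => pos (m x) (l x) (t x) (j x) := by
  have h1 : DPT fun x => rk (m x) (l x) (t x / (2 * m x + 2)) (j x) := by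
    refine dpt_rk hm hl (by fun_prop) (by fun_prop) hj ((pbd_length hl).mono fun x => ?_)
    unfold pa
    split_ifs
    · exact (card_filter_le _ _).trans (card_range _).le
    · exact hF x _
  unfold pos
  fun_prop

theorem dpt_msk {ε : ∀ x, Gam (m x + 1)} (hm : DPT m) (hmb : PBd m) (hl : DPT l) (ht : DPT t)
    (hb : PBd t) (hε : DPT ε) (hF : ∀ x i, (l x).getD i 0 ≤ (l x).length) :
    DPT fun x => msk (m x) (l x) (t x) (ε x) := by
  refine DPT.any (by fun_prop) (DPT.decide (DPr.and (DPr.eq ?_ (by fun_prop))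
    (DPr.ne ?_ (by fun_prop))))
  · exact dpt_pos (by fun_prop) (by fun_prop) (by fun_prop) (by fun_prop) (by fun_prop)
      (by fun_prop) fun x => hF x.1
  · exact dpt_pos (by fun_prop) (by fun_prop) (by fun_prop) (by fun_prop) (by fun_prop)
      (by fun_prop) fun x => hF x.1

theorem dpt_dests {f : ∀ x, Vec (Gam (m x + 1)) (Gam (m x + 1))} (hm : DPT m) (hmb : PBd m)
    (hf : DPT f) : DPT fun x => dests (m x) (f x) := by
  have h1 : PBd fun x => 2 ^ (m x + 1) := (pbd_length (dpt_toL hf)).mono fun x => by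
    rw [Vec.length_toL, length_elems, card_vec, ZMod.card, Fintype.card_fin]
  have h2 : PBd fun x => 2 ^ m x :=
    h1.mono fun x => Nat.pow_le_pow_right (by norm_num) (Nat.le_succ _)
  have h3 : DPT fun x => elems (Gam (m x + 1)) :=
    dpt_elems_vec (by fun_prop) (DPT.const _) (h1.mono fun x => by
      rw [length_elems, length_elems, ZMod.card, Fintype.card_fin])
  have h4 : DPT fun x => List.range (2 ^ m x) := DPT.range (by fun_prop) h2
  have h5 : DPT fun x : Σ a, {i // i ∈ List.range (2 ^ m a)} =>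
      f x.1 (cpt (m x.1) false x.2.1 0 0) :=
    dpt_vecAt (V := fun x : Σ a, {i // i ∈ List.range (2 ^ m a)} => Gam (m x.1 + 1))
      (f := fun x => f x.1) (h3.comp DPT.id.sfst) (hf.comp DPT.id.sfst) (by fun_prop)
  exact DPT.map h4 (DPT.optGetD (DPT.find? (h4.comp DPT.id.sfst)
    (DPT.decide (DPr.eq (by fun_prop) (h5.comp DPT.id.sfst)))) (DPT.const 0))

end RouteP

open RouteP in
/-- O1b: routing. -/
theorem routeStmt : RouteStmt := by
  refine ⟨fun m => (m + 1) * (2 * m + 2),
    fun m i => ⟨dr m (((m + 1) * (2 * m + 2) - 1 - i) % (2 * m + 2)), dr_lt _ _⟩,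
    fun m f i => msk m (dests m f) ((m + 1) * (2 * m + 2) - 1 - i), ?_, ?_, ?_, ?_, ?_⟩
  · have h : DPT fun u : Un => u.v := DPT.ofPT (PT.unVal PT.id)
    fun_prop
  · have h : PBd fun u : Un => u.v := PBd.unVal (A := ∅) PT.id
    fun_prop
  · have h : DPT fun x : Un × ℕ => x.1.v := DPT.ofPT (PT.unVal PT.fst')
    refine dpt_finMk ?_
    unfold dr
    fun_prop
  · have h : DPT fun x : Σ u : Un, Vec (Gam (u.v + 1)) (Gam (u.v + 1)) × ℕ × Gam (u.v + 1) =>
        x.1.v := DPT.ofPT (PT.unVal (DPT.toPT DPT.id.sfst))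
    have h' : PBd fun x : Σ u : Un, Vec (Gam (u.v + 1)) (Gam (u.v + 1)) × ℕ × Gam (u.v + 1) =>
        x.1.v := PBd.unVal (DPT.toPT DPT.id.sfst)
    exact dpt_msk h h' (dpt_dests h h' DPT.ssnd.fst) (by fun_prop) (by fun_prop)
      DPT.ssnd.snd.snd fun x i => (length_dests _ _).symm ▸ (dests_lt _ _ i).le
  · intro m f W x ε hf hε
    obtain ⟨j, hj, rfl⟩ := exists_cpt ε hε
    have hj' : j < (dests m f).length := by rwa [length_dests]
    have h := route_of_paths (fun j => j < (dests m f).length) ((m + 1) * (2 * m + 2))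
      (fun t => ⟨dr m (t % (2 * m + 2)), dr_lt _ _⟩) (pos m (dests m f)) (msk m (dests m f))
      (fun t _ j _ => pos_step m _ t j)
      (fun t ht j j' h1 h2 => pos_cons (length_dests m f) (dests_lt m f) ht h1 h2)
      (fun t ε => by simp [msk]) x _ le_rfl j hj'
    rwa [Nat.sub_self, pos_zero hj', pos_last, cpt_dests hf hj] at h

end Vale.Agent.P330.Outer
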