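import Vale.Agent.P330.Outer.VMSem

/-!
P330, outer system: End-of-Line as a family of vector machines.
-/

namespace Vale.Agent.P330.Outer

open Vale.Agent.Lib.PolyTime hiding C P
open Vale.Agent.Lib.Dep
open Vale.Agent.P330.Bohr

namespace VMP

section PT

variable {α : Type} [Enc α] {X : α → Type} [∀ a, Enc (X a)] [∀ a, En (X a)] [∀ a, EncInj (X a)]
  {m : α → ℕ} {D : ℕ}

theorem pbd_of_pow {n : α → ℕ} (h : PBd fun a => 2 ^ n a) : PBd n :=
  h.mono fun _ => Nat.lt_two_pow_self.le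

theorem dpt_elems_gam {n : α → ℕ} (hn : DPT n) (hb : PBd fun a => 2 ^ n a) :
    DPT fun a => elems (Gam (n a)) :=
  dpt_elems_vec (dpt_elems_fin hn (pbd_of_pow hb)) (DPT.const _)
    (by simpa only [length_elems, Fintype.card_fin, ZMod.card] using hb)

theorem dpt_emb {v : ∀ a, X a} (hX : DPT fun a => elems (X a)) (hm : DPT m) (hb : PBd m)
    (hv : DPT v) : DPT fun a => emb (m a) (v a) := by
  have h1 : DPT fun a => eidx (v a) := dpt_eidx hX hv
  refine dpt_vecMk (dpt_elems_fin (by fun_prop) (by fun_prop))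
    (DPT.ite (DPr.eq (DPT.testBit ?_ (dpt_finVal DPT.ssnd)) (DPT.const true)) (DPT.const _)
      (DPT.const _))
  exact (DPT.const 2).natMul (h1.comp DPT.id.sfst)

theorem dpr_emb {ε : ∀ a, Gam (m a + 1)} (hX : DPT fun a => elems (X a)) (hm : DPT m) (hb : PBd m)
    (hε : DPT ε) : DPr fun y : Σ a, X a => emb (m y.1) y.2 = ε y.1 :=
  DPr.eq (dpt_emb (X := fun y : Σ a, X a => X y.1) (hX.comp DPT.id.sfst) (hm.comp DPT.id.sfst)
    (pbd_comp hb DPT.id.sfst) DPT.ssnd) (hε.comp DPT.id.sfst)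

theorem dpt_inv {d : ∀ a, X a} {ε : ∀ a, Gam (m a + 1)} (hX : DPT fun a => elems (X a))
    (hm : DPT m) (hb : PBd m) (hd : DPT d) (hε : DPT ε) : DPT fun a => inv (d a) (ε a) :=
  dpt_firstD hX (dpr_emb hX hm hb hε) hd

theorem dpt_img {ε : ∀ a, Gam (m a + 1)} (hX : DPT fun a => elems (X a)) (hm : DPT m) (hb : PBd m)
    (hε : DPT ε) : DPT fun a => img (X a) (ε a) := by
  classical
  exact DPT.decide (dpr_exists hX (dpr_emb hX hm hb hε))

variable {M : ∀ a, LBL 0 0 D (X a)}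

omit [∀ a, En (X a)] [∀ a, EncInj (X a)] in
theorem dpt_rdv (hM : LBL.IsPT (ℓ := fun _ => 0) M) {f r : α → ℕ} {v : ∀ a, X a} (hf : DPT f)
    (hv : DPT v) (hr : DPT r) : DPT fun a => rdv (M a) (f a) (v a) (r a) := by
  refine DPT.getD (dpt_mapConst _ (f := fun j a => ((rl (M a) (f a) (v a)).rd j).2) fun j _ => ?_)
    hr hM.first
  refine (DPT.ite (p := fun a => f a = 0) (by fun_prop) (hM.val.rd' DPT.id hv (DPT.const ()) j).snd
    (DPT.ite (p := fun a => f a = 1) (by fun_prop) (hM.suc.rd' DPT.id hv (DPT.const ()) j).snd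
      (hM.pre.rd' DPT.id hv (DPT.const ()) j).snd)).congr fun a => ?_
  rw [rl]
  split_ifs <;> rfl

omit [∀ a, En (X a)] [∀ a, EncInj (X a)] in
theorem dpt_fn (hM : LBL.IsPT (ℓ := fun _ => 0) M) {f : α → ℕ} {v : ∀ a, X a}
    {y : α → Fin D → Bool} (hf : DPT f) (hv : DPT v) (hy : DPT y) :
    DPT fun a => (rl (M a) (f a) (v a)).fn (y a) := by
  refine (DPT.ite (p := fun a => f a = 0) (by fun_prop) (hM.val.fn' DPT.id hv (DPT.const ()) hy)
    (DPT.ite (p := fun a => f a = 1) (by fun_prop) (hM.suc.fn' DPT.id hv (DPT.const ()) hy)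
      (hM.pre.fn' DPT.id hv (DPT.const ()) hy))).congr fun a => ?_
  rw [rl]
  split_ifs <;> rfl

theorem dpt_rho (hM : LBL.IsPT (ℓ := fun _ => 0) M) (hX : DPT fun a => elems (X a)) (hm : DPT m)
    (hb : PBd fun a => 2 ^ (m a + 1)) {f r : α → ℕ} (hf : DPT f) (hr : DPT r) :
    DPT fun a => rho (M a) (m a) (f a) (r a) := by
  have hb' : PBd m := (pbd_of_pow hb).mono fun _ => Nat.le_succ _
  have e : DPT fun y : Σ a, Gam (m a + 1) => y.1 := DPT.id.sfst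
  refine dpt_vecMk (dpt_elems_gam (by fun_prop) hb) ?_
  exact dpt_emb (X := fun y : Σ a, Gam (m a + 1) => X y.1) (hX.comp e) (hm.comp e)
    (pbd_comp hb' e) (dpt_rdv (hM.comap e) (hf.comp e)
      (dpt_inv (hX.comp e) (hm.comp e) (pbd_comp hb' e) (hM.first.comp e) DPT.ssnd) (hr.comp e))

theorem dpt_tab (hM : LBL.IsPT (ℓ := fun _ => 0) M) (hX : DPT fun a => elems (X a)) (hm : DPT m)
    (hb : PBd m) {f r : α → ℕ} {ε : ∀ a, Gam (m a + 1)} (hf : DPT f) (hr : DPT r) (hε : DPT ε) :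
    DPT fun a => tab (M a) (f a) (r a) (ε a) := by
  have h0 : DPT fun a => ε a 0 :=
    dpt_vecAt (dpt_elems_fin (by fun_prop) (by fun_prop)) hε (dpt_fin_of_val (DPT.const 0))
  refine DPT.ite (by fun_prop) (DPT.and (DPT.decide (DPr.eq h0 (DPT.const _))) (by fun_prop))
    (DPT.and (dpt_img hX hm hb hε) (dpt_xor (by fun_prop)
      (dpt_fn hM hf (dpt_inv hX hm hb hM.first hε) (dpt_piMk fun j => by fun_prop))))

theorem dpt_ind {p : α → ℕ} [∀ a, NeZero (p a)] (hp : DPT p) {b : α → Bool} (hb : DPT b) :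
    DPT fun a => (ind (b a) : ZMod (p a)) :=
  DPT.ite (DPr.eq hb (DPT.const true)) (DPT.one (PTRing.zmod hp)) (DPT.zero (PTRing.zmod hp))

theorem dpt_pub (hM : LBL.IsPT (ℓ := fun _ => 0) M) (hX : DPT fun a => elems (X a)) (hm : DPT m)
    (hb : PBd fun a => 2 ^ (m a + 1)) {p : α → ℕ} [∀ a, NeZero (p a)] (hp : DPT p)
    {L i : α → ℕ} (hL : DPT L) (hi : DPT i) {ε : ∀ a, Gam (m a + 1)} (hε : DPT ε)
    {msk : ∀ n, Vec (Gam (n + 1)) (Gam (n + 1)) → ℕ → Gam (n + 1) → Bool}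
    (hk : DPT fun x : Σ u : Un, Vec (Gam (u.v + 1)) (Gam (u.v + 1)) × ℕ × Gam (u.v + 1) =>
      msk x.1.v x.2.1 x.2.2.1 x.2.2.2) :
    DPT fun a => pub (ZMod (p a)) (M a) (L a) (msk (m a)) (i a) (ε a) := by
  have hb' : PBd m := (pbd_of_pow hb).mono fun _ => Nat.le_succ _
  have hu : DPT fun a => Un.mk (m a) := DPT.ofPT (PT.mkUn hm.toPT hb')
  refine dpt_ind hp (DPT.and (by fun_prop) ?_)
  unfold dec4 pubB
  refine DPT.ite (by fun_prop) (DPT.decide (DPr.eq (dpt_emb hX hm hb' hM.first) hε))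
    (DPT.ite (by fun_prop) ?_ (DPT.ite (by fun_prop)
      (dpt_tab hM hX hm hb' (by fun_prop) (by fun_prop) hε) (dpt_img hX hm hb' hε).not))
  exact DPT.comp (f := fun a => (⟨Un.mk (m a), rho (M a) (m a) (i a / 5 / 2 ^ (D + 1) % 4)
    (i a / 5 % 2 ^ (D + 1)), i a / 5 / 2 ^ (D + 1) / 4 - 1, ε a⟩ :
      Σ u : Un, Vec (Gam (u.v + 1)) (Gam (u.v + 1)) × ℕ × Gam (u.v + 1))) hk
    (DPT.smk hu ((dpt_rho hM hX hm hb (by fun_prop) (by fun_prop)).pair
      (DPT.pair (by fun_prop) hε)))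

theorem exists_prime {A : α → ℕ} (hA : DPT A) (hb : PBd A) (h0 : ∀ a, 0 < A a) :
    ∃ p : α → ℕ, DPT p ∧ PBd p ∧ ∀ a, (p a).Prime ∧ A a ≤ p a := by
  have h1 : PBd fun a => 2 * A a + 1 := by fun_prop
  refine ⟨fun a => (firstD (V := Fin (2 * A a + 1)) (fun j => (j : ℕ).Prime ∧ A a ≤ j) 0 : ℕ),
    dpt_finVal (dpt_firstD (dpt_elems_fin (by fun_prop) h1) (DPr.and (DPr.prime
      (dpt_finVal DPT.ssnd) (pbd_finVal (pbd_comp (b := fun a => 2 * A a + 1) h1 DPT.id.sfst)))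
      (DPr.le (hA.comp DPT.id.sfst) (dpt_finVal DPT.ssnd))) (dpt_fin_of_val (DPT.const 0))),
    pbd_finVal h1, fun a => ?_⟩
  obtain ⟨p, hp, h2, h3⟩ := Nat.exists_prime_lt_and_le_two_mul (A a) (h0 a).ne'
  exact firstD_spec (V := Fin (2 * A a + 1)) (q := fun j => (j : ℕ).Prime ∧ A a ≤ j)
    ⟨⟨p, by omega⟩, hp, h2.le⟩ 0

end PT

theorem two_pow_size_le {n : ℕ} (h : 0 < n) : 2 ^ Nat.size n ≤ n * 2 := by
  have h1 : 0 < Nat.size n := Nat.size_pos.2 h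
  have h2 : 2 ^ (Nat.size n - 1) ≤ n := Nat.lt_size.1 (by omega)
  calc 2 ^ Nat.size n = 2 ^ (Nat.size n - 1) * 2 := by
        rw [← pow_succ, Nat.sub_add_cancel h1]
    _ ≤ n * 2 := by omega

theorem exists_dim (hA : AdmStmt) {n : EOL → ℕ} (hn : DPT n) (hq : QL n) (h0 : ∀ I, 0 < n I) :
    ∃ m : EOL → ℕ, DPT m ∧ PL m ∧ QL (fun I => 2 ^ (m I + 1)) ∧
      ∀ I, n I ≤ 2 ^ m I ∧ Adm (m I + 1) := by
  obtain ⟨⟨c, hc⟩, hd⟩ := hA
  have h1 : PBd fun I => Nat.size (n I) + c + 1 := by fun_prop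
  have h2 : DPT fun I => Nat.size (n I) + c + 1 := by fun_prop
  have h3 : PBd fun y : Σ I, Fin (Nat.size (n I) + c + 1) => (y.2 : ℕ) :=
    pbd_finVal (pbd_comp (b := fun I => Nat.size (n I) + c + 1) h1 DPT.id.sfst)
  have h4 : DPT fun y : Σ I, Fin (Nat.size (n I) + c + 1) => (y.2 : ℕ) := dpt_finVal DPT.ssnd
  have h5 : DPr fun y : Σ I, Fin (Nat.size (n I) + c + 1) => Adm (y.2 + 1) :=
    DPr.comp (f := fun y : Σ I, Fin (Nat.size (n I) + c + 1) => Un.mk (y.2 + 1)) hd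
      (DPT.ofPT (PT.mkUn (h4.natAdd (DPT.const 1)).toPT (h3.add (PBd.const 1))))
  refine ⟨fun I => (firstD (V := Fin (Nat.size (n I) + c + 1))
    (fun j => Nat.size (n I) ≤ j ∧ Adm (j + 1)) 0 : ℕ),
    dpt_finVal (dpt_firstD (dpt_elems_fin h2 h1) (DPr.and (DPr.le
      (hn.natSize.comp DPT.id.sfst) h4) h5) (dpt_fin_of_val (DPT.const 0))),
    ((PL.size hq.pbd).add (PL.const c)).mono fun I => Nat.le_of_lt_succ (Fin.is_lt _),
    ((hq.mul (PL.const 2)).mul (PL.const (2 ^ (c + 1)))).mono fun I => ?_, fun I => ?_⟩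
  · refine (Nat.pow_le_pow_right (by omega) (Fin.is_lt _)).trans ?_
    rw [add_assoc, pow_add]
    exact Nat.mul_le_mul_right _ (two_pow_size_le (h0 I))
  · obtain ⟨k, k1, k2, k3⟩ := hc (Nat.size (n I) + 1)
    have h6 := firstD_spec (V := Fin (Nat.size (n I) + c + 1))
      (q := fun j => Nat.size (n I) ≤ j ∧ Adm (j + 1))
      ⟨⟨k - 1, by omega⟩, by simp only; omega,
        by simpa only [Nat.sub_add_cancel (show 1 ≤ k by omega)]⟩ 0
    exact ⟨(Nat.lt_size_self _).le.trans (Nat.pow_le_pow_right (by omega) h6.1), h6.2⟩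

/-- the small parameters -/
abbrev Prm (e : ℕ) : Type :=
  {x : Un × ℕ // Adm (x.1.v + 1) ∧ x.2.Prime ∧ 2 ^ (x.1.v + 1) * (x.1.v + 1 + 2) ^ e ≤ x.2}

end VMP

open VMP

theorem vmStmt (hE : EolStmt) (hA : AdmStmt) (hR : RouteStmt) : VMStmt := by
  intro e
  obtain ⟨D, X, M, dec, hM, hq, hdec, hsol⟩ := hE
  obtain ⟨len, dir, msk, hlen, hlenb, hdir, hmsk, hroute⟩ := hR
  obtain ⟨m, hm, hml, hmq, hm'⟩ := exists_dim hA X.dpt_card hq X.card_pos
  have hmb : PBd m := hml.ql.pbd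
  have hm2 : PBd fun I => 2 ^ (m I + 1) := hmq.pbd
  obtain ⟨p, hp, hpb, hp'⟩ := exists_prime (A := fun I => 2 ^ (m I + 1) * (m I + 1 + 2) ^ e)
    (by fun_prop) (hm2.mul (PBd.pow (by fun_prop) e)) fun I => by positivity
  have hu : DPT fun I => Un.mk (m I) := DPT.ofPT (PT.mkUn hm.toPT hmb)
  have bu : DPT fun b : Prm e => b.1.1 := DPT.id.val.fst
  have bm : DPT fun b : Prm e => b.1.1.v := DPT.ofPT (PT.unVal bu.toPT)
  have bp : DPT fun b : Prm e => b.1.2 := DPT.id.val.snd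
  have bL : DPT fun b : Prm e => len b.1.1.v := hlen.comp bu
  have bLb : PBd fun b : Prm e => len b.1.1.v := pbd_comp (b := fun u : Un => len u.v) hlenb bu
  let π : Par :=
    { β := Prm e
      par := fun I => ⟨(⟨m I⟩, p I), (hm' I).2, hp' I⟩
      m := fun b => b.1.1.v + 1
      p := fun b => b.1.2
      prime := fun b => ⟨b.2.2.1⟩
      ptPar := (hu.pair hp).of_enc fun _ => rfl
      plPar := ((((PL.const 2).mul hml).add (PL.size hpb)).add (PL.const 1)).mono fun I => by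
        change esize (Un.mk (m I), p I) ≤ _
        rw [esize_pair, esize_un, esize_nat]
      ptm := bm.natAdd (DPT.const 1)
      pbm := (PBd.unVal bu.toPT).add (PBd.const 1)
      ptp := bp
      pbp := hpb
      adm := fun b => b.2.1
      ql := hmq }
  have hi : ∀ I, Function.Injective (emb (m I) : X.T I → Gam (m I + 1)) := fun I =>
    emb_injective (hm' I).1
  refine ⟨π, fun b => vm (D + 1) (len b.1.1.v) (dir b.1.1.v),
    fun I => pub (ZMod (p I)) (M I) (len (m I)) (msk (m I)),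
    fun I z => dec I fun v => decide (z (emb (m I) v) = 1), fun b => b.2.2.2, ?_⟩
  have e1 : DPT fun x : Prm e × ℕ => x.1 := DPT.id.fst
  have e2 : DPT fun x : Prm e × ℕ => x.2 := DPT.id.snd
  have e3 : DPT fun x : Prm e × ℕ => len x.1.1.1.v := bL.comp e1
  have hpos : ∀ {κ : Type} [Enc κ] {L : κ → ℕ}, DPT L → ∀ k f o,
      DPT fun x => pos (2 ^ (D + 1)) (L x + (D + 1) + k) f 0 o := fun hL _ _ _ => by fun_prop
  refine ⟨?_, ?_, ?_, ?_, ?_, ?_, ?_, ?_, ?_, fun I => ?_, fun I z hz => ?_⟩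
  · exact hpos bL 4 0 0
  · exact pbd_pos (PBd.const _) ((bLb.add (PBd.const _)).add (PBd.const _)) (PBd.const _)
      (PBd.const _) (PBd.const _)
  · have : ∀ x : Prm e × ℕ, NeZero x.1.1.2 := fun x => ⟨x.1.2.2.1.ne_zero⟩
    exact dpt_insC (α := Prm e × ℕ) (m := fun x => x.1.1.1.v) (p := fun x => x.1.1.2) (D + 1)
      (dir := fun x => dir x.1.1.1.v) (bp.comp e1) e3 (by fun_prop) (by fun_prop) (by fun_prop)
      (by fun_prop) (DPT.comp (f := fun x : Prm e × ℕ => (x.1.1.1, x.2 / 5 / 2 ^ (D + 1) / 4 - 1))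
        hdir (DPT.pair (bu.comp e1) (by fun_prop)))
  · exact DPT.decide ((DPr.eq e2 (hpos e3 2 0 0)).or
      ((DPr.eq e2 (hpos e3 3 0 3)).or (DPr.eq e2 (hpos e3 3 1 1))))
  · exact hpos bL 2 1 0
  · exact hpos bL 2 2 0
  · exact hpos bL 3 0 1
  · have s : DPT fun x : Σ I, ℕ × Gam (m I + 1) => x.1 := DPT.id.sfst
    have : ∀ x : Σ I, ℕ × Gam (m I + 1), NeZero (p x.1) := fun x => ⟨(hp' x.1).1.ne_zero⟩
    exact dpt_pub (α := Σ I, ℕ × Gam (m I + 1)) (m := fun x => m x.1) (hM.comap s) (X.pt.comp s)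
      (hm.comp s) (pbd_comp (b := fun I => 2 ^ (m I + 1)) hm2 s) (hp.comp s) (hlen.comp (hu.comp s)) DPT.ssnd.fst DPT.ssnd.snd
      hmsk
  · have : ∀ I, NeZero (p I) := fun I => ⟨(hp' I).1.ne_zero⟩
    have s : DPT fun x : Σ I, Vec (Gam (m I + 1)) (ZMod (p I)) => x.1 := DPT.id.sfst
    have t : DPT fun y : Σ x : Σ I, Vec (Gam (m I + 1)) (ZMod (p I)), X.T x.1 => y.1 :=
      DPT.id.sfst
    have h1 : DPT fun y : Σ x : Σ I, Vec (Gam (m I + 1)) (ZMod (p I)), X.T x.1 =>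
        y.1.2 (emb (m y.1.1) y.2) :=
      dpt_vecAt ((dpt_elems_gam (by fun_prop) hm2).comp (s.comp t)) (DPT.ssnd.comp t)
        (dpt_emb (X.pt.comp (s.comp t)) (hm.comp (s.comp t)) (pbd_comp hmb (s.comp t)) DPT.ssnd)
    have h2 : DPT (β := fun x : Σ I, Vec (Gam (m I + 1)) (ZMod (p I)) => Vec (X.T x.1) Bool)
        fun x v => decide (x.2 (emb (m x.1) v) = 1) :=
      dpt_vecMk (X.pt.comp s) (DPT.decide (DPr.eq h1 (DPT.one (PTRing.zmod (hp.comp (s.comp t))))))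
    exact DPT.comp (f := fun x : Σ I, Vec (Gam (m I + 1)) (ZMod (p I)) =>
      (⟨x.1, fun v => decide (x.2 (emb (m x.1) v) = 1)⟩ : Σ I, Vec (X.T I) Bool)) hdec
      (DPT.smk s h2)
  · have : Fact (p I).Prime := ⟨(hp' I).1⟩
    exact vm_ok (hi I) (hroute (m I)) (hsol I).1
  · have : Fact (p I).Prime := ⟨(hp' I).1⟩
    exact (hsol I).2.2 _ (vm_end (hi I) (hroute (m I)) hz)

end Vale.Agent.P330.Outer
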