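import Vale.Agent.P330.Comp.Main
import Vale.Agent.P330.Poly
import Vale.Agent.P330.TC
import Vale.Agent.P330.Samp
import Vale.Agent.P330.B.Main
import Vale.Agent.P330.Phys.Code
import Vale.Agent.P330.Phys.Rule
import Vale.Agent.P330.Phys.Gadget
import Vale.Agent.P330.Exact
import Vale.Agent.P330.Eval
import Vale.Agent.P330.Eol.Main
import Vale.Agent.P330.Outer.Raw
import Vale.Agent.P330.Outer.Adm
import Vale.Agent.P330.Outer.Route
import Vale.Agent.P330.Outer.VM
import Vale.Agent.P330.Outer.AG
import Vale.Agent.P330.Outer.Curve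
import Vale.Agent.P330.Outer.GM.Op
import Vale.Agent.P330.Outer.GM.Impl
import Vale.Agent.P330.Outer.GM.Main
import Vale.Agent.P330.Outer.RelT
import Vale.Agent.P330.Outer.Bias
import Vale.Agent.P330.Outer.Grp
import Vale.Agent.P330.Outer.MemDist
import Vale.Agent.P330.Outer.MemLTC
import Vale.Agent.P330.Outer.MemFrame
import Vale.Agent.P330.Outer.MemEnc
import Vale.Agent.P330.Outer.MemCor
import Vale.Agent.P330.Outer.MemPT
import Vale.Agent.P330.Outer.Phys.Step
import Vale.Agent.P330.Outer.Phys.Sound
import Vale.Agent.P330.Outer.Phys.Nav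
import Vale.Agent.P330.Outer.Phys.Cor
import Vale.Agent.P330.Outer.Phys.Dist
import Vale.Agent.P330.Outer.Phys.PT
import Vale.Agent.P330.Outer.Phys.Asm

/-!
P330: the assembly of the parts which do not belong to the inner system.
-/

namespace Vale.Agent.P330

open Outer Outer.Phys

theorem gadget : GadgetStmt := gadgetStmt sampStmt bStmt (physCodeStmt sampStmt) physRuleStmt

theorem goalPoly_of (hB : BohrStmt) : GoalPoly := polyAsm tcStmt gadget exactStmt eolStmt hB

theorem gm_of (hA : GMD.AbsStmt) (hP : GMD.PTStmt) : GMStmt :=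
  GMD.gmStmt (vmStmt eolStmt admStmt routeStmt) curveStmt
    (GMD.endStmt hA (GMD.implStmt (GMD.opStmt agDistStmt))) hP

theorem tos_of (hG : GMStmt) : TOSStmt :=
  pasm (grpStmt relTStmt bddGenStmt biasStmt) memPTStmt encStmt hG complStmt
    (soundStmt rdistStmt rltcStmt (frameStmt rdistStmt) halfStmt ctlStmt) stepStmt navStmt
    (pcorStmt mcorStmt) (pdistStmt rdistStmt) pptStmt

theorem goal_of (hB : BohrStmt) (hG : GMStmt) : Goal :=
  compAsm tcStmt sampStmt bStmt (physCodeStmt sampStmt) gadget exactStmt evalStmt hB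
    (outer_of_tos (tos_of hG))

end Vale.Agent.P330
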