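import Vale.Agent.P330.Outer.Defs

/-!
P330, outer system: Fourier analysis on the cube with values in a field of characteristic not two.
-/

namespace Vale.Agent.P330.Outer

open Finset
open Vale.Agent.P330.Bohr

variable {m : ℕ}

theorem zm2 (a : ZMod 2) : a = 0 ∨ a = 1 := by revert a; decide

theorem Gam.add_apply (S T : Gam m) (ω : Fin m) : (S + T) ω = S ω + T ω := rfl

theorem Gam.zero_apply (ω : Fin m) : (0 : Gam m) ω = 0 := rfl

theorem Gam.add_self (S : Gam m) : S + S = 0 :=
  funext fun ω => by rw [Gam.add_apply, Gam.zero_apply]; exact CharTwo.add_self_eq_zero _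

theorem Gam.add_add (S T : Gam m) : S + T + T = S := by rw [add_assoc, Gam.add_self, add_zero]

theorem Gam.add_eq_zero {S T : Gam m} : S + T = 0 ↔ S = T :=
  ⟨fun h => by rw [← Gam.add_add S T, h, zero_add], fun h => h ▸ Gam.add_self S⟩

theorem Gam.neg_eq (S : Gam m) : -S = S := neg_eq_of_add_eq_zero_left (Gam.add_self S)

theorem Gam.card : Fintype.card (Gam m) = 2 ^ m := by
  have : Fintype.card (Gam m) = Fintype.card (Fin m → ZMod 2) := Fintype.card_congr (Equiv.refl _)
  rw [this]; simp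

theorem eV_self (ω : Fin m) : eV ω ω = 1 := if_pos rfl

theorem eV_ne {ω i : Fin m} (h : i ≠ ω) : eV ω i = 0 := if_neg h

section ring

variable {F : Type} [CommRing F]

/-- the sign `(-1)^a` -/
def sg (F : Type) [CommRing F] (a : ZMod 2) : F := if a = 0 then 1 else -1

@[simp] theorem sg_zero : sg F 0 = 1 := if_pos rfl

@[simp] theorem sg_one : sg F 1 = -1 := if_neg (by decide)

theorem sg_add (a b : ZMod 2) : sg F (a + b) = sg F a * sg F b := by
  rcases zm2 a with rfl | rfl <;> rcases zm2 b with rfl | rfl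
  · simp
  · simp
  · simp
  · rw [show (1 + 1 : ZMod 2) = 0 by decide]; simp

theorem sg_mul_self (a : ZMod 2) : sg F a * sg F a = 1 := by
  rw [← sg_add, CharTwo.add_self_eq_zero, sg_zero]

/-- the characters of the cube -/
def chi (F : Type) [CommRing F] (S ε : Gam m) : F := ∏ ω, sg F (S ω * ε ω)

theorem chi_comm (S ε : Gam m) : chi F S ε = chi F ε S :=
  prod_congr rfl fun ω _ => by rw [mul_comm]

theorem chi_add_left (S T ε : Gam m) : chi F (S + T) ε = chi F S ε * chi F T ε := by
  unfold chi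
  rw [← prod_mul_distrib]
  exact prod_congr rfl fun ω _ => by rw [Gam.add_apply, add_mul, sg_add]

theorem chi_add_right (S ε δ : Gam m) : chi F S (ε + δ) = chi F S ε * chi F S δ := by
  rw [chi_comm, chi_add_left, chi_comm ε, chi_comm δ]

@[simp] theorem chi_zero_left (ε : Gam m) : chi F 0 ε = 1 :=
  prod_eq_one fun ω _ => by rw [Gam.zero_apply, zero_mul, sg_zero]

@[simp] theorem chi_zero_right (S : Gam m) : chi F S 0 = 1 := by rw [chi_comm, chi_zero_left]

theorem chi_mul_self (S ε : Gam m) : chi F S ε * chi F S ε = 1 := by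
  rw [← chi_add_left, Gam.add_self, chi_zero_left]

theorem chi_eV (S : Gam m) (ω : Fin m) : chi F S (eV ω) = sg F (S ω) := by
  unfold chi
  rw [prod_eq_single ω]
  · rw [eV_self, mul_one]
  · intro i _ hi; rw [eV_ne hi, mul_zero, sg_zero]
  · intro h; exact absurd (mem_univ _) h

theorem chi_shift (S ε : Gam m) (ω : Fin m) : chi F S (ε + eV ω) = sg F (S ω) * chi F S ε := by
  rw [chi_add_right, chi_eV, mul_comm]

theorem sum_chi (S : Gam m) : ∑ ε, chi F S ε = if S = 0 then 2 ^ m else 0 := by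
  split_ifs with h
  · simp [h, Gam.card]
  · have h1 : ∑ ε : Gam m, chi F S ε = ∏ ω, ∑ a : ZMod 2, sg F (S ω * a) := by
      rw [prod_univ_sum]
      rfl
    obtain ⟨ω, hω⟩ := Function.ne_iff.1 h
    rw [h1]
    refine prod_eq_zero (mem_univ ω) ?_
    have h2 : S ω = 1 := (zm2 _).resolve_left hω
    have h3 : (univ : Finset (ZMod 2)) = {0, 1} := by decide
    rw [h2, h3, sum_pair (by decide)]
    simp

theorem sum_chi_mul (S T : Gam m) : ∑ ε, chi F S ε * chi F T ε = if S = T then 2 ^ m else 0 := by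
  simp only [← chi_add_left, sum_chi, Gam.add_eq_zero]

theorem sum_chi_mul' (ε δ : Gam m) : ∑ S, chi F S ε * chi F S δ = if ε = δ then 2 ^ m else 0 := by
  simp only [chi_comm _ ε, chi_comm _ δ, sum_chi_mul]

/-- the product of the `r ω` over the support of `S` -/
def rp (r : Fin m → F) (S : Gam m) : F := ∏ ω, if S ω = 0 then 1 else r ω

@[simp] theorem rp_zero (r : Fin m → F) : rp r 0 = 1 :=
  prod_eq_one fun ω _ => if_pos (Gam.zero_apply ω)

@[simp] theorem rp_one (S : Gam m) : rp (fun _ => (1 : F)) S = 1 :=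
  prod_eq_one fun _ _ => ite_self _

theorem rp_mul (r r' : Fin m → F) (S : Gam m) :
    rp (fun ω => r ω * r' ω) S = rp r S * rp r' S := by
  unfold rp
  rw [← prod_mul_distrib]
  exact prod_congr rfl fun ω _ => by split_ifs <;> simp

/-- the intersection of two frequencies -/
def cap (S T : Gam m) : Gam m := fun ω => S ω * T ω

theorem cap_apply (S T : Gam m) (ω : Fin m) : cap S T ω = S ω * T ω := rfl

theorem rp_mul_rp (r : Fin m → F) (S T : Gam m) :
    rp r S * rp r T = rp r (S + T) * rp (fun ω => r ω ^ 2) (cap S T) := by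
  unfold rp
  rw [← prod_mul_distrib, ← prod_mul_distrib]
  refine prod_congr rfl fun ω _ => ?_
  rw [Gam.add_apply, cap_apply]
  rcases zm2 (S ω) with h | h <;> rcases zm2 (T ω) with h' | h' <;> rw [h, h']
  · simp
  · simp
  · simp
  · rw [show (1 + 1 : ZMod 2) = 0 by decide]; simp [sq]

theorem map_rp {F' : Type} [CommRing F'] (φ : F →+* F') (r : Fin m → F) (S : Gam m) :
    φ (rp r S) = rp (fun ω => φ (r ω)) S := by
  unfold rp
  rw [map_prod]
  exact prod_congr rfl fun ω _ => by split_ifs <;> simp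

theorem rp_ne_zero [IsDomain F] {r : Fin m → F} (h : ∀ ω, r ω ≠ 0) (S : Gam m) : rp r S ≠ 0 :=
  prod_ne_zero_iff.2 fun ω _ => by
    split_ifs
    · exact one_ne_zero
    · exact h ω

end ring

variable {F : Type} [Field F]

/-- the Fourier coefficients -/
def hat (x : Gam m → F) (S : Gam m) : F := (2 ^ m)⁻¹ * ∑ ε, x ε * chi F S ε

theorem hat_add (x y : Gam m → F) (S : Gam m) :
    hat (fun ε => x ε + y ε) S = hat x S + hat y S := by
  simp only [hat, add_mul, sum_add_distrib, mul_add]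

theorem hat_sub (x y : Gam m → F) (S : Gam m) :
    hat (fun ε => x ε - y ε) S = hat x S - hat y S := by
  simp only [hat, sub_mul, sum_sub_distrib, mul_sub]

theorem hat_mul (c : F) (x : Gam m → F) (S : Gam m) : hat (fun ε => c * x ε) S = c * hat x S := by
  simp only [hat, mul_assoc, ← mul_sum]
  ring

theorem hat_sum {ι : Type} (s : Finset ι) (x : ι → Gam m → F) (S : Gam m) :
    hat (fun ε => ∑ i ∈ s, x i ε) S = ∑ i ∈ s, hat (x i) S := by
  simp only [hat, sum_mul, ← mul_sum]
  rw [sum_comm]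

@[simp] theorem hat_zero (S : Gam m) : hat (0 : Gam m → F) S = 0 := by simp [hat]

theorem hat_shift (x : Gam m → F) (δ S : Gam m) :
    hat (fun ε => x (ε + δ)) S = chi F S δ * hat x S := by
  have h : ∑ ε, x (ε + δ) * chi F S ε = ∑ ε, x ε * chi F S (ε + δ) :=
    Fintype.sum_equiv (Equiv.addRight δ) _ _ fun ε => by
      rw [Equiv.coe_addRight, Gam.add_add]
  simp only [hat, h, chi_add_right, ← mul_assoc, ← sum_mul]
  ring

theorem hat_chi (h2 : (2 : F) ≠ 0) (T S : Gam m) : hat (chi F T) S = if T = S then 1 else 0 := by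
  rw [hat, sum_chi_mul]
  split_ifs
  · exact inv_mul_cancel₀ (pow_ne_zero _ h2)
  · exact mul_zero _

/-- the inversion formula -/
theorem sum_hat (h2 : (2 : F) ≠ 0) (x : Gam m → F) (ε : Gam m) :
    ∑ S, hat x S * chi F S ε = x ε := by
  have h : ∀ S, hat x S * chi F S ε = (2 ^ m)⁻¹ * ∑ δ, x δ * (chi F S δ * chi F S ε) := by
    intro S
    simp only [hat, mul_assoc, sum_mul]
  simp only [h, ← mul_sum]
  rw [sum_comm]
  simp only [← mul_sum, sum_chi_mul', mul_ite, mul_zero, sum_ite_eq', mem_univ, if_true]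
  field_simp

/-- uniqueness of the coefficients -/
theorem hat_sum_chi (h2 : (2 : F) ≠ 0) (c : Gam m → F) (S : Gam m) :
    hat (fun ε => ∑ T, c T * chi F T ε) S = c S := by
  rw [hat_sum]
  simp only [hat_mul, hat_chi h2, mul_ite, mul_one, mul_zero, sum_ite_eq', mem_univ, if_true]

theorem ext_hat (h2 : (2 : F) ≠ 0) {x y : Gam m → F} (h : ∀ S, hat x S = hat y S) : x = y :=
  funext fun ε => by simp only [← sum_hat h2 x ε, ← sum_hat h2 y ε, h]

theorem hat_mul_chi (x : Gam m → F) (T S : Gam m) :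
    hat (fun ε => x ε * chi F T ε) S = hat x (S + T) := by
  simp only [hat, chi_add_left, mul_assoc, mul_comm (chi F T _)]

/-- the coefficients of a pointwise product -/
theorem hat_prod (h2 : (2 : F) ≠ 0) (x y : Gam m → F) (S : Gam m) :
    hat (fun ε => x ε * y ε) S = ∑ T, hat x (S + T) * hat y T := by
  have h : (fun ε => x ε * y ε) = fun ε => ∑ T, hat y T * (x ε * chi F T ε) := by
    funext ε
    rw [← sum_hat h2 y ε, mul_sum]
    exact sum_congr rfl fun T _ => by ring
  rw [h, hat_sum]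
  exact sum_congr rfl fun T _ => by rw [hat_mul, hat_mul_chi, mul_comm]

theorem hat_uOp (h2 : (2 : F) ≠ 0) (r : F) (ω : Fin m) (x : Gam m → F) (S : Gam m) :
    hat (uOp r ω x) S = (if S ω = 0 then 1 else r) * hat x S := by
  unfold uOp
  rw [hat_add, hat_mul, hat_mul, hat_shift, chi_eV, sg]
  split_ifs <;> field_simp <;> ring

theorem hat_foldl (h2 : (2 : F) ≠ 0) (r : Fin m → F) (l : List (Fin m)) (x : Gam m → F)
    (S : Gam m) : hat (l.foldl (fun y ω => uOp (r ω) ω y) x) S =
      (l.map fun ω => if S ω = 0 then 1 else r ω).prod * hat x S := by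
  induction l generalizing x with
  | nil => simp
  | cons ω l ih => rw [List.foldl_cons, ih, hat_uOp h2, List.map_cons, List.prod_cons]; ring

/-- `uAll r` multiplies the coefficient of `S` by the product of the `r ω` over `S` -/
theorem hat_uAll (h2 : (2 : F) ≠ 0) (r : Fin m → F) (x : Gam m → F) (S : Gam m) :
    hat (uAll r x) S = rp r S * hat x S := by
  rw [uAll, hat_foldl h2, rp, Fin.prod_univ_def]

theorem uAll_apply (h2 : (2 : F) ≠ 0) (r : Fin m → F) (x : Gam m → F) (ε : Gam m) :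
    uAll r x ε = ∑ S, rp r S * hat x S * chi F S ε := by
  simp only [← hat_uAll h2, sum_hat h2]

theorem uAll_chi (h2 : (2 : F) ≠ 0) (r : Fin m → F) (T : Gam m) :
    uAll r (chi F T) = fun ε => rp r T * chi F T ε :=
  ext_hat h2 fun S => by
    rw [hat_uAll h2, hat_mul, hat_chi h2]
    split_ifs with h
    · rw [h]
    · simp

theorem uAll_add (h2 : (2 : F) ≠ 0) (r : Fin m → F) (x y : Gam m → F) :
    uAll r (fun ε => x ε + y ε) = fun ε => uAll r x ε + uAll r y ε :=
  ext_hat h2 fun S => by simp only [hat_uAll h2, hat_add, mul_add]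

theorem uAll_sub (h2 : (2 : F) ≠ 0) (r : Fin m → F) (x y : Gam m → F) :
    uAll r (fun ε => x ε - y ε) = fun ε => uAll r x ε - uAll r y ε :=
  ext_hat h2 fun S => by simp only [hat_uAll h2, hat_sub, mul_sub]

theorem uAll_mul (h2 : (2 : F) ≠ 0) (r : Fin m → F) (c : F) (x : Gam m → F) :
    uAll r (fun ε => c * x ε) = fun ε => c * uAll r x ε :=
  ext_hat h2 fun S => by simp only [hat_uAll h2, hat_mul]; ring

theorem uAll_sum (h2 : (2 : F) ≠ 0) (r : Fin m → F) {ι : Type} (s : Finset ι)
    (x : ι → Gam m → F) : uAll r (fun ε => ∑ i ∈ s, x i ε) = fun ε => ∑ i ∈ s, uAll r (x i) ε :=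
  ext_hat h2 fun S => by simp only [hat_uAll h2, hat_sum, mul_sum]

theorem uAll_zero (h2 : (2 : F) ≠ 0) (r : Fin m → F) : uAll r (0 : Gam m → F) = 0 :=
  ext_hat h2 fun S => by simp only [hat_uAll h2, hat_zero, mul_zero]

theorem uAll_shift (h2 : (2 : F) ≠ 0) (r : Fin m → F) (x : Gam m → F) (δ : Gam m) :
    uAll r (fun ε => x (ε + δ)) = fun ε => uAll r x (ε + δ) :=
  ext_hat h2 fun S => by simp only [hat_uAll h2, hat_shift]; ring

theorem uAll_uAll (h2 : (2 : F) ≠ 0) (r r' : Fin m → F) (x : Gam m → F) :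
    uAll r (uAll r' x) = uAll (fun ω => r ω * r' ω) x :=
  ext_hat h2 fun S => by simp only [hat_uAll h2, rp_mul, mul_assoc]

theorem uAll_one (h2 : (2 : F) ≠ 0) (x : Gam m → F) : uAll (fun _ => 1) x = x :=
  ext_hat h2 fun S => by rw [hat_uAll h2, rp_one, one_mul]

theorem uAll_inv_left (h2 : (2 : F) ≠ 0) {r : Fin m → F} (hr : ∀ ω, r ω ≠ 0) (x : Gam m → F) :
    uAll (fun ω => (r ω)⁻¹) (uAll r x) = x := by
  simp only [uAll_uAll h2, inv_mul_cancel₀ (hr _), uAll_one h2]

theorem uAll_inv_right (h2 : (2 : F) ≠ 0) {r : Fin m → F} (hr : ∀ ω, r ω ≠ 0) (x : Gam m → F) :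
    uAll r (uAll (fun ω => (r ω)⁻¹) x) = x := by
  simp only [uAll_uAll h2, mul_inv_cancel₀ (hr _), uAll_one h2]

theorem uAll_injective (h2 : (2 : F) ≠ 0) {r : Fin m → F} (hr : ∀ ω, r ω ≠ 0) :
    Function.Injective (uAll r : (Gam m → F) → Gam m → F) :=
  Function.LeftInverse.injective (uAll_inv_left h2 hr)

/-- `uAll r` as a linear map -/
def uLin (h2 : (2 : F) ≠ 0) (r : Fin m → F) : (Gam m → F) →ₗ[F] (Gam m → F) where
  toFun := uAll r
  map_add' x y := uAll_add h2 r x y
  map_smul' c x := uAll_mul h2 r c x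

@[simp] theorem uLin_apply (h2 : (2 : F) ≠ 0) (r : Fin m → F) (x : Gam m → F) :
    uLin h2 r x = uAll r x := rfl

/-- the product of two transformed characters -/
theorem uAll_chi_mul (h2 : (2 : F) ≠ 0) (r : Fin m → F) (S T ε : Gam m) :
    uAll r (chi F S) ε * uAll r (chi F T) ε =
      rp (fun ω => r ω ^ 2) (cap S T) * uAll r (chi F (S + T)) ε := by
  simp only [uAll_chi h2, chi_add_left]
  linear_combination (chi F S ε * chi F T ε) * rp_mul_rp r S T

end Vale.Agent.P330.Outer
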