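import Vale.Agent.P330.Outer.GrpSpec

/-!
P330, group package: the affine group over `ZMod n`, its generators and its action on the
coordinates.
-/

namespace Vale.Agent.P330.Outer.GrpP

open Vale.Agent.Lib.PolyTime hiding C P
open Vale.Agent.Lib.Dep
open Vale.Agent.P330.Bohr
open Matrix.SpecialLinearGroup (transvection transvection_coe transvection_add)

/-- the affine group -/
abbrev Aff (n : ℕ) : Type := SD (Fin 3 → ZMod n) (SL3 n)

section Kaz

variable {n : ℕ}

theorem tv_smul {i j : Fin 3} (h : i ≠ j) (b : ZMod n) (v : Fin 3 → ZMod n) :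
    transvection h b • v = v + Pi.single i (b * v j) := by
  rw [Matrix.SpecialLinearGroup.smul_def, transvection_coe, Matrix.smul_eq_mulVec,
    Matrix.add_mulVec, Matrix.one_mulVec, Matrix.single_mulVec]
  rfl

/-- translations in a coordinate plane -/
def trP (i j : Fin 3) : Multiplicative (ZMod n × ZMod n) →* Aff n :=
  MonoidHom.mk' (fun p => inG (Pi.single i p.toAdd.1 + Pi.single j p.toAdd.2)) fun p q => by
    rw [← inG_add, toAdd_mul, Prod.fst_add, Prod.snd_add, Pi.single_add, Pi.single_add,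
      add_add_add_comm]

theorem trP_apply (i j : Fin 3) (x y : ZMod n) :
    trP i j (.ofAdd (x, y)) = (inG (Pi.single i x + Pi.single j y) : Aff n) := rfl

theorem tv_comm {i j k : Fin 3} (hik : i ≠ k) (hjk : j ≠ k) (x y : ZMod n) :
    transvection hik x * transvection hjk y = transvection hjk y * transvection hik x :=
  Subtype.ext (by
    simp only [Matrix.SpecialLinearGroup.coe_mul, transvection_coe, mul_add, add_mul, mul_one,
      one_mul, Matrix.single_mul_single_of_ne _ _ _ _ hik.symm,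
      Matrix.single_mul_single_of_ne _ _ _ _ hjk.symm]
    abel)

theorem tv_conj {i j k : Fin 3} (hij : i ≠ j) (hik : i ≠ k) (hjk : j ≠ k) (x y : ZMod n) :
    transvection hij 1 * (transvection hik x * transvection hjk y) * (transvection hij 1)⁻¹ =
      transvection hik (x + y) * transvection hjk y := by
  rw [mul_inv_eq_iff_eq_mul]
  refine Subtype.ext ?_
  simp only [Matrix.SpecialLinearGroup.coe_mul, transvection_coe, mul_add, add_mul, mul_one,
    one_mul, Matrix.single_mul_single_of_ne _ _ _ _ hik.symm,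
    Matrix.single_mul_single_of_ne _ _ _ _ hjk.symm,
    Matrix.single_mul_single_of_ne _ _ _ _ hij.symm, Matrix.single_mul_single_same,
    Matrix.single_add, mul_zero, zero_mul]
  abel

/-- elementary matrices in one column -/
def colP {i j k : Fin 3} (hik : i ≠ k) (hjk : j ≠ k) :
    Multiplicative (ZMod n × ZMod n) →* SL3 n :=
  MonoidHom.mk' (fun p => transvection hik p.toAdd.1 * transvection hjk p.toAdd.2) fun p q => by
    rw [toAdd_mul, Prod.fst_add, Prod.snd_add, transvection_add, transvection_add, mul_assoc,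
      mul_assoc, ← mul_assoc (transvection hik q.toAdd.1), tv_comm hik hjk q.toAdd.1, mul_assoc]

theorem colP_apply {i j k : Fin 3} (hik : i ≠ k) (hjk : j ≠ k) (x y : ZMod n) :
    colP hik hjk (.ofAdd (x, y)) = transvection hik x * transvection hjk y := rfl

/-- elementary matrices -/
def el (i j : Fin 3) (b : ZMod n) : SL3 n := if h : i ≠ j then transvection h b else 1

/-- unit translations and elementary matrices -/
def genP (n : ℕ) (p : Fin 3 × Fin 3) : Aff n :=
  if p.1 = p.2 then inG (Pi.single p.1 1) else inH (el p.1 p.2 1)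

/-- the generators -/
def gen (n : ℕ) (k : Fin (3 * 3)) : Aff n := genP n (finProdFinEquiv.symm k)

theorem kaz_aff (h1 : RelTStmt) (h2 : BddGenStmt) :
    ∃ C : ℝ, 1 ≤ C ∧ ∀ (n : ℕ) [NeZero n], Kaz C (gen n) := by
  obtain ⟨c, hc, h1⟩ := h1
  obtain ⟨b, h2⟩ := h2
  refine ⟨32 * c + 8 * 4 ^ b * c + 1, le_add_of_nonneg_left (by positivity), fun n _ X _ _ f g => ?_⟩
  have hE : ∑ i, disp (gen n i) f = ∑ p, disp (genP n p) f :=
    Equiv.sum_comp finProdFinEquiv.symm fun p => disp (genP n p) f
  rw [hE]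
  set E := ∑ p, disp (genP n p) f
  have hE0 : 0 ≤ E := Finset.sum_nonneg fun _ _ => disp_nonneg _ _
  have g0 : ∀ p, disp (genP n p) f ≤ E := fun p =>
    Finset.single_le_sum (f := fun p => disp (genP n p) f) (fun _ _ => disp_nonneg _ _)
      (Finset.mem_univ p)
  have g1 : ∀ i, disp (inG (Pi.single i 1) : Aff n) f ≤ E := fun i => by
    simpa only [genP, if_true] using g0 (i, i)
  have g2 : ∀ {i j} (h : i ≠ j), disp (inH (transvection h 1) : Aff n) f ≤ E := fun {i j} h => by
    simpa only [genP, if_neg h, el, dif_pos h] using g0 (i, j)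
  have t1 : ∀ {i j} (h : i ≠ j) (x y : ZMod n),
      disp (inG (Pi.single i x + Pi.single j y) : Aff n) f ≤ c * (4 * E) := fun {i j} h x y => by
    refine (h1 n (Aff n) X (trP i j) (inH (transvection h 1)) (inH (transvection h.symm 1))
      (fun x y => ?_) (fun x y => ?_) f (.ofAdd (x, y))).trans
      (mul_le_mul_of_nonneg_left ?_ hc)
    · rw [trP_apply, trP_apply, ← inG_smul, tv_smul, Pi.add_apply, Pi.single_eq_same,
        Pi.single_eq_of_ne h.symm, zero_add, one_mul, Pi.single_add, add_right_comm]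
    · rw [trP_apply, trP_apply, ← inG_smul, tv_smul, Pi.add_apply, Pi.single_eq_same,
        Pi.single_eq_of_ne h, add_zero, one_mul, add_comm x y, Pi.single_add, add_assoc]
    · rw [trP_apply, trP_apply, Pi.single_zero, Pi.single_zero, add_zero, zero_add]
      linarith [g1 i, g1 j, g2 h, g2 h.symm]
  have t2 : ∀ t : Fin 3 → ZMod n, disp (inG t : Aff n) f ≤ 16 * c * E := fun t => by
    have e : t = (Pi.single 0 (t 0) + Pi.single 1 (t 1)) + (Pi.single 2 (t 2) + Pi.single 1 0) := by
      funext i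
      fin_cases i <;> simp
    rw [e, inG_add]
    refine (disp_mul_le _ _ f).trans ?_
    linarith [t1 (i := 0) (j := 1) (by decide) (t 0) (t 1), t1 (i := 2) (j := 1) (by decide) (t 2) 0]
  have t3 : ∀ (i k : Fin 3) (x : ZMod n), disp (inH (el i k x) : Aff n) f ≤ c * (4 * E) := by
    intro i k x
    unfold el
    split_ifs with hik
    · obtain ⟨j, hij, hjk⟩ : ∃ j, i ≠ j ∧ j ≠ k := by
        clear * - hik
        revert i k
        decide
      have e : transvection hik x = colP hik hjk (.ofAdd (x, 0)) := by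
        rw [colP_apply, Matrix.SpecialLinearGroup.transvection_coeff_zero, mul_one]
      rw [e]
      refine (h1 n (Aff n) X (inH.comp (colP hik hjk)) (inH (transvection hij 1))
        (inH (transvection hij.symm 1)) (fun x y => ?_) (fun x y => ?_) f (.ofAdd (x, 0))).trans
        (mul_le_mul_of_nonneg_left ?_ hc)
      · simp only [MonoidHom.comp_apply, ← map_inv, ← map_mul, colP_apply]
        rw [tv_conj]
      · simp only [MonoidHom.comp_apply, ← map_inv, ← map_mul, colP_apply]
        rw [tv_comm hik hjk, tv_conj, tv_comm hik hjk, add_comm]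
      · simp only [MonoidHom.comp_apply, colP_apply,
          Matrix.SpecialLinearGroup.transvection_coeff_zero, mul_one, one_mul]
        linarith [g2 hik, g2 hjk, g2 hij, g2 hij.symm]
    · rw [map_one, disp_one]
      positivity
  have t4 : ∀ M : SL3 n, disp (inH M : Aff n) f ≤ 4 ^ b * (c * (4 * E)) := fun M => by
    obtain ⟨l, hl, hne, hM⟩ := h2 n M
    have e : M = (l.map fun x => el x.1 x.2.1 x.2.2).prod := by
      apply Matrix.SpecialLinearGroup.coeMonoidHom_injective
      rw [map_list_prod, List.map_map, Matrix.SpecialLinearGroup.coeMonoidHom_apply, hM]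
      refine congrArg List.prod (List.map_congr_left fun x hx => ?_)
      rw [Function.comp_apply, el, dif_pos (hne x hx)]
      rfl
    rw [e, map_list_prod]
    refine (disp_prod_le (B := c * (4 * E)) (by positivity) fun g hg => ?_).trans
      (mul_le_mul_of_nonneg_right (pow_le_pow_right₀ (by norm_num) (by simpa using hl))
        (by positivity))
    simp only [List.map_map, List.mem_map, Function.comp_apply] at hg
    obtain ⟨x, -, rfl⟩ := hg
    exact t3 _ _ _
  rw [eq_inG_mul g]
  linarith [disp_mul_le (inG g.1 : Aff n) (inH g.2) f, t2 g.1, t4 g.2]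

end Kaz

/-! ### The coordinates -/

/-- the sizes of the orbits -/
structure Dim where
  /-- the moduli -/
  n : Fin 16 → ℕ
  /-- the common modulus -/
  N : ℕ
  odd : ∀ i, Odd (n i)
  prod : N = ∏ i, n i

namespace Dim

variable (d : Dim)

theorem odd_N : Odd d.N :=
  d.prod ▸ Finset.prod_induction _ Odd (fun _ _ => Odd.mul) odd_one fun i _ => d.odd i

instance : NeZero d.N := ⟨d.odd_N.pos.ne'⟩

/-- the cofactors -/
def q (i : Fin 16) : ℕ := d.N / d.n i

theorem n_mul_q (i : Fin 16) : d.n i * d.q i = d.N :=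
  Nat.mul_div_cancel' (d.prod ▸ Finset.dvd_prod_of_mem _ (Finset.mem_univ i))

/-- the points of the orbits -/
def In (x : Fin 16 × Vec (Fin 3) (ZMod d.N)) : Prop :=
  ∀ j, ∃ t : ZMod d.N, x.2 j = d.q x.1 * t

/-- the union of the orbits -/
abbrev Om : Type := Subtype d.In

open Classical in
noncomputable instance : Fintype d.Om := Subtype.fintype _

/-- the base points -/
def base (i : Fin 16) : d.Om := ⟨(i, fun _ => 0), fun _ => ⟨0, (mul_zero _).symm⟩⟩

instance : Nonempty d.Om := ⟨d.base 0⟩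

instance : MulAction (Aff d.N) d.Om where
  smul g x := ⟨(x.1.1, fun j => ∑ k, g.2.1 j k * x.1.2 k + d.q x.1.1 * g.1 j), fun j => by
    choose t ht using x.2
    refine ⟨∑ k, g.2.1 j k * t k + g.1 j, ?_⟩
    simp only [ht, mul_add, Finset.mul_sum, mul_left_comm]⟩
  one_smul x := Subtype.ext (Prod.ext rfl (funext fun j => by
    change ∑ k, (1 : Matrix (Fin 3) (Fin 3) (ZMod d.N)) j k * x.1.2 k + d.q x.1.1 * 0 = x.1.2 j
    rw [mul_zero, add_zero]
    exact congrFun (Matrix.one_mulVec (show Fin 3 → ZMod d.N from x.1.2)) j))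
  mul_smul g h x := Subtype.ext (Prod.ext rfl (funext fun j => by
    change ∑ k, (∑ l, g.2.1 j l * h.2.1 l k) * x.1.2 k +
        d.q x.1.1 * (g.1 j + ∑ k, g.2.1 j k * h.1 k) =
      ∑ k, g.2.1 j k * (∑ l, h.2.1 k l * x.1.2 l + d.q x.1.1 * h.1 k) + d.q x.1.1 * g.1 j
    simp only [Fin.sum_univ_three]
    ring))

theorem smul_val (g : Aff d.N) (x : d.Om) :
    (g • x).1 = (x.1.1, fun j => ∑ k, g.2.1 j k * x.1.2 k + d.q x.1.1 * g.1 j) := rfl

theorem exists_base (x : d.Om) : ∃ t : Fin 3 → ZMod d.N, (inG t : Aff d.N) • d.base x.1.1 = x := by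
  choose t ht using x.2
  refine ⟨t, Subtype.ext (Prod.ext rfl (funext fun j => ?_))⟩
  change ∑ k, (1 : Matrix (Fin 3) (Fin 3) (ZMod d.N)) j k * 0 + d.q x.1.1 * t j = x.1.2 j
  simp [ht]

theorem card_mult (i : Fin 16) :
    Nat.card {z : ZMod d.N // ∃ t : ZMod d.N, z = d.q i * t} = d.n i := by
  have h := IsAddCyclic.card_nsmulAddMonoidHom_range (ZMod d.N) (d.q i)
  rw [Nat.card_zmod, Nat.gcd_eq_right (Dvd.intro_left _ (d.n_mul_q i))] at h
  have h0 : 0 < d.q i := Nat.pos_of_mul_pos_left (d.n_mul_q i ▸ d.odd_N.pos)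
  rw [← Nat.mul_div_cancel (d.n i) h0, d.n_mul_q, ← h]
  refine Nat.card_congr (Equiv.subtypeEquivRight fun z => ?_)
  simp only [AddMonoidHom.mem_range, nsmulAddMonoidHom_apply, nsmul_eq_mul, eq_comm]

theorem card_Om : Fintype.card d.Om = ∑ i, d.n i ^ 3 := by
  let e : d.Om ≃ Σ i : Fin 16, Fin 3 → {z : ZMod d.N // ∃ t : ZMod d.N, z = d.q i * t} :=
    ⟨fun x => ⟨x.1.1, fun j => ⟨x.1.2 j, x.2 j⟩⟩,
      fun y => ⟨(y.1, fun j => (y.2 j).1), fun j => (y.2 j).2⟩, fun _ => rfl, fun _ => rfl⟩
  rw [← Nat.card_eq_fintype_card, Nat.card_congr e, Nat.card_sigma]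
  refine Finset.sum_congr rfl fun i _ => ?_
  rw [Nat.card_fun, card_mult, Nat.card_fin]

variable {m : ℕ} (hm : ∑ i, d.n i ^ 3 = m)

/-- the numbering of the points -/
noncomputable def num : d.Om ≃ Fin m := (enEquiv d.Om).trans (finCongr (d.card_Om.trans hm))

theorem num_val (x : d.Om) : (d.num hm x : ℕ) = eidx x := rfl

theorem num_symm (ω : Fin m) : (d.num hm).symm ω = enth d.Om ω := rfl

/-- the action on the coordinates -/
@[reducible] noncomputable def act : MulAction (Aff d.N) (Fin m) where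
  smul g ω := d.num hm (g • (d.num hm).symm ω)
  one_smul ω := by
    change d.num hm ((1 : Aff d.N) • (d.num hm).symm ω) = ω
    rw [one_smul, Equiv.apply_symm_apply]
  mul_smul g h ω := by
    change d.num hm ((g * h) • (d.num hm).symm ω) =
      d.num hm (g • (d.num hm).symm (d.num hm (h • (d.num hm).symm ω)))
    rw [Equiv.symm_apply_apply, mul_smul]

theorem exists_tr (ω : Fin m) : ∃ (i : Fin 16) (t : Fin 3 → ZMod d.N),
    (letI := d.act hm; (inG t : Aff d.N) • d.num hm (d.base i)) = ω := by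
  obtain ⟨t, ht⟩ := d.exists_base ((d.num hm).symm ω)
  refine ⟨((d.num hm).symm ω).1.1, t, ?_⟩
  change d.num hm ((inG t : Aff d.N) • (d.num hm).symm (d.num hm (d.base _))) = ω
  rw [Equiv.symm_apply_apply, ht, Equiv.apply_symm_apply]

include hm in
theorem n_le (i : Fin 16) : d.n i ≤ m := by
  rw [← hm]
  exact (Nat.le_self_pow (by norm_num) _).trans
    (Finset.single_le_sum (f := fun i => d.n i ^ 3) (fun _ _ => Nat.zero_le _) (Finset.mem_univ i))

include hm in
theorem N_le : d.N ≤ m ^ 16 := by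
  rw [d.prod]
  simpa using Finset.prod_le_pow_card Finset.univ d.n m fun i _ => d.n_le hm i

include hm in
theorem card_aff : Fintype.card (Aff d.N) ≤ (m + 2) ^ 192 := by
  have h1 : Fintype.card (SL3 d.N) ≤ d.N ^ 9 := by
    refine (Fintype.card_le_of_injective (fun A : SL3 d.N => A.1) Subtype.val_injective).trans ?_
    rw [← Nat.card_eq_fintype_card]
    change Nat.card (Fin 3 → Fin 3 → ZMod d.N) ≤ _
    rw [Nat.card_fun, Nat.card_fun, Nat.card_zmod, Nat.card_fin, ← pow_mul]
  have h2 : Fintype.card (Aff d.N) = d.N ^ 3 * Fintype.card (SL3 d.N) := by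
    rw [← Nat.card_eq_fintype_card, ← Nat.card_eq_fintype_card]
    change Nat.card ((Fin 3 → ZMod d.N) × SL3 d.N) = _
    rw [Nat.card_prod, Nat.card_fun, Nat.card_zmod, Nat.card_fin]
  calc Fintype.card (Aff d.N) ≤ d.N ^ 3 * d.N ^ 9 := h2 ▸ Nat.mul_le_mul_left _ h1
    _ = d.N ^ 12 := (pow_add _ _ _).symm
    _ ≤ ((m + 2) ^ 16) ^ 12 := Nat.pow_le_pow_left
      ((d.N_le hm).trans (Nat.pow_le_pow_left (Nat.le_add_right _ _) _)) _
    _ = (m + 2) ^ 192 := (pow_mul _ _ _).symm

/-- the condition of bias -/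
def Bias {c : ℕ} (β : ℝ) (w : Fin c → Gam m) : Prop :=
  ∀ b : Gam m, b ≠ 0 → β ≤ frac fun x : Fin c × Vec (Fin 3) (ZMod d.N) =>
    dot b (letI := d.act hm; (inG x.2 : Aff d.N) • w x.1) ≠ 0

end Dim

theorem exists_bias (h : BiasStmt) : ∃ c K : ℕ, ∀ (d : Dim) (m : ℕ) (hm : ∑ i, d.n i ^ 3 = m),
    ∃ w : Fin (c + 1) → Gam m, d.Bias hm (((1 : ℕ) : ℝ) / (K + 1 : ℕ)) w := by
  obtain ⟨c, β, hβ, h⟩ := h
  obtain ⟨K, hK⟩ := exists_nat_one_div_lt hβ
  have key : ∀ (d : Dim) (m : ℕ) (hm : ∑ i, d.n i ^ 3 = m), ∃ w : Fin c → Gam m, d.Bias hm β w := by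
    intro d m hm
    let _ := d.act hm
    let _ : AddAction (Fin 3 → ZMod d.N) (Fin m) :=
      { vadd := fun t ω => (inG t : Aff d.N) • ω
        zero_vadd := fun ω => one_smul (Aff d.N) ω
        add_vadd := fun s t ω => by
          change (inG (s + t) : Aff d.N) • ω = (inG s : Aff d.N) • (inG t : Aff d.N) • ω
          rw [inG_add, mul_smul] }
    obtain ⟨w, hw⟩ := h d.N d.odd_N (Fin m) (fun i => d.num hm (d.base i)) (d.exists_tr hm)
    refine ⟨w, fun b hb => (hw b hb).trans (le_of_eq (frac_congr fun x => ?_))⟩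
    refine not_congr (Eq.congr_left ?_)
    refine Eq.trans (Finset.sum_congr rfl fun ω _ => ?_)
      (Equiv.sum_comp (MulAction.toPerm (inG x.2 : Aff d.N))
        fun i => b i * w x.1 ((inG x.2 : Aff d.N)⁻¹ • i))
    rw [MulAction.toPerm_apply, inv_smul_smul]
    rfl
  cases c with
  | zero =>
    obtain ⟨w, hw⟩ := key ⟨fun _ => 1, 1, fun _ => odd_one, by simp⟩ 16 (by simp)
    have h1 := hw (eV 0) fun e => one_ne_zero (α := ZMod 2) (congrFun e 0)
    rw [frac] at h1
    simp only [Fintype.card_prod, Fintype.card_fin, zero_mul, Nat.cast_zero, div_zero] at h1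
    exact absurd h1 (not_le.2 hβ)
  | succ c =>
    refine ⟨c, K, fun d m hm => (key d m hm).imp fun w hw b hb => le_trans ?_ (hw b hb)⟩
    push_cast
    exact hK.le

end Vale.Agent.P330.Outer.GrpP
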