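import Vale.Agent.P330.Basic

/-!
P330, outer system: the memory code (product of two Cayley graphs of a semidirect product over
the normal subgroup, with Reed-Solomon views), and the statements about it.
-/

namespace Vale.Agent.P330.Outer

section Defs

variable {Γ H : Type} [AddCommGroup Γ] [Group H] [DistribMulAction H Γ]

/-- multiplication in the semidirect product -/
def gmul (g s : Γ × H) : Γ × H := (g.1 + g.2 • s.1, g.2 * s.2)

/-- the inverse in the semidirect product -/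
def ginv (s : Γ × H) : Γ × H := (-(s.2⁻¹ • s.1), s.2⁻¹)

/-- the generator `S i` (`true`, outgoing edge) or its inverse (`false`, incoming edge) -/
def gen2 {d : ℕ} (S : Fin d → Γ × H) (e : Bool × Fin d) : Γ × H :=
  if e.1 then S e.2 else ginv (S e.2)

/-- The averaging operators of the generators and of their inverses have norm at most `lam` on
functions with mean zero. -/
def GSpec [Fintype Γ] [Fintype H] {d : ℕ} (lam : ℝ) (S : Fin d → Γ × H) : Prop :=
  ∀ (o : Bool) (f : Γ × H → ℝ), mean f = 0 →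
    mean (fun g => mean (fun i => f (gmul g (gen2 S (o, i)))) ^ 2) ≤
      lam ^ 2 * mean fun g => f g ^ 2

/-- Poincare inequality for left multiplication by the generators. -/
def HPoinc [Fintype H] {a : ℕ} (γ : ℝ) (gen : Fin a → H) : Prop :=
  ∀ f : H → ℝ, γ * mean (fun x : H × H => (f x.1 - f x.2) ^ 2) ≤
    ∑ i, mean fun h => (f h - f (gen i * h)) ^ 2

/-- the sites -/
abbrev Site (Γ H : Type) : Type := Γ × H × H

/-- move in the first graph -/
def mvA (s : Γ × H) (v : Site Γ H) : Site Γ H := (v.1 + v.2.1 • s.1, v.2.1 * s.2, v.2.2)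

/-- move in the second graph -/
def mvB (s : Γ × H) (v : Site Γ H) : Site Γ H := (v.1 + v.2.2 • s.1, v.2.1, v.2.2 * s.2)

/-- change of the frame -/
def tau (h : H) (v : Site Γ H) : Site Γ H := (h • v.1, h * v.2.1, h * v.2.2)

/-- shift -/
def shf (γ : Γ) (v : Site Γ H) : Site Γ H := (v.1 + γ, v.2.1, v.2.2)

variable {F : Type} [Field F] {E : Type} [AddCommGroup E] [Module F E]

/-- The value on the edge `e` of the polynomial with coefficients `P`: the points are `i`
(incoming) and `d + i` (outgoing), and outgoing values are multiplied by `y`. -/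
def edgeVal {d : ℕ} (y : F) (P : Fin (d + 1) → E) (e : Bool × Fin d) : E :=
  (if e.1 then y else 1) • ∑ i : Fin (d + 1),
    (((if e.1 then d + e.2 else e.2 : ℕ) : F) ^ (i : ℕ)) • P i

/-- The points are distinct and the multiplier is not zero. -/
structure Pts (d : ℕ) (y : F) : Prop where
  inj : ∀ i j : ℕ, i < 2 * d → j < 2 * d → (i : F) = j → i = j
  ne : y ≠ 0

/-- views: coefficients of polynomials in two variables with values in `E` -/
abbrev View (dA dB : ℕ) (E : Type) : Type := Fin (dA + 1) → Fin (dB + 1) → E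

/-- the view with the variables exchanged -/
def View.tr {dA dB : ℕ} (Φ : View dA dB E) : View dB dA E := fun j i => Φ i j

/-- The data of the code. -/
structure Mem (Γ H F : Type) (dA dB : ℕ) where
  /-- generators of the first graph -/
  SA : Fin dA → Γ × H
  /-- generators of the second graph -/
  SB : Fin dB → Γ × H
  /-- multiplier of the first graph -/
  yA : F
  /-- multiplier of the second graph -/
  yB : F

namespace Mem

variable {dA dB : ℕ} (μ : Mem Γ H F dA dB)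

/-- The views agree on the outgoing edge `s` of the first graph. -/
def EdgeA (X : Site Γ H → View dA dB E) (v : Site Γ H) (s : Fin dA) : Prop :=
  edgeVal μ.yA (X v) (true, s) = edgeVal μ.yA (X (mvA (μ.SA s) v)) (false, s)

/-- The views agree on the outgoing edge `s` of the second graph. -/
def EdgeB (X : Site Γ H → View dA dB E) (v : Site Γ H) (s : Fin dB) : Prop :=
  edgeVal μ.yB (X v).tr (true, s) = edgeVal μ.yB (X (mvB (μ.SB s) v)).tr (false, s)

/-- codewords -/
def Cons (X : Site Γ H → View dA dB E) : Prop :=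
  ∀ v, (∀ s, μ.EdgeA X v s) ∧ ∀ s, μ.EdgeB X v s

/-- consistency on the sites outside of the dead classes -/
def ConsOn (ZA ZB : H → Prop) (X : Site Γ H → View dA dB E) : Prop :=
  ∀ v : Site Γ H, ¬ ZA v.2.1 → ¬ ZB v.2.2 →
    (∀ s, ¬ ZA (v.2.1 * (μ.SA s).2) → μ.EdgeA X v s) ∧
      ∀ s, ¬ ZB (v.2.2 * (μ.SB s).2) → μ.EdgeB X v s

/-- `X` is the codeword of the message `x`. -/
def IsEnc (x : Γ → E) (X : Site Γ H → View dA dB E) : Prop :=
  μ.Cons X ∧ ∀ v, X v (Fin.last dA) (Fin.last dB) = x v.1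

end Mem

/-- Every class outside of `Z` has few neighbours in `Z`. -/
def Sparse {d : ℕ} (η : ℝ) (S : Fin d → Γ × H) (Z : H → Prop) : Prop :=
  ∀ h o, ¬ Z h → frac (fun i => Z (h * (gen2 S (o, i)).2)) ≤ η

/-- The code of the Cayley graph is determined by the leading coefficients. -/
def NonSing {d : ℕ} (S : Fin d → Γ × H) (y : F) : Prop :=
  ∀ P : Γ × H → Fin (d + 1) → F,
    (∀ g s, edgeVal y (P g) (true, s) = edgeVal y (P (gmul g (S s))) (false, s)) →
    (∀ g, P g (Fin.last d) = 0) → P = 0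

open Classical in
/-- The polynomial whose edge values differ from `w` in at most a fifth of the places. -/
noncomputable def decP {d : ℕ} (y : F) (w : Bool × Fin d → E) : Fin (d + 1) → E :=
  if h : ∃ P, frac (fun e => edgeVal y P e ≠ w e) ≤ 1 / 5 then h.choose else 0

/-- The view at `u` decoded from the views `nb e` of its neighbours in the second graph. -/
noncomputable def decB {dA dB : ℕ} (yB : F) (nb : Bool × Fin dB → View dA dB E) : View dA dB E :=
  View.tr (decP yB fun e => edgeVal yB (nb e).tr (!e.1, e.2))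

/-- The view at `v` decoded from the views of its diagonal neighbours. -/
noncomputable def decAB {dA dB : ℕ} (yA yB : F)
    (nb : Bool × Fin dA → Bool × Fin dB → View dA dB E) : View dA dB E :=
  decP yA fun e => edgeVal yA (decB yB (nb e)) (!e.1, e.2)

end Defs

/-- The standing assumptions on the code. -/
structure Mem.Ok {Γ H F : Type} [AddCommGroup Γ] [Group H] [DistribMulAction H Γ] [Fintype Γ]
    [Fintype H] [Field F] {dA dB : ℕ} (μ : Mem Γ H F dA dB) (lA lB : ℝ) : Prop where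
  posA : 0 < dA
  posB : 0 < dB
  specA : GSpec lA μ.SA
  specB : GSpec lB μ.SB
  ptsA : Pts dA μ.yA
  ptsB : Pts dB μ.yB

/-- M1: distance, also outside of dead classes. -/
def RDistStmt : Prop :=
  ∀ (Γ H F : Type) [AddCommGroup Γ] [Group H] [DistribMulAction H Γ] [Fintype Γ] [Fintype H]
    [Field F] (dA dB : ℕ) (μ : Mem Γ H F dA dB), μ.Ok (1 / 100) (1 / 100) →
    ∀ (E : Type) [AddCommGroup E] [Module F E] (ZA ZB : H → Prop) (X : Site Γ H → View dA dB E),
      Sparse (1 / 10) μ.SA ZA → Sparse (1 / 10) μ.SB ZB → μ.ConsOn ZA ZB X →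
      frac (fun v : Site Γ H => ¬ ZA v.2.1 ∧ ¬ ZB v.2.2 ∧ X v ≠ 0) < 1 / 10 →
      ∀ v : Site Γ H, ¬ ZA v.2.1 → ¬ ZB v.2.2 → X v = 0

/-- M2: the relaxed local test. -/
def RLTCStmt : Prop :=
  ∃ lB : ℝ, 0 < lB ∧ ∀ dB : ℕ, ∃ lA θ0 C0 : ℝ, 0 < lA ∧ 0 < θ0 ∧ 0 ≤ C0 ∧
    ∀ (Γ H F : Type) [AddCommGroup Γ] [Group H] [DistribMulAction H Γ] [Fintype Γ] [Fintype H]
      [Field F] (dA : ℕ) (μ : Mem Γ H F dA dB), μ.Ok lA lB →
      ∀ (E : Type) [AddCommGroup E] [Module F E] (X : Site Γ H → View dA dB E) (θ : ℝ), θ ≤ θ0 →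
        frac (fun v => ¬ ((∀ s, μ.EdgeA X v s) ∧ ∀ s, μ.EdgeB X v s)) ≤ θ →
        ∃ (ZA ZB : H → Prop) (Φ : Site Γ H → View dA dB E), frac ZA ≤ C0 * dA * θ ∧
          frac ZB ≤ C0 * dA * θ ∧ Sparse (1 / 20) μ.SA ZA ∧ Sparse (1 / 20) μ.SB ZB ∧
          μ.ConsOn ZA ZB Φ ∧ frac (fun v => X v ≠ Φ v) ≤ C0 * dA * θ

/-- M3: exactness from the copies in all frames. -/
def FrameStmt : Prop :=
  ∀ (a : ℕ) (γ : ℝ), 0 < γ → ∃ ζ : ℝ, 0 < ζ ∧
    ∀ (Γ H F : Type) [AddCommGroup Γ] [Group H] [DistribMulAction H Γ] [Fintype Γ] [Fintype H]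
      [Field F] (dA dB : ℕ) (μ : Mem Γ H F dA dB), μ.Ok (1 / 100) (1 / 100) →
      ∀ (gen : Fin a → H), HPoinc γ gen →
      ∀ (E : Type) [AddCommGroup E] [Module F E] (ZA ZB : H → Prop)
        (Φ : H → Site Γ H → View dA dB E), frac ZA ≤ ζ → frac ZB ≤ ζ →
        Sparse (1 / 20) μ.SA ZA → Sparse (1 / 20) μ.SB ZB → (∀ h, μ.ConsOn ZA ZB (Φ h)) →
        frac (fun v => ∃ h i, Φ (gen i * h) (tau (gen i) v) ≠ Φ h v) ≤ ζ →
        ∃ X, μ.Cons X ∧ ∀ (h : H) (v : Site Γ H), ¬ ZA v.2.1 → ¬ ZB v.2.2 →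
          Φ h v = X (tau h⁻¹ v)

/-- M4: the test of the half roots. -/
def HalfStmt : Prop :=
  ∀ (Γ H F : Type) [AddCommGroup Γ] [Group H] [DistribMulAction H Γ] [Fintype Γ] [Fintype H]
    [Field F] (dA dB : ℕ) (μ : Mem Γ H F dA dB), μ.Ok (1 / 100) (1 / 100) →
    ∀ (a : ℕ) (γ : ℝ) (gen : Fin a → H), 0 < γ → HPoinc γ gen →
    ∀ (E : Type) [AddCommGroup E] [Module F E] (X : Site Γ H → View dA dB E), μ.Cons X →
      frac (fun v => ∃ h i,
        X (tau h (mvA (0, gen i) v)) (Fin.last dA) ≠ X (tau h v) (Fin.last dA) ∨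
        (X (tau h (mvB (0, gen i) v))).tr (Fin.last dB) ≠ (X (tau h v)).tr (Fin.last dB)) < 1 / 10 →
      ∃ x, μ.IsEnc x X

/-- M5: existence, uniqueness and the half roots of the encoding. -/
def EncStmt : Prop :=
  ∀ (Γ H F : Type) [AddCommGroup Γ] [Group H] [DistribMulAction H Γ] [Fintype Γ] [Fintype H]
    [Field F] (dA dB : ℕ) (μ : Mem Γ H F dA dB), Pts dA μ.yA → Pts dB μ.yB → 0 < dA → 0 < dB →
    NonSing μ.SA μ.yA → NonSing μ.SB μ.yB → ∀ (E : Type) [AddCommGroup E] [Module F E],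
      (∀ x : Γ → E, ∃ X, μ.IsEnc x X) ∧
      (∀ (x : Γ → E) X X', μ.IsEnc x X → μ.IsEnc x X' → X = X') ∧
      ∀ (x : Γ → E) X, μ.IsEnc x X → ∀ (ε : Γ) (h h' k : H),
        X (ε, h, k) (Fin.last dA) = X (ε, h', k) (Fin.last dA) ∧
          (X (ε, k, h)).tr (Fin.last dB) = (X (ε, k, h')).tr (Fin.last dB)

/-- M6: contraction of the correction. -/
def MCorStmt : Prop :=
  ∃ l h0 : ℝ, 0 < l ∧ 0 < h0 ∧
    ∀ (Γ H F : Type) [AddCommGroup Γ] [Group H] [DistribMulAction H Γ] [Fintype Γ] [Fintype H]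
      [Field F] (dA dB : ℕ) (μ : Mem Γ H F dA dB), μ.Ok l l →
      ∀ (E : Type) [AddCommGroup E] [Module F E] (X : Site Γ H → View dA dB E), μ.Cons X →
        ∀ B : Site Γ H → Prop, frac B ≤ h0 →
          frac (fun v => (∃ X' : Site Γ H → View dA dB E, (∀ u, ¬ B u → X' u = X u) ∧
            decAB μ.yA μ.yB (fun e e' => X' (mvB (gen2 μ.SB e') (mvA (gen2 μ.SA e) v))) ≠ X v) ∨
            1 / 2 ≤ frac fun e : (Bool × Fin dA) × Bool × Fin dB =>
              B (mvB (gen2 μ.SB e.2) (mvA (gen2 μ.SA e.1) v))) ≤ frac B / 2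

/-- M7: a value which agrees along most edges is almost constant. -/
def CtlStmt : Prop :=
  ∀ (Γ H F : Type) [AddCommGroup Γ] [Group H] [DistribMulAction H Γ] [Fintype Γ] [Fintype H]
    [Field F] (dA dB : ℕ) (μ : Mem Γ H F dA dB), μ.Ok (1 / 100) (1 / 100) →
    ∀ (Y : Type) (κ : Site Γ H → Y) (θ : ℝ), θ ≤ 1 / 100 →
      frac (fun v => ¬ ((∀ s, κ (mvA (μ.SA s) v) = κ v) ∧ ∀ s, κ (mvB (μ.SB s) v) = κ v)) ≤ θ →
      ∃ y, frac (fun v => κ v ≠ y) ≤ 10 * θ

end Vale.Agent.P330.Outer
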