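import Vale.Agent.P330.Outer.Defs
import Vale.Agent.P330.Outer.MemDefs

/-!
P330, outer system: the group package, the encoder in polynomial time and the statement of the
physical realisation of machines with control.
-/

namespace Vale.Agent.P330.Outer

open Vale.Agent.Lib.PolyTime hiding C P
open Vale.Agent.Lib.Dep
open Vale.Agent.P330.Bohr

/-- A group which acts on the coordinates acts on the cube. -/
instance cubeAction {H : Type} [Group H] {m : ℕ} [MulAction H (Fin m)] :
    DistribMulAction H (Gam m) where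
  smul h ε := fun i => ε (h⁻¹ • i)
  one_smul ε := by
    funext i
    change ε ((1 : H)⁻¹ • i) = ε i
    rw [inv_one, one_smul]
  mul_smul g h ε := by
    funext i
    change ε ((g * h)⁻¹ • i) = ε (h⁻¹ • g⁻¹ • i)
    rw [mul_inv_rev, mul_smul]
  smul_zero _ := rfl
  smul_add _ _ _ := rfl

theorem cube_smul {H : Type} [Group H] {m : ℕ} [MulAction H (Fin m)] (h : H) (ε : Gam m)
    (i : Fin m) : (h • ε) i = ε (h⁻¹ • i) := rfl

/-- The group package: groups of polylogarithmic size acting on the coordinates with boundedly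
many orbits, with boundedly many expanding generators, such that the semidirect product with the
cube has expanding generating sets of bounded size. -/
structure GP (π : Par) where
  /-- the groups -/
  H : TF π.β
  [grp : ∀ b, Group (H.T b)]
  [act : ∀ b, MulAction (H.T b) (Fin (π.m b))]
  /-- number of generators -/
  a : ℕ
  /-- the generators -/
  gen : ∀ b, Fin a → H.T b
  /-- representatives of the orbits -/
  base : ∀ b, Fin 16 → Fin (π.m b)
  /-- the Poincare constant -/
  γ : ℝ
  /-- exponent of the bound for the size -/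
  e : ℕ
  pos : 0 < γ
  card : ∀ b, Fintype.card (H.T b) ≤ (π.m b + 2) ^ e
  poinc : ∀ b, HPoinc γ (gen b)
  trans : ∀ b (ω : Fin (π.m b)), ∃ (i : Fin 16) (h : H.T b), h • ω = base b i
  ptOne : DPT fun b => (1 : H.T b)
  ptMul : DPT fun x : Σ b, H.T b × H.T b => x.2.1 * x.2.2
  ptInv : DPT fun x : Σ b, H.T b => x.2⁻¹
  ptAct : DPT fun x : Σ b, H.T b × Fin (π.m b) => x.2.1 • x.2.2
  ptGen : ∀ i, DPT fun b => gen b i
  ptBase : ∀ i, DPT fun b => base b i

attribute [instance] GP.grp GP.act

/-- G: the group package exists; size exponent and degrees do not depend on the parameters. -/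
def GrpStmt : Prop :=
  ∃ (e : ℕ) (D : ℝ → ℕ), (∀ lam, 0 < D lam) ∧ ∀ π : Par, ∃ g : GP π, g.e = e ∧
    ∀ lam : ℝ, 0 < lam →
      ∃ S : ∀ I, Fin (D lam) → Gam (π.m (π.par I)) × g.H.T (π.par I),
        (∀ i, DPT fun I => S I i) ∧ ∀ I, GSpec lam (S I)

/-- M8: multipliers and the encoder in polynomial time. -/
def MemPTStmt : Prop :=
  ∀ e dA dB : ℕ, 0 < dA → 0 < dB → ∃ e' : ℕ, ∀ (π : Par) (g : GP π), g.e = e → π.Large e' →
    ∀ (SA : ∀ I, Fin dA → Gam (π.m (π.par I)) × g.H.T (π.par I))
      (SB : ∀ I, Fin dB → Gam (π.m (π.par I)) × g.H.T (π.par I)),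
      (∀ i, DPT fun I => SA I i) → (∀ i, DPT fun I => SB I i) →
      ∃ (yA yB : ∀ I, ZMod (π.p (π.par I)))
        (en : ∀ I, Vec (Gam (π.m (π.par I))) (ZMod (π.p (π.par I))) →
          Site (Gam (π.m (π.par I))) (g.H.T (π.par I)) → View dA dB (ZMod (π.p (π.par I)))),
        DPT yA ∧ DPT yB ∧
        (∀ i j, DPT fun x : Σ I, Vec (Gam (π.m (π.par I))) (ZMod (π.p (π.par I))) ×
          Site (Gam (π.m (π.par I))) (g.H.T (π.par I)) => en x.1 x.2.1 x.2.2 i j) ∧
        ∀ I, Pts dA (yA I) ∧ Pts dB (yB I) ∧ NonSing (SA I) (yA I) ∧ NonSing (SB I) (yB I) ∧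
          ∀ x, Mem.IsEnc ⟨SA I, SB I, yA I, yB I⟩ x (en I x)

/-- O3: the assembly of the physical realisation. -/
def PhysAsm : Prop :=
  GrpStmt → MemPTStmt → RDistStmt → RLTCStmt → FrameStmt → HalfStmt → EncStmt → MCorStmt →
    CtlStmt → GMStmt → TOSStmt

/-! ### Parts of the group package -/

/-- The squared distance between `f` and its translate by `g`. -/
noncomputable def disp {G X : Type} [Group G] [MulAction G X] [Fintype X] (g : G) (f : X → ℝ) :
    ℝ := ∑ x, (f (g • x) - f x) ^ 2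

/-- the affine group of `(ZMod n) ^ 3` with linear part of determinant one, as matrices -/
abbrev SL3 (n : ℕ) : Type := Matrix.SpecialLinearGroup (Fin 3) (ZMod n)

/-- G1: relative property (T). If `u`, `v` are commuting families of order `n` which are
normalised by `s`, `r` as the translations of the plane by the shear and the rotation, then a
function which is almost invariant under `u 1`, `s`, `r` is almost invariant under all
translations. -/
def RelTStmt : Prop :=
  ∃ c : ℝ, 0 ≤ c ∧ ∀ (n : ℕ) [NeZero n] (G X : Type) [Group G] [MulAction G X] [Fintype X]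
    (τ : Multiplicative (ZMod n × ZMod n) →* G) (s r : G),
    (∀ x y, s * τ (.ofAdd (x, y)) * s⁻¹ = τ (.ofAdd (x + y, y))) →
    (∀ x y, r * τ (.ofAdd (x, y)) * r⁻¹ = τ (.ofAdd (x, x + y))) →
    ∀ (f : X → ℝ) (t : Multiplicative (ZMod n × ZMod n)),
      disp (τ t) f ≤ c * (disp (τ (.ofAdd (1, 0))) f + disp (τ (.ofAdd (0, 1))) f + disp s f +
        disp r f)

/-- G2: bounded generation by elementary matrices. -/
def BddGenStmt : Prop :=
  ∃ c : ℕ, ∀ (n : ℕ) [NeZero n] (g : SL3 n), ∃ l : List (Fin 3 × Fin 3 × ZMod n),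
    l.length ≤ c ∧ (∀ x ∈ l, x.1 ≠ x.2.1) ∧
      (g : Matrix (Fin 3) (Fin 3) (ZMod n)) =
        (l.map fun x => Matrix.transvection x.1 x.2.1 x.2.2).prod

/-- G3: boundedly many orbits with one-sided bias. `T` is the group of translations, which acts
on at most sixteen orbits. -/
def BiasStmt : Prop :=
  ∃ (c : ℕ) (β : ℝ), 0 < β ∧ ∀ (n : ℕ) [NeZero n], Odd n → ∀ (Ω : Type) [Fintype Ω]
    [DecidableEq Ω] [AddAction (Fin 3 → ZMod n) Ω] (base : Fin 16 → Ω),
    (∀ ω, ∃ (i : Fin 16) (t : Fin 3 → ZMod n), t +ᵥ base i = ω) →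
    ∃ w : Fin c → Ω → ZMod 2, ∀ a : Ω → ZMod 2, a ≠ 0 →
      β ≤ frac fun x : Fin c × (Fin 3 → ZMod n) => ∑ ω, a (x.2 +ᵥ ω) * w x.1 ω ≠ 0

end Vale.Agent.P330.Outer
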