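import Vale.Agent.P330.Outer.GrpDefs

/-!
P330, group package: from bounds for the displacement to spectral bounds in the semidirect product
of the cube with a group.
-/

namespace Vale.Agent.P330.Outer.GrpP

open Vale.Agent.P330.Bohr

/-! ### Displacement -/

section Disp

variable {G X : Type} [Group G] [MulAction G X] [Fintype X]

theorem disp_nonneg (g : G) (f : X → ℝ) : 0 ≤ disp g f := Finset.sum_nonneg fun _ _ => sq_nonneg _

theorem disp_one (f : X → ℝ) : disp (1 : G) f = 0 := by simp [disp]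

theorem sum_smul (g : G) (F : X → ℝ) : ∑ x, F (g • x) = ∑ x, F x :=
  Equiv.sum_comp (MulAction.toPerm g) F

theorem disp_inv (g : G) (f : X → ℝ) : disp g⁻¹ f = disp g f := by
  unfold disp
  rw [← sum_smul g]
  exact Finset.sum_congr rfl fun x _ => by rw [inv_smul_smul]; ring

theorem disp_mul_le (g h : G) (f : X → ℝ) : disp (g * h) f ≤ 2 * disp g f + 2 * disp h f := by
  unfold disp
  rw [← sum_smul h fun x => (f (g • x) - f x) ^ 2, Finset.mul_sum, Finset.mul_sum,
    ← Finset.sum_add_distrib]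
  refine Finset.sum_le_sum fun x _ => ?_
  rw [mul_smul]
  nlinarith [sq_nonneg (f (g • h • x) - f (h • x) - (f (h • x) - f x))]

theorem disp_prod_le {l : List G} {f : X → ℝ} {B : ℝ} (hB : 0 ≤ B) (h : ∀ g ∈ l, disp g f ≤ B) :
    disp l.prod f ≤ 4 ^ l.length * B := by
  induction l with
  | nil => simpa [disp_one] using hB
  | cons g l ih =>
    have h1 := ih fun x hx => h x (List.mem_cons_of_mem _ hx)
    have h2 := h g List.mem_cons_self
    have h3 := disp_mul_le g l.prod f
    have h4 : B ≤ 4 ^ l.length * B := le_mul_of_one_le_left hB (one_le_pow₀ (by norm_num))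
    rw [List.prod_cons, List.length_cons, pow_succ]
    linarith

end Disp

/-- Every element moves a function at most `C` times as much as the generators do. -/
def Kaz {H J : Type} [Group H] [Fintype J] (C : ℝ) (gen : J → H) : Prop :=
  ∀ (X : Type) [Fintype X] [MulAction H X] (f : X → ℝ) (h : H),
    disp h f ≤ C * ∑ i, disp (gen i) f

theorem hpoinc_of_kaz {H : Type} [Group H] [Fintype H] {a : ℕ} {C : ℝ} (hC : 0 < C)
    {gen : Fin a → H} (h : Kaz C gen) : HPoinc C⁻¹ gen := by
  intro f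
  have hN : (0 : ℝ) < Fintype.card H := card_pos_real
  have h1 : mean (fun x : H × H => (f x.1 - f x.2) ^ 2) =
      mean fun g : H => disp g f / Fintype.card H := by
    rw [mean_prod', mean_congr (g := fun y => mean fun g : H => (f (g * y) - f y) ^ 2)
      fun y => (mean_equiv (Equiv.mulRight y) fun x => (f x - f y) ^ 2).symm, mean_comm]
    rfl
  have h2 : ∑ i, mean (fun x => (f x - f (gen i * x)) ^ 2) =
      (∑ i, disp (gen i) f) / Fintype.card H := by
    rw [Finset.sum_div]
    refine Finset.sum_congr rfl fun i _ => ?_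
    rw [mean_congr (g := fun x => (f (gen i • x) - f x) ^ 2) fun x => by
      rw [smul_eq_mul]; ring]
    rfl
  rw [h1, h2, inv_mul_le_iff₀ hC, ← mul_div_assoc]
  exact mean_le_of_le' fun g => div_le_div_of_nonneg_right (h H f g) hN.le

/-! ### Contraction of averaging operators -/

section Contr

variable {G : Type} [Group G] [Fintype G]

/-- the group with the action by multiplication from the right -/
def RR (G : Type) : Type := G

instance : Fintype (RR G) := inferInstanceAs (Fintype G)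

instance : MulAction G (RR G) where
  smul g x := (show G from x) * g⁻¹
  one_smul x := by
    change (show G from x) * 1⁻¹ = x
    rw [inv_one, mul_one]
  mul_smul g h x := by
    change (show G from x) * (g * h)⁻¹ = (show G from x) * h⁻¹ * g⁻¹
    rw [mul_inv_rev, mul_assoc]

/-- the displacement by multiplication from the right -/
noncomputable def rdisp (g : G) (f : G → ℝ) : ℝ := mean fun x => (f (x * g) - f x) ^ 2

theorem rdisp_inv_eq (g : G) (f : G → ℝ) :
    rdisp g⁻¹ f = disp (X := RR G) g f / Fintype.card G := rfl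

theorem rdisp_eq (g : G) (f : G → ℝ) :
    rdisp g f = disp (X := RR G) g f / Fintype.card G := by
  have h := rdisp_inv_eq g⁻¹ f
  rw [inv_inv] at h
  exact h.trans (congrArg (· / (Fintype.card G : ℝ)) (disp_inv (X := RR G) g f))

theorem rdisp_inv (g : G) (f : G → ℝ) : rdisp g⁻¹ f = rdisp g f :=
  (rdisp_inv_eq g f).trans (rdisp_eq g f).symm

theorem mean_mul_right (g : G) (F : G → ℝ) : mean (fun x => F (x * g)) = mean F :=
  mean_equiv (Equiv.mulRight g) F

theorem mean_rdisp {f : G → ℝ} (hf : mean f = 0) :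
    mean (fun g => rdisp g f) = 2 * mean fun x => f x ^ 2 := by
  unfold rdisp
  rw [mean_comm]
  have h : ∀ x : G, mean (fun g => (f (x * g) - f x) ^ 2) = mean (fun y => f y ^ 2) + f x ^ 2 := by
    intro x
    refine (mean_equiv (Equiv.mulLeft x) fun y => (f y - f x) ^ 2).trans ?_
    rw [mean_congr (g := fun y => f y ^ 2 + (-2 * f x) * f y + f x ^ 2) fun y => by ring,
      mean_add, mean_add, mean_const_mul, hf, mean_const]
    ring
  rw [mean_congr h, mean_add, mean_const]
  ring

/-- The averaging operator contracts the squared norm of functions with mean zero. -/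
def Contr {J : Type} [Fintype J] (ρ : ℝ) (s : J → G) : Prop :=
  ∀ f : G → ℝ, mean f = 0 →
    mean (fun g => mean (fun i => f (g * s i)) ^ 2) ≤ ρ * mean fun g => f g ^ 2

theorem Contr.mono {J : Type} [Fintype J] {ρ ρ' : ℝ} {s : J → G} (h : Contr ρ s) (hρ : ρ ≤ ρ') :
    Contr ρ' s := fun f hf =>
  (h f hf).trans (mul_le_mul_of_nonneg_right hρ (mean_nonneg fun _ => sq_nonneg _))

theorem Contr.equiv {J J' : Type} [Fintype J] [Fintype J'] {ρ : ℝ} {s : J → G} (h : Contr ρ s)
    (e : J' ≃ J) : Contr ρ fun i => s (e i) := fun f hf => by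
  rw [mean_congr fun g => congrArg (· ^ 2) (mean_equiv e fun i => f (g * s i))]
  exact h f hf

theorem Contr.mul {J J' : Type} [Fintype J] [Fintype J'] [Nonempty J'] {ρ ρ' : ℝ} {s : J → G}
    {s' : J' → G} (h : Contr ρ s) (h' : Contr ρ' s') (h0 : 0 ≤ ρ) :
    Contr (ρ * ρ') fun i : J × J' => s i.1 * s' i.2 := by
  intro f hf
  have h1 := h (fun g => mean fun j => f (g * s' j)) (by
    rw [mean_comm, mean_congr fun j => mean_mul_right (s' j) f, mean_const, hf])
  have h2 := mul_le_mul_of_nonneg_left (h' f hf) h0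
  simp only [mean_prod (X := J), ← mul_assoc] at h2 ⊢
  exact h1.trans h2

theorem mean_sq_eq {J : Type} [Fintype J] [Nonempty J] (v : J → ℝ) :
    mean v ^ 2 = mean (fun i => v i ^ 2) - mean (fun p : J × J => (v p.1 - v p.2) ^ 2) / 2 := by
  rw [mean_congr (f := fun p : J × J => (v p.1 - v p.2) ^ 2)
    (g := fun p => v p.1 ^ 2 + v p.2 ^ 2 - 2 * (v p.1 * v p.2)) fun p => by ring,
    mean_sub, mean_add, mean_const_mul, mean_fst fun i => v i ^ 2, mean_snd fun i => v i ^ 2,
    mean_mul_mean]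
  ring

/-- A family which contains the unit and whose members control the displacement. -/
theorem contr_of_rdisp {J : Type} [Fintype J] {s : J → G} {i0 : J} (h0 : s i0 = 1) {C : ℝ}
    (hC : 0 < C) (h : ∀ f g, rdisp g f ≤ C * ∑ i, rdisp (s i) f) :
    Contr (1 - 1 / (C * (Fintype.card J : ℝ) ^ 2)) s := by
  intro f hf
  have : Nonempty J := ⟨i0⟩
  have hJ : (0 : ℝ) < Fintype.card J := card_pos_real
  have h1 : ∀ g, mean (fun i => f (g * s i)) ^ 2 ≤ mean (fun i => f (g * s i) ^ 2) -
      (∑ i, (f (g * s i) - f g) ^ 2) / (2 * (Fintype.card J : ℝ) ^ 2) := by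
    intro g
    rw [mean_sq_eq]
    refine sub_le_sub_left ?_ _
    rw [mean_prod', mul_comm, ← div_div, sq (Fintype.card J : ℝ), ← div_div]
    refine div_le_div_of_nonneg_right (div_le_div_of_nonneg_right ?_ hJ.le) zero_le_two
    refine le_trans (le_of_eq ?_) (Finset.single_le_sum
      (f := fun y => mean fun x => (f (g * s x) - f (g * s y)) ^ 2)
      (fun y _ => mean_nonneg fun _ => sq_nonneg _) (Finset.mem_univ i0))
    simp only [h0, mul_one]
    rfl
  refine (mean_mono h1).trans ?_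
  rw [mean_sub, mean_comm, mean_congr fun i => mean_mul_right (s i) fun g => f g ^ 2, mean_const,
    mean_div_const, mean_sum]
  have h2 : 2 * mean (fun x => f x ^ 2) ≤ C * ∑ i, rdisp (s i) f := by
    rw [← mean_rdisp hf]
    exact mean_le_of_le' (h f)
  have h3 : 1 / (C * (Fintype.card J : ℝ) ^ 2) * mean (fun x => f x ^ 2) ≤
      (∑ i, rdisp (s i) f) / (2 * (Fintype.card J : ℝ) ^ 2) := by
    rw [div_mul_eq_mul_div, one_mul, div_le_div_iff₀ (by positivity) (by positivity)]
    nlinarith [mul_le_mul_of_nonneg_right h2 (sq_nonneg (Fintype.card J : ℝ))]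
  unfold rdisp at h3
  linarith

/-- the products of `t` members of the family -/
def pw {G : Type} [Group G] {d : ℕ} (s : Fin d → G) : (t : ℕ) → Fin (d ^ t) → G
  | 0, _ => 1
  | t + 1, k => pw s t (finProdFinEquiv.symm (show Fin (d ^ t * d) from k)).1 *
      s (finProdFinEquiv.symm (show Fin (d ^ t * d) from k)).2

theorem contr_one {J : Type} [Fintype J] [Nonempty J] : Contr 1 fun _ : J => (1 : G) :=
  fun f _ => by simp [mean_const]

theorem contr_pw {d : ℕ} (hd : 0 < d) {s : Fin d → G} {ρ : ℝ} (h0 : 0 ≤ ρ) (h : Contr ρ s)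
    (h' : Contr ρ fun i => (s i)⁻¹) (t : ℕ) :
    Contr (ρ ^ t) (pw s t) ∧ Contr (ρ ^ t) fun i => (pw s t i)⁻¹ := by
  have : Nonempty (Fin d) := ⟨⟨0, hd⟩⟩
  induction t with
  | zero =>
    have : Nonempty (Fin (d ^ 0)) := ⟨⟨0, by simp⟩⟩
    simpa only [pw, pow_zero, inv_one] using ⟨contr_one, contr_one⟩
  | succ t ih =>
    have : Nonempty (Fin (d ^ t)) := ⟨⟨0, by positivity⟩⟩
    constructor
    · rw [pow_succ ρ]
      exact (ih.1.mul h (by positivity)).equiv finProdFinEquiv.symm
    · rw [pow_succ' ρ]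
      have h1 := (h'.mul ih.2 h0).equiv (finProdFinEquiv.symm.trans (Equiv.prodComm _ _))
      simp only [pw, mul_inv_rev]
      exact h1

end Contr

/-! ### Fourier analysis on the cube -/

section Cube

variable {m : ℕ}

/-- the sign of a bit -/
def sgn (z : ZMod 2) : ℝ := if z = 0 then 1 else -1

theorem sgn_add (y z : ZMod 2) : sgn (y + z) = sgn y * sgn z := by
  revert y z
  unfold sgn
  have h : ∀ y z : ZMod 2, (y + z = 0 ↔ (y = 0 ↔ z = 0)) := by decide
  intro y z
  by_cases hy : y = 0 <;> by_cases hz : z = 0 <;> simp [h, hy, hz]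

/-- the scalar product -/
def dot (a γ : Gam m) : ZMod 2 := ∑ i, a i * γ i

theorem dot_add (a γ δ : Gam m) : dot a (γ + δ) = dot a γ + dot a δ := by
  unfold dot
  rw [← Finset.sum_add_distrib]
  exact Finset.sum_congr rfl fun i _ => mul_add _ _ _

theorem dot_comm (a γ : Gam m) : dot a γ = dot γ a := Finset.sum_congr rfl fun _ _ => mul_comm _ _

theorem dot_zero (a : Gam m) : dot a 0 = 0 := Finset.sum_eq_zero fun _ _ => mul_zero _

theorem add_self (γ : Gam m) : γ + γ = 0 := funext fun i => CharTwo.add_self_eq_zero (γ i)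

theorem sum_sgn (δ : Gam m) :
    ∑ a, sgn (dot a δ) = if δ = 0 then (Fintype.card (Gam m) : ℝ) else 0 := by
  split_ifs with h
  · simp [h, dot_zero, sgn]
  · obtain ⟨i, hi⟩ : ∃ i, δ i ≠ 0 := by
      by_contra hn
      exact h (funext fun i => not_not.1 (not_exists.1 hn i))
    have h1 : dot δ (eV i) = δ i := by
      rw [dot, Finset.sum_eq_single i (fun j _ hj => by simp [eV, hj]) (by simp)]
      simp [eV]
    have h2 := Equiv.sum_comp (Equiv.addRight (eV i)) fun a => sgn (dot a δ)
    simp only [Equiv.coe_addRight, dot_comm _ δ, dot_add, sgn_add, h1] at h2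
    rw [← Finset.sum_mul, sgn, if_neg hi] at h2
    simp only [dot_comm _ δ]
    linarith

/-- the Fourier coefficients -/
noncomputable def fc (F : Gam m → ℝ) (a : Gam m) : ℝ := ∑ δ, F δ * sgn (dot a δ)

theorem parseval (F : Gam m → ℝ) :
    ∑ a, fc F a ^ 2 = Fintype.card (Gam m) * ∑ δ, F δ ^ 2 := by
  have h : ∀ a, fc F a ^ 2 = ∑ δ, ∑ δ', F δ * F δ' * sgn (dot a (δ + δ')) := fun a => by
    rw [sq, fc, Finset.sum_mul_sum]
    refine Finset.sum_congr rfl fun δ _ => Finset.sum_congr rfl fun δ' _ => ?_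
    rw [dot_add, sgn_add]
    ring
  simp only [h]
  rw [Finset.sum_comm, Finset.mul_sum]
  refine Finset.sum_congr rfl fun δ _ => ?_
  rw [Finset.sum_comm]
  simp only [← Finset.mul_sum, sum_sgn]
  rw [Finset.sum_eq_single δ (fun δ' _ hne => ?_) (by simp), if_pos (add_self δ)]
  · ring
  · rw [if_neg, mul_zero]
    intro h0
    exact hne (by rw [← add_zero δ', ← add_self δ, ← add_assoc, add_comm δ', h0, zero_add])

theorem fc_shift (F : Gam m → ℝ) (γ a : Gam m) :
    fc (fun δ => F (γ + δ) - F δ) a = (sgn (dot a γ) - 1) * fc F a := by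
  unfold fc
  simp only [sub_mul, Finset.sum_sub_distrib, one_mul]
  congr 1
  rw [← Equiv.sum_comp (Equiv.addLeft γ), Finset.mul_sum]
  refine Finset.sum_congr rfl fun δ _ => ?_
  rw [Equiv.coe_addLeft, ← add_assoc, add_self, zero_add, dot_add, sgn_add]
  ring

theorem cube_disp (F : Gam m → ℝ) (γ : Gam m) :
    Fintype.card (Gam m) * ∑ δ, (F (γ + δ) - F δ) ^ 2 =
      ∑ a, (if dot a γ ≠ 0 then 1 else 0) * (4 * fc F a ^ 2) := by
  rw [← parseval]
  refine Finset.sum_congr rfl fun a _ => ?_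
  rw [fc_shift, sgn]
  by_cases h : dot a γ = 0
  · simp [h]
  · simp only [h, if_false, ne_eq, not_false_eq_true, if_true]
    ring

/-- Families with one-sided bias control all shifts. -/
theorem cube_bias {U : Type} [Fintype U] {u : U → Gam m} {β : ℝ}
    (h : ∀ a, a ≠ 0 → β ≤ frac fun x => dot a (u x) ≠ 0) (F : Gam m → ℝ) (γ : Gam m) :
    β * ∑ δ, (F (γ + δ) - F δ) ^ 2 ≤ mean fun x => ∑ δ, (F (u x + δ) - F δ) ^ 2 := by
  have hN : (0 : ℝ) < Fintype.card (Gam m) := card_pos_real
  refine le_of_mul_le_mul_left ?_ hN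
  rw [mul_left_comm, cube_disp, ← mean_const_mul, mean_congr fun x => cube_disp F (u x), mean_sum,
    Finset.mul_sum]
  refine Finset.sum_le_sum fun a _ => ?_
  rw [mean_mul_const, ← frac_eq_mean, ← mul_assoc]
  refine mul_le_mul_of_nonneg_right ?_ (by positivity)
  split_ifs with ha
  · rw [mul_one]
    exact h a fun h0 => ha (by rw [h0, dot_comm, dot_zero])
  · rw [mul_zero]
    exact frac_nonneg _

end Cube

/-! ### The semidirect product -/

/-- the semidirect product -/
def SD (Γ H : Type) : Type := Γ × H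

section SD

variable {Γ H : Type} [AddCommGroup Γ] [Group H] [DistribMulAction H Γ]

instance [Fintype Γ] [Fintype H] : Fintype (SD Γ H) := inferInstanceAs (Fintype (Γ × H))

instance : Group (SD Γ H) where
  mul := gmul
  one := (0, 1)
  inv := ginv
  mul_assoc a b c := Prod.ext
    (show a.1 + a.2 • b.1 + (a.2 * b.2) • c.1 = a.1 + a.2 • (b.1 + b.2 • c.1) by
      rw [smul_add, mul_smul, add_assoc]) (mul_assoc a.2 b.2 c.2)
  one_mul a := Prod.ext (show 0 + (1 : H) • a.1 = a.1 by simp) (one_mul a.2)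
  mul_one a := Prod.ext (show a.1 + a.2 • (0 : Γ) = a.1 by simp) (mul_one a.2)
  inv_mul_cancel a := Prod.ext (show -(a.2⁻¹ • a.1) + a.2⁻¹ • a.1 = 0 by simp)
    (inv_mul_cancel a.2)

/-- the inclusion of the group -/
def inH : H →* SD Γ H where
  toFun h := (0, h)
  map_one' := rfl
  map_mul' g h := Prod.ext (show (0 : Γ) = 0 + g • (0 : Γ) by simp) rfl

/-- the inclusion of the normal subgroup -/
def inG (γ : Γ) : SD Γ H := (γ, 1)

theorem inG_add (γ δ : Γ) : (inG (γ + δ) : SD Γ H) = inG γ * inG δ :=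
  Prod.ext (show γ + δ = γ + (1 : H) • δ by simp) (one_mul (1 : H)).symm

theorem eq_inG_mul (g : SD Γ H) : g = inG g.1 * inH g.2 :=
  Prod.ext (show g.1 = g.1 + (1 : H) • (0 : Γ) by simp) (one_mul g.2).symm

theorem inG_smul (h : H) (γ : Γ) : (inG (h • γ) : SD Γ H) = inH h * inG γ * (inH h)⁻¹ := by
  rw [eq_mul_inv_iff_mul_eq]
  exact Prod.ext (show h • γ + (1 : H) • (0 : Γ) = 0 + h • γ by simp)
    (show 1 * h = h * 1 by simp)

theorem gspec_of_contr [Fintype Γ] [Fintype H] {d : ℕ} {lam : ℝ} {S : Fin d → SD Γ H}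
    (h : Contr (lam ^ 2) S) (h' : Contr (lam ^ 2) fun i => (S i)⁻¹) :
    GSpec (Γ := Γ) (H := H) lam S := by
  intro o
  cases o
  · exact h'
  · exact h

end SD

section Main

variable {m : ℕ} {H : Type} [Group H] [MulAction H (Fin m)]

theorem disp_inG_le {X : Type} [Fintype X] [MulAction (SD (Gam m) H) X] {U : Type} [Fintype U]
    {u : U → Gam m} {β : ℝ} (h : ∀ a, a ≠ 0 → β ≤ frac fun x => dot a (u x) ≠ 0)
    (f : X → ℝ) (γ : Gam m) :
    β * disp (inG γ : SD (Gam m) H) f ≤ mean fun x => disp (inG (u x) : SD (Gam m) H) f := by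
  have hN : (0 : ℝ) < Fintype.card (Gam m) := card_pos_real
  have key : ∀ γ : Gam m, Fintype.card (Gam m) * disp (inG γ : SD (Gam m) H) f =
      ∑ x : X, ∑ δ : Gam m, (f ((inG (γ + δ) : SD (Gam m) H) • x) -
        f ((inG δ : SD (Gam m) H) • x)) ^ 2 := fun γ => by
    rw [Finset.sum_comm, ← nsmul_eq_mul, ← Finset.card_univ, ← Finset.sum_const]
    refine Finset.sum_congr rfl fun δ _ => ?_
    simp only [inG_add, mul_smul]
    exact (sum_smul (inG δ : SD (Gam m) H)
      fun x => (f ((inG γ : SD (Gam m) H) • x) - f x) ^ 2).symm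
  refine le_of_mul_le_mul_left ?_ hN
  rw [mul_left_comm, key, ← mean_const_mul, mean_congr fun x => key (u x), mean_sum,
    Finset.mul_sum]
  exact Finset.sum_le_sum fun x _ =>
    cube_bias h (fun δ => f ((inG δ : SD (Gam m) H) • x)) γ

/-- the generators: unit, generators of the group, points of the cube -/
def gen0 {a c : ℕ} (gen : Fin a → H) (w : Fin c → Gam m) : Fin (a + c + 1) → SD (Gam m) H :=
  Fin.cons 1 (Fin.append (fun i => inH (gen i)) fun k => inG (w k))

theorem kaz_gen0 {a c : ℕ} {gen : Fin a → H} {C β : ℝ} (hC : 0 ≤ C) (hβ : 0 < β) (hK : Kaz C gen)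
    {T : Type} [Fintype T] {τ : T → H} {w : Fin c → Gam m}
    (h : ∀ b, b ≠ 0 → β ≤ frac fun x : Fin c × T => dot b (τ x.2 • w x.1) ≠ 0) :
    Kaz (2 * ((6 * C + 4) / β) + 2 * C) (gen0 gen w) := by
  intro X _ _ f g
  set E := ∑ i, disp (gen0 gen w i) f with hE
  have hE' : E = ∑ i, disp (inH (gen i) : SD (Gam m) H) f +
      ∑ k, disp (inG (w k) : SD (Gam m) H) f := by
    rw [hE, Fin.sum_univ_succ, Fin.sum_univ_add]
    simp [gen0, disp_one]
  have n1 : 0 ≤ ∑ i, disp (inH (gen i) : SD (Gam m) H) f :=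
    Finset.sum_nonneg fun _ _ => disp_nonneg _ _
  have n2 : 0 ≤ ∑ k, disp (inG (w k) : SD (Gam m) H) f :=
    Finset.sum_nonneg fun _ _ => disp_nonneg _ _
  have h1 : ∀ x : H, disp (inH x : SD (Gam m) H) f ≤ C * E := fun x => by
    let _ : MulAction H X := MulAction.compHom X (inH : H →* SD (Gam m) H)
    refine le_trans (hK X f x) (mul_le_mul_of_nonneg_left ?_ hC)
    rw [hE']
    exact le_add_of_nonneg_right n2
  have h2 : ∀ k, disp (inG (w k) : SD (Gam m) H) f ≤ E := fun k => by
    rw [hE']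
    exact le_add_of_nonneg_of_le n1 (Finset.single_le_sum
      (f := fun k => disp (inG (w k) : SD (Gam m) H) f) (fun _ _ => disp_nonneg _ _)
      (Finset.mem_univ k))
  have hE0 : 0 ≤ E := hE' ▸ add_nonneg n1 n2
  have h3 : ∀ γ : Gam m, disp (inG γ : SD (Gam m) H) f ≤ (6 * C + 4) / β * E := fun γ => by
    rw [div_mul_eq_mul_div, le_div_iff₀' hβ]
    refine (disp_inG_le h f γ).trans (mean_le_of_le (by positivity) fun x => ?_)
    rw [inG_smul]
    have a1 := disp_mul_le (inH (τ x.2) * inG (w x.1) : SD (Gam m) H) (inH (τ x.2))⁻¹ f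
    have a2 := disp_mul_le (inH (τ x.2) : SD (Gam m) H) (inG (w x.1)) f
    rw [disp_inv] at a1
    linarith [h1 (τ x.2), h2 x.1]
  rw [eq_inG_mul g]
  linarith [disp_mul_le (inG g.1 : SD (Gam m) H) (inH g.2) f, h1 g.2, h3 g.1]

theorem contr_of_kaz {G : Type} [Group G] [Fintype G] {d : ℕ} {s : Fin (d + 1) → G}
    (h0 : s 0 = 1) {C : ℝ} (hC : 1 ≤ C) (h : Kaz C s) (t : ℕ) :
    Contr ((1 - 1 / (C * ((d + 1 : ℕ) : ℝ) ^ 2)) ^ t) (pw s t) ∧
      Contr ((1 - 1 / (C * ((d + 1 : ℕ) : ℝ) ^ 2)) ^ t) fun i => (pw s t i)⁻¹ := by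
  have hN : (0 : ℝ) < Fintype.card G := card_pos_real
  have h1 : ∀ f g, rdisp g f ≤ C * ∑ i, rdisp (s i) f := fun f g => by
    simp only [rdisp_eq]
    rw [← Finset.sum_div, ← mul_div_assoc]
    exact div_le_div_of_nonneg_right (h (RR G) f g) hN.le
  have h2 := contr_of_rdisp h0 (one_pos.trans_le hC) h1
  have h3 := contr_of_rdisp (s := fun i => (s i)⁻¹) (i0 := 0) (by rw [h0, inv_one])
    (one_pos.trans_le hC) (by simpa only [rdisp_inv] using h1)
  rw [Fintype.card_fin] at h2 h3
  refine contr_pw (Nat.succ_pos d) ?_ h2 h3 t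
  rw [sub_nonneg, div_le_one (by positivity)]
  exact one_le_mul_of_one_le_of_one_le hC (one_le_pow₀ (by exact_mod_cast Nat.le_add_left 1 d))

end Main

end Vale.Agent.P330.Outer.GrpP
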