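import Vale.Agent.P330.Outer.MemDefs

/-!
P330, outer system: algebra of the edge values, of the moves, and mixing lemmas.
-/

namespace Vale.Agent.P330.Outer

open Function

/-! ### Edge values -/

section Edge

variable {F : Type} [Field F] {E : Type} [AddCommGroup E] [Module F E] {d : ℕ} {y : F}

/-- the evaluation point of an edge -/
def ept {d : ℕ} (e : Bool × Fin d) : ℕ := if e.1 then d + e.2 else e.2

theorem ept_lt (e : Bool × Fin d) : ept e < 2 * d := by
  have := e.2.2
  unfold ept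
  split_ifs <;> omega

theorem ept_injective : Injective (ept : Bool × Fin d → ℕ) := by
  rintro ⟨a, i⟩ ⟨b, j⟩ h
  have hi := i.2
  have hj := j.2
  cases a <;> cases b <;> simp only [ept, if_true, Bool.false_eq_true, if_false] at h
  · exact Prod.ext rfl (Fin.ext h)
  · omega
  · omega
  · exact Prod.ext rfl (Fin.ext (by simpa using h))

/-- the coefficient of `P i` in the value on the edge `e` -/
def ecf (y : F) (e : Bool × Fin d) (i : Fin (d + 1)) : F :=
  (if e.1 then y else 1) * ((ept e : ℕ) : F) ^ (i : ℕ)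

theorem edgeVal_eq (P : Fin (d + 1) → E) (e : Bool × Fin d) :
    edgeVal y P e = ∑ i, ecf y e i • P i := by
  simp only [edgeVal, ecf, ept, Finset.smul_sum, smul_smul]

/-- the value on an edge as a linear map -/
def edgeL (y : F) (e : Bool × Fin d) : (Fin (d + 1) → E) →ₗ[F] E where
  toFun P := edgeVal y P e
  map_add' P Q := by simp only [edgeVal_eq, Pi.add_apply, smul_add, Finset.sum_add_distrib]
  map_smul' c P := by
    simp only [edgeVal_eq, Pi.smul_apply, RingHom.id_apply, Finset.smul_sum, smul_comm c]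

@[simp] theorem edgeL_apply (P : Fin (d + 1) → E) (e : Bool × Fin d) :
    edgeL y e P = edgeVal y P e := rfl

@[simp] theorem edgeVal_zero (e : Bool × Fin d) : edgeVal y (0 : Fin (d + 1) → E) e = 0 :=
  (edgeL y e).map_zero

theorem edgeVal_add (P Q : Fin (d + 1) → E) (e : Bool × Fin d) :
    edgeVal y (P + Q) e = edgeVal y P e + edgeVal y Q e := (edgeL y e).map_add P Q

theorem edgeVal_sub (P Q : Fin (d + 1) → E) (e : Bool × Fin d) :
    edgeVal y (P - Q) e = edgeVal y P e - edgeVal y Q e := (edgeL y e).map_sub P Q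

theorem edgeVal_neg (P : Fin (d + 1) → E) (e : Bool × Fin d) :
    edgeVal y (-P) e = -edgeVal y P e := (edgeL y e).map_neg P

theorem edgeVal_smul (c : F) (P : Fin (d + 1) → E) (e : Bool × Fin d) :
    edgeVal y (c • P) e = c • edgeVal y P e := (edgeL y e).map_smul c P

theorem edgeVal_sum {I : Type} (s : Finset I) (P : I → Fin (d + 1) → E) (e : Bool × Fin d) :
    edgeVal y (∑ i ∈ s, P i) e = ∑ i ∈ s, edgeVal y (P i) e := map_sum (edgeL y e) P s

theorem edgeVal_map {E' : Type} [AddCommGroup E'] [Module F E'] (φ : E →ₗ[F] E')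
    (P : Fin (d + 1) → E) (e : Bool × Fin d) :
    edgeVal y (fun i => φ (P i)) e = φ (edgeVal y P e) := by
  simp only [edgeVal_eq, map_sum, map_smul]

theorem edgeVal_apply {J : Type} (P : Fin (d + 1) → J → E) (e : Bool × Fin d) (j : J) :
    edgeVal y P e j = edgeVal y (fun i => P i j) e := by
  simp only [edgeVal_eq, Finset.sum_apply, Pi.smul_apply]

theorem edgeVal_smul_const (c : Fin (d + 1) → F) (x : E) (e : Bool × Fin d) :
    edgeVal y (fun i => c i • x) e = edgeVal y c e • x := by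
  simp only [edgeVal_eq, Finset.sum_smul, smul_smul, smul_eq_mul]

theorem ne_zero_of_edgeVal {P : Fin (d + 1) → E} {e : Bool × Fin d} (h : edgeVal y P e ≠ 0) :
    P ≠ 0 := by
  rintro rfl
  exact h (edgeVal_zero e)

/-- The edge values in the two variables commute. -/
theorem edgeVal_comm {dA dB : ℕ} (yA yB : F) (Φ : View dA dB E) (e : Bool × Fin dA)
    (e' : Bool × Fin dB) :
    edgeVal yB (edgeVal yA Φ e) e' = edgeVal yA (edgeVal yB Φ.tr e') e := by
  simp only [edgeVal_eq, Finset.sum_apply, Pi.smul_apply, Finset.smul_sum, View.tr]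
  rw [Finset.sum_comm]
  simp only [smul_comm (ecf yB e' _)]

omit [AddCommGroup E] in
@[simp] theorem View.tr_tr {dA dB : ℕ} (Φ : View dA dB E) : Φ.tr.tr = Φ := rfl

omit [AddCommGroup E] in
theorem View.tr_apply {dA dB : ℕ} (Φ : View dA dB E) (j i) : Φ.tr j i = Φ i j := rfl

omit [AddCommGroup E] in
theorem View.tr_injective {dA dB : ℕ} : Injective (View.tr : View dA dB E → View dB dA E) :=
  fun _ _ h => congrArg View.tr h

omit [AddCommGroup E] in
@[simp] theorem View.tr_inj {dA dB : ℕ} {Φ Ψ : View dA dB E} : Φ.tr = Ψ.tr ↔ Φ = Ψ :=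
  View.tr_injective.eq_iff

@[simp] theorem View.tr_zero {dA dB : ℕ} : (0 : View dA dB E).tr = 0 := rfl

@[simp] theorem View.tr_eq_zero {dA dB : ℕ} {Φ : View dA dB E} : Φ.tr = 0 ↔ Φ = 0 :=
  View.tr_inj (Ψ := 0)

theorem View.tr_add {dA dB : ℕ} (Φ Ψ : View dA dB E) : (Φ + Ψ).tr = Φ.tr + Ψ.tr := rfl

theorem View.tr_sub {dA dB : ℕ} (Φ Ψ : View dA dB E) : (Φ - Ψ).tr = Φ.tr - Ψ.tr := rfl

theorem View.tr_smul {dA dB : ℕ} (c : F) (Φ : View dA dB E) : (c • Φ).tr = c • Φ.tr := rfl

theorem Pts.cast_inj (hp : Pts d y) : Injective fun e : Bool × Fin d => ((ept e : ℕ) : F) :=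
  fun a b h => ept_injective (hp.inj _ _ (ept_lt a) (ept_lt b) h)

theorem Pts.mul_ne (hp : Pts d y) (o : Bool) : (if o then y else 1 : F) ≠ 0 := by
  split_ifs
  exacts [hp.ne, one_ne_zero]

/-- the polynomial with the coefficients `c` -/
noncomputable def cpoly (c : Fin (d + 1) → F) : Polynomial F :=
  ∑ i : Fin (d + 1), Polynomial.monomial (i : ℕ) (c i)

theorem cpoly_coeff (c : Fin (d + 1) → F) (i : Fin (d + 1)) : (cpoly c).coeff i = c i := by
  unfold cpoly
  rw [Polynomial.finsetSum_coeff, Finset.sum_eq_single i]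
  · simp
  · intro j _ hj
    rw [Polynomial.coeff_monomial, if_neg fun h => hj (Fin.ext h)]
  · simp

theorem cpoly_natDegree (c : Fin (d + 1) → F) : (cpoly c).natDegree ≤ d := by
  unfold cpoly
  refine Polynomial.natDegree_sum_le_of_forall_le _ _ fun i _ => ?_
  exact (Polynomial.natDegree_monomial_le _).trans (Nat.lt_succ_iff.1 i.2)

theorem edgeVal_cpoly (c : Fin (d + 1) → F) (e : Bool × Fin d) :
    edgeVal y c e = (if e.1 then y else 1) * (cpoly c).eval ((ept e : ℕ) : F) := by
  simp only [edgeVal_eq, cpoly, Polynomial.eval_finsetSum, Polynomial.eval_monomial, ecf,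
    Finset.mul_sum, smul_eq_mul]
  exact Finset.sum_congr rfl fun i _ => by ring

/-- `d + 1` zero edge values force the polynomial to vanish. -/
theorem Pts.eq_zero_of_card (hp : Pts d y) {P : Fin (d + 1) → E} {s : Finset (Bool × Fin d)}
    (hs : d + 1 ≤ s.card) (h : ∀ e ∈ s, edgeVal y P e = 0) : P = 0 := by
  classical
  funext i
  refine (Module.forall_dual_apply_eq_zero_iff F (P i)).1 fun φ => ?_
  have h0 : cpoly (fun i => φ (P i)) = 0 := by
    refine Polynomial.eq_zero_of_natDegree_lt_card_of_eval_eq_zero' _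
      (s.image fun e => ((ept e : ℕ) : F)) ?_ ?_
    · intro x hx
      obtain ⟨e, he, rfl⟩ := Finset.mem_image.1 hx
      have h1 := edgeVal_map (y := y) φ P e
      rw [h e he, map_zero, edgeVal_cpoly] at h1
      exact (mul_eq_zero.1 h1).resolve_left (hp.mul_ne _)
    · rw [Finset.card_image_of_injective _ hp.cast_inj]
      exact (cpoly_natDegree _).trans_lt hs
  have := cpoly_coeff (fun i => φ (P i)) i
  rw [h0, Polynomial.coeff_zero] at this
  exact this.symm

/-- `d + 1` edge values determine the polynomial. -/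
theorem Pts.eq_of_card (hp : Pts d y) {P Q : Fin (d + 1) → E} {s : Finset (Bool × Fin d)}
    (hs : d + 1 ≤ s.card) (h : ∀ e ∈ s, edgeVal y P e = edgeVal y Q e) : P = Q :=
  sub_eq_zero.1 (hp.eq_zero_of_card hs fun e he => by rw [edgeVal_sub, h e he, sub_self])

open Classical in
theorem Pts.card_zero_le (hp : Pts d y) {P : Fin (d + 1) → E} (hP : P ≠ 0) :
    (Finset.univ.filter fun e => edgeVal y P e = 0).card ≤ d := by
  by_contra h
  exact hP (hp.eq_zero_of_card (not_le.1 h) fun e he => (Finset.mem_filter.1 he).2)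

/-- A set of more than half of the edges has at least `d + 1` elements. -/
theorem card_of_half_lt {p : Bool × Fin d → Prop} [DecidablePred p] (h : 1 / 2 < frac p) :
    d + 1 ≤ (Finset.univ.filter p).card := by
  rw [frac_eq, Fintype.card_prod, Fintype.card_bool, Fintype.card_fin] at h
  rcases Nat.eq_zero_or_pos d with rfl | hd
  · simp at h
    linarith
  · have hd' : (0 : ℝ) < ((2 * d : ℕ) : ℝ) := by positivity
    rw [lt_div_iff₀ hd'] at h
    push_cast at h
    have : (d : ℝ) < (Finset.univ.filter p).card := by linarith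
    exact_mod_cast this

theorem Pts.eq_of_half_lt (hp : Pts d y) {P Q : Fin (d + 1) → E} {p : Bool × Fin d → Prop}
    (h : 1 / 2 < frac p) (he : ∀ e, p e → edgeVal y P e = edgeVal y Q e) : P = Q := by
  classical
  exact hp.eq_of_card (card_of_half_lt h) fun e h' => he e (Finset.mem_filter.1 h').2

theorem Pts.frac_eq_le (hp : Pts d y) {P Q : Fin (d + 1) → E} (h : P ≠ Q) :
    frac (fun e => edgeVal y P e = edgeVal y Q e) ≤ 1 / 2 := by
  by_contra h1
  exact h (hp.eq_of_half_lt (not_le.1 h1) fun _ h => h)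

theorem nonempty_fin (hd : 0 < d) : Nonempty (Fin d) := ⟨⟨0, hd⟩⟩

theorem Pts.half_le_frac_ne (hp : Pts d y) (hd : 0 < d) {P Q : Fin (d + 1) → E} (h : P ≠ Q) :
    1 / 2 ≤ frac fun e => edgeVal y P e ≠ edgeVal y Q e := by
  have := nonempty_fin hd
  have h1 := hp.frac_eq_le h
  have h2 := frac_not fun e => edgeVal y P e = edgeVal y Q e
  change frac (fun e => edgeVal y P e ≠ edgeVal y Q e) = _ at h2
  linarith

theorem Pts.half_le_frac_ne_zero (hp : Pts d y) (hd : 0 < d) {P : Fin (d + 1) → E} (h : P ≠ 0) :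
    1 / 2 ≤ frac fun e => edgeVal y P e ≠ 0 := by
  simpa using hp.half_le_frac_ne hd h

/-- Polynomials whose edge values agree outside of less than half of the edges are equal. -/
theorem Pts.eq_of_frac_lt (hp : Pts d y) (hd : 0 < d) {P Q : Fin (d + 1) → E}
    {p : Bool × Fin d → Prop} (h : frac p < 1 / 2)
    (he : ∀ e, ¬ p e → edgeVal y P e = edgeVal y Q e) : P = Q := by
  by_contra hn
  have h1 := hp.half_le_frac_ne hd hn
  have h2 : frac (fun e => edgeVal y P e ≠ edgeVal y Q e) ≤ frac p :=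
    frac_mono fun e h' => by_contra fun h'' => h' (he e h'')
  linarith

/-- Interpolation, with coefficients which do not depend on the values. -/
theorem Pts.exists_interp (hp : Pts d y) {s : Finset (Bool × Fin d)} (hs : s.card ≤ d + 1) :
    ∃ c : Bool × Fin d → Fin (d + 1) → F, ∀ (E : Type) [AddCommGroup E] [Module F E]
      (w : Bool × Fin d → E), ∀ e ∈ s, edgeVal y (fun i => ∑ e' ∈ s, c e' i • w e') e = w e := by
  classical
  let x : Bool × Fin d → F := fun e => ((ept e : ℕ) : F)
  have hx : Set.InjOn x s := hp.cast_inj.injOn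
  let c : Bool × Fin d → Fin (d + 1) → F := fun e i =>
    (if e.1 then y else 1)⁻¹ * (Lagrange.basis s x e).coeff i
  have key : ∀ e' ∈ s, ∀ e ∈ s, edgeVal y (c e') e = if e' = e then 1 else 0 := by
    intro e' he' e he
    have hdeg : (Lagrange.basis s x e').natDegree < d + 1 := by
      rw [Lagrange.natDegree_basis hx he']
      have := Finset.card_pos.2 ⟨e', he'⟩
      omega
    have h1 : edgeVal y (c e') e = (if e.1 then y else 1) * (if e'.1 then y else 1)⁻¹ *
        (Lagrange.basis s x e').eval (x e) := by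
      rw [Polynomial.eval_eq_sum_range' hdeg, Finset.sum_range, edgeVal_eq, Finset.mul_sum]
      refine Finset.sum_congr rfl fun i _ => ?_
      simp only [ecf, c, x, smul_eq_mul]
      ring
    rw [h1]
    by_cases h : e' = e
    · subst h
      rw [Lagrange.eval_basis_self hx he', if_pos rfl, mul_inv_cancel₀ (hp.mul_ne _), one_mul]
    · rw [Lagrange.eval_basis_of_ne h he, mul_zero, if_neg h]
  refine ⟨c, fun E _ _ w e he => ?_⟩
  have h2 : (fun i => ∑ e' ∈ s, c e' i • w e') = ∑ e' ∈ s, fun i => c e' i • w e' := by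
    funext i
    rw [Finset.sum_apply]
  rw [h2, edgeVal_sum, Finset.sum_eq_single e]
  · rw [edgeVal_smul_const, key e he e he, if_pos rfl, one_smul]
  · intro e' he' hne
    rw [edgeVal_smul_const, key e' he' e he, if_neg hne, zero_smul]
  · exact fun h => absurd he h

theorem Pts.exists_edgeVal_eq (hp : Pts d y) {s : Finset (Bool × Fin d)} (hs : s.card ≤ d + 1)
    (w : Bool × Fin d → E) : ∃ P : Fin (d + 1) → E, ∀ e ∈ s, edgeVal y P e = w e := by
  obtain ⟨c, hc⟩ := hp.exists_interp hs
  exact ⟨_, hc E w⟩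

theorem Pts.decP_eq (hp : Pts d y) (hd : 0 < d) {P : Fin (d + 1) → E} {w : Bool × Fin d → E}
    (h : frac (fun e => edgeVal y P e ≠ w e) ≤ 1 / 5) : decP y w = P := by
  have hex : ∃ P, frac (fun e => edgeVal y P e ≠ w e) ≤ 1 / 5 := ⟨P, h⟩
  rw [decP, dif_pos hex]
  have h1 := hex.choose_spec
  refine hp.eq_of_frac_lt hd (p := fun e => edgeVal y hex.choose e ≠ w e ∨ edgeVal y P e ≠ w e)
    ((frac_or_le _ _).trans_lt (by linarith)) fun e he => ?_
  simp only [not_or, not_not] at he
  rw [he.1, he.2]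

/-- The same with an exceptional set of edges. -/
theorem Pts.decP_eq_of (hp : Pts d y) (hd : 0 < d) {P : Fin (d + 1) → E} {w : Bool × Fin d → E}
    {p : Bool × Fin d → Prop} (h : frac p ≤ 1 / 5) (he : ∀ e, ¬ p e → w e = edgeVal y P e) :
    decP y w = P :=
  hp.decP_eq hd ((frac_mono fun e h' => by_contra fun h'' => h' (he e h'').symm).trans h)

end Edge

theorem mean_bool_prod {I : Type} [Fintype I] (f : Bool × I → ℝ) :
    mean f = (mean (fun i => f (true, i)) + mean fun i => f (false, i)) / 2 := by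
  rw [mean_prod]
  simp [mean]

theorem frac_bool_prod {I : Type} [Fintype I] (p : Bool × I → Prop) :
    frac p = (frac (fun i => p (true, i)) + frac fun i => p (false, i)) / 2 := by
  rw [frac_prod]
  simp [mean]

theorem frac_bool_prod_le {I : Type} [Fintype I] {p : Bool × I → Prop} {a : ℝ}
    (h : ∀ o, frac (fun i => p (o, i)) ≤ a) : frac p ≤ a := by
  rw [frac_bool_prod]
  linarith [h true, h false]

/-! ### Moves -/

section Moves

variable {Γ H : Type} [AddCommGroup Γ] [Group H] [DistribMulAction H Γ]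

@[simp] theorem gmul_snd (g s : Γ × H) : (gmul g s).2 = g.2 * s.2 := rfl

@[simp] theorem ginv_snd (s : Γ × H) : (ginv s).2 = s.2⁻¹ := rfl

theorem gmul_assoc (g s t : Γ × H) : gmul (gmul g s) t = gmul g (gmul s t) := by
  simp only [gmul, smul_add, mul_smul, add_assoc, mul_assoc]

@[simp] theorem gmul_one (g : Γ × H) : gmul g (0, 1) = g := by simp [gmul]

@[simp] theorem one_gmul (g : Γ × H) : gmul (0, 1) g = g := by simp [gmul]

@[simp] theorem gmul_ginv (s : Γ × H) : gmul s (ginv s) = (0, 1) := by simp [gmul, ginv]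

@[simp] theorem ginv_gmul (s : Γ × H) : gmul (ginv s) s = (0, 1) := by simp [gmul, ginv]

@[simp] theorem ginv_ginv (s : Γ × H) : ginv (ginv s) = s := by simp [ginv]

@[simp] theorem gmul_ginv_cancel (g s : Γ × H) : gmul (gmul g s) (ginv s) = g := by
  rw [gmul_assoc, gmul_ginv, gmul_one]

@[simp] theorem ginv_gmul_cancel (g s : Γ × H) : gmul (gmul g (ginv s)) s = g := by
  rw [gmul_assoc, ginv_gmul, gmul_one]

theorem gmul_bijective (s : Γ × H) : Bijective fun g => gmul g s :=
  bijective_iff_has_inverse.2 ⟨fun g => gmul g (ginv s), fun g => gmul_ginv_cancel g s,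
    fun g => ginv_gmul_cancel g s⟩

theorem gmul_left_bijective (g : Γ × H) : Bijective (gmul g) :=
  bijective_iff_has_inverse.2 ⟨gmul (ginv g), fun s => by rw [← gmul_assoc]; simp,
    fun s => by rw [← gmul_assoc]; simp⟩

variable {d : ℕ}

@[simp] theorem gen2_true (S : Fin d → Γ × H) (i : Fin d) : gen2 S (true, i) = S i := rfl

@[simp] theorem gen2_false (S : Fin d → Γ × H) (i : Fin d) : gen2 S (false, i) = ginv (S i) := rfl

theorem gen2_not (S : Fin d → Γ × H) (e : Bool × Fin d) :
    gen2 S (!e.1, e.2) = ginv (gen2 S e) := by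
  obtain ⟨_ | _, i⟩ := e <;> simp

theorem mvA_mvA (s t : Γ × H) (v : Site Γ H) : mvA t (mvA s v) = mvA (gmul s t) v := by
  simp only [mvA, gmul, smul_add, mul_smul, add_assoc, mul_assoc]

theorem mvB_mvB (s t : Γ × H) (v : Site Γ H) : mvB t (mvB s v) = mvB (gmul s t) v := by
  simp only [mvB, gmul, smul_add, mul_smul, add_assoc, mul_assoc]

@[simp] theorem mvA_one (v : Site Γ H) : mvA (0, 1) v = v := by simp [mvA]

@[simp] theorem mvB_one (v : Site Γ H) : mvB (0, 1) v = v := by simp [mvB]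

@[simp] theorem mvA_ginv_mvA (s : Γ × H) (v : Site Γ H) : mvA (ginv s) (mvA s v) = v := by
  rw [mvA_mvA, gmul_ginv, mvA_one]

@[simp] theorem mvA_mvA_ginv (s : Γ × H) (v : Site Γ H) : mvA s (mvA (ginv s) v) = v := by
  rw [mvA_mvA, ginv_gmul, mvA_one]

@[simp] theorem mvB_ginv_mvB (s : Γ × H) (v : Site Γ H) : mvB (ginv s) (mvB s v) = v := by
  rw [mvB_mvB, gmul_ginv, mvB_one]

@[simp] theorem mvB_mvB_ginv (s : Γ × H) (v : Site Γ H) : mvB s (mvB (ginv s) v) = v := by
  rw [mvB_mvB, ginv_gmul, mvB_one]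

theorem mvA_gen2_not (S : Fin d → Γ × H) (e : Bool × Fin d) (v : Site Γ H) :
    mvA (gen2 S (!e.1, e.2)) (mvA (gen2 S e) v) = v := by rw [gen2_not, mvA_ginv_mvA]

theorem mvB_gen2_not (S : Fin d → Γ × H) (e : Bool × Fin d) (v : Site Γ H) :
    mvB (gen2 S (!e.1, e.2)) (mvB (gen2 S e) v) = v := by rw [gen2_not, mvB_ginv_mvB]

@[simp] theorem mvA_cA (s : Γ × H) (v : Site Γ H) : (mvA s v).2.1 = v.2.1 * s.2 := rfl

@[simp] theorem mvA_cB (s : Γ × H) (v : Site Γ H) : (mvA s v).2.2 = v.2.2 := rfl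

@[simp] theorem mvB_cA (s : Γ × H) (v : Site Γ H) : (mvB s v).2.1 = v.2.1 := rfl

@[simp] theorem mvB_cB (s : Γ × H) (v : Site Γ H) : (mvB s v).2.2 = v.2.2 * s.2 := rfl

@[simp] theorem tau_fst (h : H) (v : Site Γ H) : (tau h v).1 = h • v.1 := rfl

@[simp] theorem tau_cA (h : H) (v : Site Γ H) : (tau h v).2.1 = h * v.2.1 := rfl

@[simp] theorem tau_cB (h : H) (v : Site Γ H) : (tau h v).2.2 = h * v.2.2 := rfl

theorem mvA_mvB (s t : Γ × H) (v : Site Γ H) : mvA s (mvB t v) = mvB t (mvA s v) := by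
  simp only [mvA, mvB, add_right_comm]

theorem tau_mvA (h : H) (s : Γ × H) (v : Site Γ H) : tau h (mvA s v) = mvA s (tau h v) := by
  simp only [tau, mvA, smul_add, mul_smul, mul_assoc]

theorem tau_mvB (h : H) (s : Γ × H) (v : Site Γ H) : tau h (mvB s v) = mvB s (tau h v) := by
  simp only [tau, mvB, smul_add, mul_smul, mul_assoc]

theorem tau_tau (h h' : H) (v : Site Γ H) : tau h (tau h' v) = tau (h * h') v := by
  simp only [tau, mul_smul, mul_assoc]

@[simp] theorem tau_one (v : Site Γ H) : tau 1 v = v := by simp [tau]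

@[simp] theorem tau_inv_tau (h : H) (v : Site Γ H) : tau h⁻¹ (tau h v) = v := by
  rw [tau_tau, inv_mul_cancel, tau_one]

@[simp] theorem tau_tau_inv (h : H) (v : Site Γ H) : tau h (tau h⁻¹ v) = v := by
  rw [tau_tau, mul_inv_cancel, tau_one]

theorem shf_mvA (γ : Γ) (s : Γ × H) (v : Site Γ H) : shf γ (mvA s v) = mvA s (shf γ v) := by
  simp only [shf, mvA, add_right_comm]

theorem shf_mvB (γ : Γ) (s : Γ × H) (v : Site Γ H) : shf γ (mvB s v) = mvB s (shf γ v) := by
  simp only [shf, mvB, add_right_comm]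

theorem tau_shf (h : H) (γ : Γ) (v : Site Γ H) : tau h (shf γ v) = shf (h • γ) (tau h v) := by
  simp only [shf, tau, smul_add]

omit [Group H] [DistribMulAction H Γ] in
theorem shf_shf (γ γ' : Γ) (v : Site Γ H) : shf γ (shf γ' v) = shf (γ' + γ) v := by
  simp only [shf, add_assoc]

omit [Group H] [DistribMulAction H Γ] in
@[simp] theorem shf_zero (v : Site Γ H) : shf 0 v = v := by simp [shf]

theorem mvA_bijective (s : Γ × H) : Bijective (mvA s : Site Γ H → Site Γ H) :=
  bijective_iff_has_inverse.2 ⟨mvA (ginv s), mvA_ginv_mvA s, mvA_mvA_ginv s⟩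

theorem mvB_bijective (s : Γ × H) : Bijective (mvB s : Site Γ H → Site Γ H) :=
  bijective_iff_has_inverse.2 ⟨mvB (ginv s), mvB_ginv_mvB s, mvB_mvB_ginv s⟩

theorem tau_bijective (h : H) : Bijective (tau h : Site Γ H → Site Γ H) :=
  bijective_iff_has_inverse.2 ⟨tau h⁻¹, tau_inv_tau h, tau_tau_inv h⟩

omit [Group H] [DistribMulAction H Γ] in
theorem shf_bijective (γ : Γ) : Bijective (shf γ : Site Γ H → Site Γ H) :=
  bijective_iff_has_inverse.2 ⟨shf (-γ), fun v => by simp [shf_shf], fun v => by simp [shf_shf]⟩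

end Moves

/-! ### Fibres and the exchange of the two graphs -/

/-- the fibre of the first graph over the class `k` of the second one -/
def fibA {Γ H : Type} (k : H) (g : Γ × H) : Site Γ H := (g.1, g.2, k)

/-- the fibre of the second graph over the class `h` of the first one -/
def fibB {Γ H : Type} (h : H) (g : Γ × H) : Site Γ H := (g.1, h, g.2)

/-- exchange of the two classes -/
def sw {Γ H : Type} (v : Site Γ H) : Site Γ H := (v.1, v.2.2, v.2.1)

section Fib

variable {Γ H : Type}

@[simp] theorem fibA_cA (k : H) (g : Γ × H) : (fibA k g).2.1 = g.2 := rfl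
@[simp] theorem fibA_cB (k : H) (g : Γ × H) : (fibA k g).2.2 = k := rfl
@[simp] theorem fibB_cA (h : H) (g : Γ × H) : (fibB h g).2.1 = h := rfl
@[simp] theorem fibB_cB (h : H) (g : Γ × H) : (fibB h g).2.2 = g.2 := rfl
@[simp] theorem fibA_eta (v : Site Γ H) : fibA v.2.2 (v.1, v.2.1) = v := rfl
@[simp] theorem fibB_eta (v : Site Γ H) : fibB v.2.1 (v.1, v.2.2) = v := rfl
@[simp] theorem sw_sw (v : Site Γ H) : sw (sw v) = v := rfl
@[simp] theorem sw_fst (v : Site Γ H) : (sw v).1 = v.1 := rfl
@[simp] theorem sw_cA (v : Site Γ H) : (sw v).2.1 = v.2.2 := rfl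
@[simp] theorem sw_cB (v : Site Γ H) : (sw v).2.2 = v.2.1 := rfl
@[simp] theorem sw_fibA (k : H) (g : Γ × H) : sw (fibA k g) = fibB k g := rfl
@[simp] theorem sw_fibB (k : H) (g : Γ × H) : sw (fibB k g) = fibA k g := rfl

theorem sw_bijective : Bijective (sw : Site Γ H → Site Γ H) :=
  bijective_iff_has_inverse.2 ⟨sw, sw_sw, sw_sw⟩

theorem fibA_bijective : Bijective fun x : H × Γ × H => fibA x.1 x.2 :=
  bijective_iff_has_inverse.2 ⟨fun v => (v.2.2, v.1, v.2.1), fun _ => rfl, fun _ => rfl⟩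

theorem fibB_bijective : Bijective fun x : H × Γ × H => fibB x.1 x.2 :=
  bijective_iff_has_inverse.2 ⟨fun v => (v.2.1, v.1, v.2.2), fun _ => rfl, fun _ => rfl⟩

section

variable [Fintype Γ] [Fintype H]

theorem mean_fibA (f : Site Γ H → ℝ) : mean f = mean fun k => mean fun g => f (fibA k g) := by
  rw [← mean_bij fibA_bijective f, mean_prod]

theorem mean_fibB (f : Site Γ H → ℝ) : mean f = mean fun h => mean fun g => f (fibB h g) := by
  rw [← mean_bij fibB_bijective f, mean_prod]

theorem frac_fibA (p : Site Γ H → Prop) : frac p = mean fun k => frac fun g => p (fibA k g) := by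
  rw [← frac_bij fibA_bijective p, frac_prod]

theorem frac_fibB (p : Site Γ H → Prop) : frac p = mean fun h => frac fun g => p (fibB h g) := by
  rw [← frac_bij fibB_bijective p, frac_prod]

theorem mean_sw (f : Site Γ H → ℝ) : mean (fun v => f (sw v)) = mean f := mean_bij sw_bijective f

theorem frac_sw (p : Site Γ H → Prop) : frac (fun v => p (sw v)) = frac p :=
  frac_bij sw_bijective p

theorem frac_cA [Nonempty Γ] [Nonempty H] (Z : H → Prop) :
    frac (fun v : Site Γ H => Z v.2.1) = frac Z :=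
  (frac_snd fun x : H × H => Z x.1).trans (frac_fst Z)

theorem frac_cB [Nonempty Γ] [Nonempty H] (Z : H → Prop) :
    frac (fun v : Site Γ H => Z v.2.2) = frac Z :=
  (frac_snd fun x : H × H => Z x.2).trans (frac_snd Z)

/-- few first classes have a dense fibre -/
theorem frac_heavyB_le (p : Site Γ H → Prop) {t : ℝ} (ht : 0 < t) :
    frac (fun h => t ≤ frac fun g => p (fibB h g)) ≤ frac p / t :=
  markov (fun _ => frac_nonneg _) ht (frac_fibB p).ge

/-- few second classes have a dense fibre -/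
theorem frac_heavyA_le (p : Site Γ H → Prop) {t : ℝ} (ht : 0 < t) :
    frac (fun k => t ≤ frac fun g => p (fibA k g)) ≤ frac p / t :=
  markov (fun _ => frac_nonneg _) ht (frac_fibA p).ge

end

variable [AddCommGroup Γ] [Group H] [DistribMulAction H Γ]

theorem mvA_fibA (s : Γ × H) (k : H) (g : Γ × H) : mvA s (fibA k g) = fibA k (gmul g s) := rfl

theorem mvB_fibB (s : Γ × H) (h : H) (g : Γ × H) : mvB s (fibB h g) = fibB h (gmul g s) := rfl

theorem sw_mvA (s : Γ × H) (v : Site Γ H) : sw (mvA s v) = mvB s (sw v) := rfl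

theorem sw_mvB (s : Γ × H) (v : Site Γ H) : sw (mvB s v) = mvA s (sw v) := rfl

theorem sw_tau (h : H) (v : Site Γ H) : sw (tau h v) = tau h (sw v) := rfl

variable {F : Type} [Field F] {E : Type} [AddCommGroup E] [Module F E] {dA dB : ℕ}

/-- the code with the two graphs exchanged -/
def Mem.swap (μ : Mem Γ H F dA dB) : Mem Γ H F dB dA := ⟨μ.SB, μ.SA, μ.yB, μ.yA⟩

/-- the word with the two graphs exchanged -/
def swX (X : Site Γ H → View dA dB E) : Site Γ H → View dB dA E := fun v => (X (sw v)).tr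

namespace Mem

variable {μ : Mem Γ H F dA dB} {X Y : Site Γ H → View dA dB E} {ZA ZB : H → Prop}

theorem Ok.swap [Fintype Γ] [Fintype H] {lA lB : ℝ} (h : μ.Ok lA lB) : μ.swap.Ok lB lA :=
  ⟨h.posB, h.posA, h.specB, h.specA, h.ptsB, h.ptsA⟩

theorem edgeA_swap (v : Site Γ H) (s : Fin dB) :
    μ.swap.EdgeA (swX X) v s ↔ μ.EdgeB X (sw v) s := Iff.rfl

theorem edgeB_swap (v : Site Γ H) (s : Fin dA) :
    μ.swap.EdgeB (swX X) v s ↔ μ.EdgeA X (sw v) s := Iff.rfl

theorem Cons.swap (h : μ.Cons X) : μ.swap.Cons (swX X) := fun v => ⟨(h (sw v)).2, (h (sw v)).1⟩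

theorem ConsOn.swap (h : μ.ConsOn ZA ZB X) : μ.swap.ConsOn ZB ZA (swX X) :=
  fun v h1 h2 => ⟨(h (sw v) h2 h1).2, (h (sw v) h2 h1).1⟩

theorem Cons.consOn (h : μ.Cons X) (ZA ZB : H → Prop) : μ.ConsOn ZA ZB X :=
  fun v _ _ => ⟨fun s _ => (h v).1 s, fun s _ => (h v).2 s⟩

theorem cons_iff : μ.Cons X ↔ μ.ConsOn (fun _ => False) (fun _ => False) X :=
  ⟨fun h => h.consOn _ _, fun h v => ⟨fun s => (h v id id).1 s id, fun s => (h v id id).2 s id⟩⟩

theorem ConsOn.mono {ZA' ZB' : H → Prop} (h : μ.ConsOn ZA ZB X) (hA : ∀ x, ZA x → ZA' x)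
    (hB : ∀ x, ZB x → ZB' x) : μ.ConsOn ZA' ZB' X := fun v h1 h2 =>
  have h3 := h v (fun h => h1 (hA _ h)) fun h => h2 (hB _ h)
  ⟨fun s hs => h3.1 s fun h => hs (hA _ h), fun s hs => h3.2 s fun h => hs (hB _ h)⟩

theorem EdgeA.sub {v : Site Γ H} {s : Fin dA} (h : μ.EdgeA X v s) (h' : μ.EdgeA Y v s) :
    μ.EdgeA (X - Y) v s := by
  unfold EdgeA at *
  simp only [Pi.sub_apply, edgeVal_sub, h, h']

theorem EdgeB.sub {v : Site Γ H} {s : Fin dB} (h : μ.EdgeB X v s) (h' : μ.EdgeB Y v s) :
    μ.EdgeB (X - Y) v s := by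
  unfold EdgeB at *
  simp only [Pi.sub_apply, View.tr_sub, edgeVal_sub, h, h']

theorem ConsOn.sub (h : μ.ConsOn ZA ZB X) (h' : μ.ConsOn ZA ZB Y) : μ.ConsOn ZA ZB (X - Y) :=
  fun v h1 h2 => ⟨fun s hs => ((h v h1 h2).1 s hs).sub ((h' v h1 h2).1 s hs),
    fun s hs => ((h v h1 h2).2 s hs).sub ((h' v h1 h2).2 s hs)⟩

theorem Cons.sub (h : μ.Cons X) (h' : μ.Cons Y) : μ.Cons (X - Y) :=
  fun v => ⟨fun s => ((h v).1 s).sub ((h' v).1 s), fun s => ((h v).2 s).sub ((h' v).2 s)⟩

theorem Cons.tau (h : μ.Cons X) (a : H) : μ.Cons fun v => X (tau a v) := fun v =>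
  ⟨fun s => by simpa only [EdgeA, tau_mvA] using (h (Outer.tau a v)).1 s,
    fun s => by simpa only [EdgeB, tau_mvB] using (h (Outer.tau a v)).2 s⟩

theorem Cons.shf (h : μ.Cons X) (γ : Γ) : μ.Cons fun v => X (shf γ v) := fun v =>
  ⟨fun s => by simpa only [EdgeA, shf_mvA] using (h (Outer.shf γ v)).1 s,
    fun s => by simpa only [EdgeB, shf_mvB] using (h (Outer.shf γ v)).2 s⟩

theorem ConsOn.tau (h : μ.ConsOn ZA ZB X) (a : H) :
    μ.ConsOn (fun x => ZA (a * x)) (fun x => ZB (a * x)) fun v => X (tau a v) := fun v h1 h2 =>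
  ⟨fun s hs => by
      simpa only [EdgeA, tau_mvA] using
        (h (Outer.tau a v) h1 h2).1 s (by simpa only [tau_cA, mul_assoc] using hs),
    fun s hs => by
      simpa only [EdgeB, tau_mvB] using
        (h (Outer.tau a v) h1 h2).2 s (by simpa only [tau_cB, mul_assoc] using hs)⟩

/-- the edge equation of the first graph, for both orientations -/
theorem ConsOn.edgeA (h : μ.ConsOn ZA ZB X) {v : Site Γ H} (h1 : ¬ ZA v.2.1) (h2 : ¬ ZB v.2.2)
    (e : Bool × Fin dA) (h3 : ¬ ZA (v.2.1 * (gen2 μ.SA e).2)) :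
    edgeVal μ.yA (X v) e = edgeVal μ.yA (X (mvA (gen2 μ.SA e) v)) (!e.1, e.2) := by
  obtain ⟨_ | _, s⟩ := e
  · have := (h (mvA (ginv (μ.SA s)) v) h3 h2).1 s (by simpa using h1)
    rw [EdgeA, mvA_mvA_ginv] at this
    exact this.symm
  · exact (h v h1 h2).1 s h3

/-- the edge equation of the second graph, for both orientations -/
theorem ConsOn.edgeB (h : μ.ConsOn ZA ZB X) {v : Site Γ H} (h1 : ¬ ZA v.2.1) (h2 : ¬ ZB v.2.2)
    (e : Bool × Fin dB) (h3 : ¬ ZB (v.2.2 * (gen2 μ.SB e).2)) :
    edgeVal μ.yB (X v).tr e = edgeVal μ.yB (X (mvB (gen2 μ.SB e) v)).tr (!e.1, e.2) :=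
  h.swap.edgeA (v := sw v) h2 h1 e h3

theorem Cons.edgeA (h : μ.Cons X) (v : Site Γ H) (e : Bool × Fin dA) :
    edgeVal μ.yA (X v) e = edgeVal μ.yA (X (mvA (gen2 μ.SA e) v)) (!e.1, e.2) :=
  (cons_iff.1 h).edgeA id id e id

theorem Cons.edgeB (h : μ.Cons X) (v : Site Γ H) (e : Bool × Fin dB) :
    edgeVal μ.yB (X v).tr e = edgeVal μ.yB (X (mvB (gen2 μ.SB e) v)).tr (!e.1, e.2) :=
  (cons_iff.1 h).edgeB id id e id

end Mem

theorem Sparse.both {d : ℕ} {η : ℝ} {S : Fin d → Γ × H} {Z : H → Prop} (h : Sparse η S Z) {x : H}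
    (hx : ¬ Z x) : frac (fun e : Bool × Fin d => Z (x * (gen2 S e).2)) ≤ η :=
  frac_bool_prod_le fun o => h x o hx

theorem Sparse.mono {d : ℕ} {η η' : ℝ} {S : Fin d → Γ × H} {Z : H → Prop} (h : Sparse η S Z)
    (hη : η ≤ η') : Sparse η' S Z := fun x o hx => (h x o hx).trans hη

theorem Sparse.mul_left {d : ℕ} {η : ℝ} {S : Fin d → Γ × H} {Z : H → Prop} (h : Sparse η S Z)
    (a : H) : Sparse η S fun x => Z (a * x) := fun x o hx => by
  simpa only [mul_assoc] using h (a * x) o hx

theorem Sparse.or {d : ℕ} {η η' : ℝ} {S : Fin d → Γ × H} {Z Z' : H → Prop} (h : Sparse η S Z)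
    (h' : Sparse η' S Z') : Sparse (η + η') S fun x => Z x ∨ Z' x := fun x o hx =>
  (frac_or_le _ _).trans (add_le_add (h x o fun e => hx (Or.inl e)) (h' x o fun e => hx (Or.inr e)))

theorem sparse_false {d : ℕ} (S : Fin d → Γ × H) : Sparse 0 S fun _ => False :=
  fun _ _ _ => frac_false.le

end Fib

/-! ### Mixing -/

/-- A regular graph, given by bijections, whose averaging operator has norm at most `lam` on
functions with mean zero. -/
structure Spec {V I : Type} [Fintype V] [Fintype I] (lam : ℝ) (nb : V → I → V) : Prop where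
  neV : Nonempty V
  neI : Nonempty I
  nonneg : 0 ≤ lam
  bij : ∀ i, Bijective fun v => nb v i
  le : ∀ f : V → ℝ, mean f = 0 →
    mean (fun v => mean (fun i => f (nb v i)) ^ 2) ≤ lam ^ 2 * mean fun v => f v ^ 2

theorem mean_mul_le_sqrt {V : Type} [Fintype V] (f g : V → ℝ) :
    mean (fun v => f v * g v) ≤ √(mean fun v => f v ^ 2) * √(mean fun v => g v ^ 2) := by
  have h := Real.sum_mul_le_sqrt_mul_sqrt Finset.univ f g
  unfold mean
  rw [Real.sqrt_div' _ (Nat.cast_nonneg _), Real.sqrt_div' _ (Nat.cast_nonneg _), div_mul_div_comm,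
    Real.mul_self_sqrt (Nat.cast_nonneg _)]
  exact div_le_div_of_nonneg_right h (Nat.cast_nonneg _)

theorem mean_var {V : Type} [Fintype V] [Nonempty V] (f : V → ℝ) :
    mean (fun v => (f v - mean f) ^ 2) = mean (fun v => f v ^ 2) - mean f ^ 2 := by
  have : ∀ v, (f v - mean f) ^ 2 = f v ^ 2 - 2 * mean f * f v + mean f ^ 2 := fun v => by ring
  simp only [this]
  rw [mean_add, mean_sub, mean_const_mul, mean_const]
  ring

open Classical in
theorem mean_ind_sq {V : Type} [Fintype V] (U : V → Prop) :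
    mean (fun v => (if U v then (1 : ℝ) else 0) ^ 2) = frac U := by
  rw [frac_eq_mean]
  exact mean_congr fun v => by split_ifs <;> norm_num

open Classical in
/-- Splitting the event that two values agree according to the common value. -/
theorem frac_eq_sum_classes {C Y : Type} [Fintype C] (a b : C → Y) (s : Finset Y)
    (hs : ∀ c, a c ∈ s) : frac (fun c => a c = b c) = ∑ y ∈ s, frac fun c => a c = y ∧ b c = y := by
  simp only [frac_eq_mean]
  rw [← mean_sum]
  refine mean_congr fun c => ?_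
  rw [Finset.sum_eq_single (a c)]
  · simp [eq_comm]
  · intro y _ hy
    rw [if_neg fun h => hy h.1.symm]
  · exact fun h => absurd (hs c) h

namespace Spec

variable {V I : Type} [Fintype V] [Fintype I] {lam : ℝ} {nb : V → I → V}

theorem mono (h : Spec lam nb) {lam' : ℝ} (hl : lam ≤ lam') : Spec lam' nb :=
  ⟨h.neV, h.neI, h.nonneg.trans hl, h.bij, fun f hf => (h.le f hf).trans
    (mul_le_mul_of_nonneg_right (pow_le_pow_left₀ h.nonneg hl 2)
      (mean_nonneg fun _ => sq_nonneg _))⟩

theorem mean_avg (h : Spec lam nb) (f : V → ℝ) :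
    mean (fun v => mean fun i => f (nb v i)) = mean f := by
  have := h.neI
  rw [mean_comm]
  simp only [mean_bij (h.bij _) f, mean_const]

theorem mean_frac (h : Spec lam nb) (U : V → Prop) :
    mean (fun v => frac fun i => U (nb v i)) = frac U := by
  have := h.neI
  rw [mean_frac_comm]
  simp only [frac_bij (h.bij _) U, mean_const]

theorem frac_nb (h : Spec lam nb) (U : V → Prop) :
    frac (fun x : V × I => U (nb x.1 x.2)) = frac U := by
  rw [frac_prod]
  exact h.mean_frac U

theorem var_le (h : Spec lam nb) (f : V → ℝ) :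
    mean (fun v => (mean (fun i => f (nb v i)) - mean f) ^ 2) ≤
      lam ^ 2 * (mean (fun v => f v ^ 2) - mean f ^ 2) := by
  have := h.neV
  have := h.neI
  have h1 := h.le (fun v => f v - mean f) (by rw [mean_sub, mean_const, sub_self])
  rw [mean_var] at h1
  simpa only [mean_sub, mean_const] using h1

theorem var_frac_le (h : Spec lam nb) (U : V → Prop) :
    mean (fun v => (frac (fun i => U (nb v i)) - frac U) ^ 2) ≤
      lam ^ 2 * (frac U - frac U ^ 2) := by
  classical
  have h1 := h.var_le fun v => if U v then 1 else 0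
  rw [mean_ind_sq] at h1
  simpa only [← frac_eq_mean] using h1

/-- Few vertices have many neighbours in a small set. -/
theorem tail (h : Spec lam nb) (U : V → Prop) {η : ℝ} (hη : frac U < η) :
    frac (fun v => η ≤ frac fun i => U (nb v i)) ≤ lam ^ 2 * frac U / (η - frac U) ^ 2 := by
  have h0 : 0 < η - frac U := sub_pos.2 hη
  refine frac_le_markov (f := fun v => (frac (fun i => U (nb v i)) - frac U) ^ 2)
    (fun _ => sq_nonneg _) (by positivity) (fun v hv => ?_) ((h.var_frac_le U).trans ?_)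
  · exact pow_le_pow_left₀ h0.le (by linarith) 2
  · exact mul_le_mul_of_nonneg_left (by nlinarith [sq_nonneg (frac U)]) (sq_nonneg _)

theorem tail_lt (h : Spec lam nb) (U : V → Prop) {η : ℝ} (hη : frac U < η) :
    frac (fun v => η < frac fun i => U (nb v i)) ≤ lam ^ 2 * frac U / (η - frac U) ^ 2 :=
  (frac_mono fun _ hv => hv.le).trans (h.tail U hη)

/-- The convenient form: a set of density at most `η / 2`. -/
theorem tail_half (h : Spec lam nb) (U : V → Prop) {η : ℝ} (h0 : 0 < η) (hη : frac U ≤ η / 2) :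
    frac (fun v => η ≤ frac fun i => U (nb v i)) ≤ 4 * lam ^ 2 / η ^ 2 * frac U := by
  refine (h.tail U (by linarith)).trans ?_
  have h1 : (η / 2) ^ 2 ≤ (η - frac U) ^ 2 := pow_le_pow_left₀ (by positivity) (by linarith) 2
  have h2 : 0 ≤ lam ^ 2 * frac U := mul_nonneg (sq_nonneg _) (frac_nonneg _)
  refine (div_le_div_of_nonneg_left h2 (by positivity) h1).trans (le_of_eq ?_)
  field_simp
  ring

theorem mix (h : Spec lam nb) (f g : V → ℝ) :
    mean (fun v => f v * mean fun i => g (nb v i)) ≤ mean f * mean g +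
      lam * (√(mean (fun v => f v ^ 2) - mean f ^ 2) * √(mean (fun v => g v ^ 2) - mean g ^ 2)) := by
  have := h.neV
  have h1 := mean_mul_le_sqrt (fun v => f v - mean f) fun v => mean (fun i => g (nb v i)) - mean g
  rw [mean_var] at h1
  have h2 := Real.sqrt_le_sqrt (h.var_le g)
  rw [Real.sqrt_mul (sq_nonneg _), Real.sqrt_sq h.nonneg] at h2
  have h3 : ∀ v, (f v - mean f) * (mean (fun i => g (nb v i)) - mean g) =
      (f v * mean fun i => g (nb v i)) - mean f * mean (fun i => g (nb v i)) - mean g * f v +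
        mean f * mean g := fun v => by ring
  simp only [h3] at h1
  rw [mean_add, mean_sub, mean_sub, mean_const_mul, mean_const_mul, mean_const, h.mean_avg] at h1
  have h4 := mul_le_mul_of_nonneg_left h2
    (Real.sqrt_nonneg (mean (fun v => f v ^ 2) - mean f ^ 2))
  nlinarith

/-- expander mixing for two sets -/
theorem mix_frac (h : Spec lam nb) (U W : V → Prop) :
    frac (fun x : V × I => U x.1 ∧ W (nb x.1 x.2)) ≤ frac U * frac W +
      lam * (√(frac U - frac U ^ 2) * √(frac W - frac W ^ 2)) := by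
  classical
  have h1 := h.mix (fun v => if U v then 1 else 0) fun v => if W v then 1 else 0
  rw [mean_ind_sq, mean_ind_sq] at h1
  simp only [← frac_eq_mean] at h1
  refine le_trans (le_of_eq ?_) h1
  rw [frac_prod]
  refine mean_congr fun v => ?_
  by_cases hv : U v <;> simp [hv]

theorem mix_self (h : Spec lam nb) (U : V → Prop) :
    frac (fun x : V × I => U x.1 ∧ U (nb x.1 x.2)) ≤ frac U ^ 2 + lam * (frac U - frac U ^ 2) := by
  have h1 := h.mix_frac U U
  have h2 : 0 ≤ frac U - frac U ^ 2 := by nlinarith [frac_nonneg U, frac_le_one U]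
  rwa [Real.mul_self_sqrt h2, ← sq] at h1

/-- A set whose elements have many neighbours in it is empty or dense. -/
theorem dense (h : Spec lam nb) {U : V → Prop} {a : ℝ}
    (hU : ∀ v, U v → a ≤ frac fun i => U (nb v i)) {v : V} (hv : U v) : a - lam ≤ frac U := by
  classical
  have h1 := h.mix_self U
  have h2 : a * frac U ≤ frac fun x : V × I => U x.1 ∧ U (nb x.1 x.2) := by
    rw [frac_prod]
    refine frac_mul_le_mean (fun _ => frac_nonneg _) fun c hc => ?_
    simpa only [hc, true_and] using hU c hc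
  have h3 := frac_pos hv
  have h4 := h.nonneg
  by_contra h5
  have h6 : frac U * frac U < (a - lam) * frac U := mul_lt_mul_of_pos_right (not_le.1 h5) h3
  nlinarith [mul_nonneg h4 (sq_nonneg (frac U))]

/-- Poincare inequality for arbitrary values. -/
theorem classes (h : Spec lam nb) {Y : Type} (κ : V → Y) :
    (1 - lam) * frac (fun x : V × V => κ x.1 ≠ κ x.2) ≤
      frac fun x : V × I => κ x.1 ≠ κ (nb x.1 x.2) := by
  classical
  have := h.neV
  have := h.neI
  have hs : ∀ v, κ v ∈ Finset.univ.image κ := fun v => Finset.mem_image_of_mem _ (Finset.mem_univ v)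
  have h1 := frac_not fun x : V × V => κ x.1 = κ x.2
  have h2 := frac_not fun x : V × I => κ x.1 = κ (nb x.1 x.2)
  have h3 := frac_eq_sum_classes (fun x : V × V => κ x.1) (fun x => κ x.2) _ fun x => hs x.1
  have h4 := frac_eq_sum_classes (fun x : V × I => κ x.1) (fun x => κ (nb x.1 x.2)) _
    fun x => hs x.1
  have h5 := frac_eq_sum_classes κ κ _ hs
  rw [frac_eq_one fun _ => rfl] at h5
  simp only [and_self] at h5
  have h6 : ∀ y, frac (fun x : V × V => κ x.1 = y ∧ κ x.2 = y) = frac (fun v => κ v = y) ^ 2 :=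
    fun y => by rw [frac_and_prod (fun v => κ v = y) fun v => κ v = y, sq]
  simp only [h6] at h3
  have h7 := Finset.sum_le_sum fun y (_ : y ∈ Finset.univ.image κ) => h.mix_self fun v => κ v = y
  rw [Finset.sum_add_distrib, ← Finset.mul_sum, Finset.sum_sub_distrib, ← h3, ← h4, ← h5] at h7
  change frac (fun x : V × V => κ x.1 ≠ κ x.2) = _ at h1
  change frac (fun x : V × I => κ x.1 ≠ κ (nb x.1 x.2)) = _ at h2
  rw [h1, h2]
  nlinarith

/-- the union of two graphs -/
theorem bool {nb : V → Bool × I → V} (h : ∀ o, Spec lam fun v i => nb v (o, i)) : Spec lam nb := by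
  have := (h true).neI
  refine ⟨(h true).neV, inferInstance, (h true).nonneg, fun e => (h e.1).bij e.2, fun f hf => ?_⟩
  have h1 := (h true).le f hf
  have h2 := (h false).le f hf
  have h3 : mean (fun v => mean (fun e => f (nb v e)) ^ 2) ≤
      mean fun v => (mean (fun i => f (nb v (true, i))) ^ 2 +
        mean (fun i => f (nb v (false, i))) ^ 2) / 2 := mean_mono fun v => by
    rw [mean_bool_prod]
    nlinarith [sq_nonneg (mean (fun i => f (nb v (true, i))) - mean fun i => f (nb v (false, i)))]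
  rw [mean_div_const, mean_add] at h3
  linarith

end Spec

section Grp

variable {Γ H : Type} [AddCommGroup Γ] [Group H] [DistribMulAction H Γ] [Fintype Γ] [Fintype H]
  {d : ℕ} {lam : ℝ} {S : Fin d → Γ × H}

/-- the Cayley graph with one orientation -/
theorem GSpec.spec (h : GSpec lam S) (hd : 0 < d) (hl : 0 ≤ lam) (o : Bool) :
    Spec lam fun g i => gmul g (gen2 S (o, i)) :=
  ⟨⟨(0, 1)⟩, nonempty_fin hd, hl, fun _ => gmul_bijective _, h o⟩

/-- the Cayley graph with both orientations -/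
theorem GSpec.spec2 (h : GSpec lam S) (hd : 0 < d) (hl : 0 ≤ lam) :
    Spec lam fun g e => gmul g (gen2 S e) := Spec.bool (h.spec hd hl)

/-- the quotient graph on the classes, one orientation -/
theorem GSpec.specH (h : GSpec lam S) (hd : 0 < d) (hl : 0 ≤ lam) (o : Bool) :
    Spec lam fun (x : H) i => x * (gen2 S (o, i)).2 := by
  refine ⟨⟨1⟩, nonempty_fin hd, hl, fun _ => Group.mulRight_bijective _, fun f hf => ?_⟩
  have h1 := h o (fun g => f g.2) (by rw [mean_snd, hf])
  simp only [gmul_snd] at h1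
  rwa [mean_snd fun x => mean (fun i => f (x * (gen2 S (o, i)).2)) ^ 2,
    mean_snd fun x => f x ^ 2] at h1

/-- the quotient graph on the classes, both orientations -/
theorem GSpec.specH2 (h : GSpec lam S) (hd : 0 < d) (hl : 0 ≤ lam) :
    Spec lam fun (x : H) e => x * (gen2 S e).2 := Spec.bool (h.specH hd hl)

theorem GSpec.mono (h : GSpec lam S) (hl : 0 ≤ lam) {lam' : ℝ} (hl' : lam ≤ lam') : GSpec lam' S :=
  fun o f hf => (h o f hf).trans (mul_le_mul_of_nonneg_right (pow_le_pow_left₀ hl hl' 2)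
    (mean_nonneg fun _ => sq_nonneg _))

theorem Mem.Ok.mono {F : Type} [Field F] {dA dB : ℕ} {μ : Mem Γ H F dA dB} {lA lB lA' lB' : ℝ}
    (h : μ.Ok lA lB) (h0 : 0 ≤ lA) (h0' : 0 ≤ lB) (hA : lA ≤ lA') (hB : lB ≤ lB') : μ.Ok lA' lB' :=
  ⟨h.posA, h.posB, h.specA.mono h0 hA, h.specB.mono h0' hB, h.ptsA, h.ptsB⟩

/-- Distance of the code of one Cayley graph, also outside of dead classes. -/
theorem GSpec.dist {F : Type} [Field F] {E : Type} [AddCommGroup E] [Module F E] {y : F}
    (h : GSpec lam S) (hd : 0 < d) (hl : 0 ≤ lam) (hp : Pts d y) {η : ℝ} {Z : H → Prop}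
    (hZ : Sparse η S Z) {P : Γ × H → Fin (d + 1) → E}
    (hP : ∀ g s, ¬ Z g.2 → ¬ Z (g.2 * (S s).2) →
      edgeVal y (P g) (true, s) = edgeVal y (P (gmul g (S s))) (false, s))
    {g : Γ × H} (hg : ¬ Z g.2) (h0 : P g ≠ 0) :
    1 / 2 - η - lam ≤ frac fun g => ¬ Z g.2 ∧ P g ≠ 0 := by
  refine (h.spec2 hd hl).dense (U := fun g => ¬ Z g.2 ∧ P g ≠ 0) (fun g hg => ?_) ⟨hg, h0⟩
  have h1 := hp.half_le_frac_ne_zero hd hg.2
  have h2 := hZ.both hg.1
  have h3 := frac_le_add (p := fun e => edgeVal y (P g) e ≠ 0)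
    (q := fun e => Z (g.2 * (gen2 S e).2))
    (r := fun e => ¬ Z (gmul g (gen2 S e)).2 ∧ P (gmul g (gen2 S e)) ≠ 0) fun e he => by
      by_cases hz : Z (g.2 * (gen2 S e).2)
      · exact Or.inl hz
      · refine Or.inr ⟨hz, ne_zero_of_edgeVal (y := y) (e := (!e.1, e.2)) ?_⟩
        obtain ⟨_ | _, s⟩ := e
        · have := hP (gmul g (ginv (S s))) s hz (by simpa using hg.1)
          rw [ginv_gmul_cancel] at this
          exact fun h' => he (this.symm.trans h')
        · exact fun h' => he ((hP g s hg.1 hz).trans h')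
  linarith

omit [AddCommGroup Γ] [DistribMulAction H Γ] [Fintype Γ] in
/-- The Poincare inequality for arbitrary values. -/
theorem HPoinc.classes {a : ℕ} {γ : ℝ} {gen : Fin a → H} (h : HPoinc γ gen) {Y : Type}
    (κ : H → Y) :
    γ * frac (fun x : H × H => κ x.1 ≠ κ x.2) ≤ ∑ i, frac fun x => κ x ≠ κ (gen i * x) := by
  classical
  have hs : ∀ v, κ v ∈ Finset.univ.image κ := fun v => Finset.mem_image_of_mem _ (Finset.mem_univ v)
  have key : ∀ {C : Type} [Fintype C] (a b : C → H), ∑ y ∈ Finset.univ.image κ,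
      mean (fun c => ((if κ (a c) = y then (1 : ℝ) else 0) - if κ (b c) = y then 1 else 0) ^ 2) =
        2 * frac fun c => κ (a c) ≠ κ (b c) := by
    intro C _ a b
    rw [← mean_sum, frac_eq_mean, ← mean_const_mul]
    refine mean_congr fun c => ?_
    by_cases hc : κ (a c) = κ (b c)
    · simp [hc]
    · rw [if_pos hc, ← Finset.sum_subset (s₁ := {κ (a c), κ (b c)}), Finset.sum_pair hc]
      · simp [hc, Ne.symm hc]
        norm_num
      · intro y hy
        rcases Finset.mem_insert.1 hy with rfl | hy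
        · exact hs _
        · rw [Finset.mem_singleton.1 hy]
          exact hs _
      · intro y _ hy
        simp only [Finset.mem_insert, Finset.mem_singleton, not_or] at hy
        rw [if_neg (Ne.symm hy.1), if_neg (Ne.symm hy.2)]
        simp
  have h1 := Finset.sum_le_sum fun y (_ : y ∈ Finset.univ.image κ) =>
    h fun x => if κ x = y then 1 else 0
  rw [← Finset.mul_sum, key Prod.fst Prod.snd, Finset.sum_comm] at h1
  simp only [key (fun x => x) fun x => gen _ * x] at h1
  rw [← Finset.mul_sum] at h1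
  linarith

omit [AddCommGroup Γ] [DistribMulAction H Γ] [Fintype Γ] in
/-- A function invariant under left multiplication by the generators is constant. -/
theorem HPoinc.const {a : ℕ} {γ : ℝ} {gen : Fin a → H} (h : HPoinc γ gen) (hγ : 0 < γ) {Y : Type}
    {κ : H → Y} (hκ : ∀ i x, κ (gen i * x) = κ x) (x x' : H) : κ x = κ x' := by
  have h1 := h.classes κ
  rw [Finset.sum_eq_zero fun i _ => frac_eq_zero fun x hx => hx (hκ i x).symm] at h1
  have h2 : frac (fun x : H × H => κ x.1 ≠ κ x.2) ≤ 0 := by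
    by_contra h3
    nlinarith [mul_pos hγ (not_le.1 h3)]
  exact not_not.1 (not_of_frac_le_zero h2 (x, x'))

omit [AddCommGroup Γ] [DistribMulAction H Γ] [Fintype Γ] in
/-- A function invariant under right multiplication by the generators is constant. -/
theorem HPoinc.const_right {a : ℕ} {γ : ℝ} {gen : Fin a → H} (h : HPoinc γ gen) (hγ : 0 < γ)
    {Y : Type} {κ : H → Y} (hκ : ∀ i x, κ (x * gen i) = κ x) (x x' : H) : κ x = κ x' := by
  have := h.const hγ (κ := fun x => κ x⁻¹) (fun i x => by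
    rw [← hκ i, mul_inv_rev, inv_mul_cancel_right]) x⁻¹ x'⁻¹
  simpa using this

omit [AddCommGroup Γ] [DistribMulAction H Γ] [Fintype Γ] in
/-- A nonempty set closed under left multiplication by the generators is everything. -/
theorem HPoinc.induct {a : ℕ} {γ : ℝ} {gen : Fin a → H} (h : HPoinc γ gen) (hγ : 0 < γ)
    {p : H → Prop} (hp : ∀ i x, p x → p (gen i * x)) {x : H} (hx : p x) (x' : H) : p x' := by
  refine (h.const hγ (κ := p) (fun i x => propext ⟨fun h1 => ?_, hp i x⟩) x x') ▸ hx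
  have h2 : ∀ n : ℕ, p (gen i ^ n * (gen i * x)) := fun n => by
    induction n with
    | zero => simpa using h1
    | succ n ih => rw [pow_succ', mul_assoc]; exact hp i _ ih
  have h3 := h2 (orderOf (gen i) - 1)
  rwa [← mul_assoc, ← pow_succ, Nat.sub_add_cancel (orderOf_pos _), pow_orderOf_eq_one,
    one_mul] at h3

end Grp

end Vale.Agent.P330.Outer
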