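import Vale.Agent.P330.Outer.Defs

/-!
P330, outer system: the program of the vector machine which evaluates four families of local
rules on the cube (routing networks, products of literals, sums), and its semantics.
-/

namespace Vale.Agent.P330.Outer.VMP

open Vale.Agent.Lib.PolyTime hiding C P
open Vale.Agent.Lib.Dep
open Vale.Agent.P330.Bohr

/-- the number of the register: step `s`, family `f`, lane `r`, offset `o` -/
def pos (P s f r o : ℕ) : ℕ := ((s * 4 + f) * P + r) * 5 + o

theorem pos_lt_step {P s s' f f' r r' o o' : ℕ} (hs : s < s') (hf : f < 4) (hr : r < P)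
    (ho : o < 5) : pos P s f r o < pos P s' f' r' o' := by
  unfold pos
  have h1 : (s * 4 + f + 1) * P ≤ (s' * 4 + f') * P := Nat.mul_le_mul_right _ (by omega)
  rw [add_mul _ 1, one_mul] at h1
  omega

theorem pos_lt_off {P s f r o o' : ℕ} (ho : o < o') : pos P s f r o < pos P s f r o' := by
  unfold pos
  omega

theorem pos_pos {P s f r o : ℕ} (hP : 0 < P) (h : 0 < s ∨ 0 < o) : 0 < pos P s f r o := by
  unfold pos
  rcases h with h | h
  · have : 0 < (s * 4 + f) * P := Nat.mul_pos (by omega) hP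
    omega
  · omega

theorem pos_dec {P s f r o : ℕ} (hf : f < 4) (hr : r < P) (ho : o < 5) :
    pos P s f r o / 5 / P / 4 = s ∧ pos P s f r o / 5 / P % 4 = f ∧ pos P s f r o / 5 % P = r ∧
      pos P s f r o % 5 = o := by
  have h1 : pos P s f r o / 5 = (s * 4 + f) * P + r := by unfold pos; omega
  have h2 : ((s * 4 + f) * P + r) / P = s * 4 + f := by
    rw [add_comm, Nat.add_mul_div_right _ _ (by omega), Nat.div_eq_of_lt hr, zero_add]
  have h3 : ((s * 4 + f) * P + r) % P = r := by
    rw [add_comm, Nat.add_mul_mod_self_right, Nat.mod_eq_of_lt hr]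
  rw [h1, h2, h3]
  refine ⟨by omega, by omega, rfl, ?_⟩
  unfold pos
  omega

/-- a function of the four parts of a register number -/
def dec4 {T : Type} (P : ℕ) (g : ℕ → ℕ → ℕ → ℕ → T) (i : ℕ) : T :=
  g (i / 5 / P / 4) (i / 5 / P % 4) (i / 5 % P) (i % 5)

theorem dec4_pos {T : Type} {P s f r o : ℕ} (g : ℕ → ℕ → ℕ → ℕ → T) (hf : f < 4) (hr : r < P)
    (ho : o < 5) : dec4 P g (pos P s f r o) = g s f r o := by
  obtain ⟨h1, h2, h3, h4⟩ := pos_dec (s := s) hf hr ho
  rw [dec4, h1, h2, h3, h4]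

section Prog

variable {m : ℕ} {F : Type} [CommRing F]

/-- linear combination -/
def lin (l : List (F × ℕ)) : VIns m F := .inl (.inl l)

/-- shift -/
def shf (ω : Fin m) (a : ℕ) : VIns m F := .inl (.inr (.inl (ω, a)))

/-- public word -/
def pb (a : ℕ) : VIns m F := .inl (.inr (.inr a))

/-- product -/
def mul (a b : ℕ) : VIns m F := .inr (a, b)

/-- the instruction of the register `pos (2 ^ K) s f r o` -/
def insC (K L : ℕ) (dir : ℕ → Fin (m + 1)) (s f r o : ℕ) : VIns (m + 1) F :=
  if s = 0 then lin [(1, 0)]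
  else if s ≤ L then
    if o = 0 then pb (pos (2 ^ K) s f r 0)
    else if o = 1 then shf (dir (s - 1)) (pos (2 ^ K) (s - 1) f r 4)
    else if o = 2 then lin [(1, pos (2 ^ K) s f r 1), (-1, pos (2 ^ K) (s - 1) f r 4)]
    else if o = 3 then mul (pos (2 ^ K) s f r 0) (pos (2 ^ K) s f r 2)
    else lin [(1, pos (2 ^ K) (s - 1) f r 4), (1, pos (2 ^ K) s f r 3)]
  else if s = L + 1 then pb (pos (2 ^ K) s f r o)
  else if s ≤ L + 1 + K then
    if o = 0 then mul (pos (2 ^ K) (s - 1) f r 4) (pos (2 ^ K) L f (s - (L + 2)) 4)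
    else if r.testBit (s - (L + 2)) = true then lin [(1, pos (2 ^ K) s f r 0)]
    else lin [(1, pos (2 ^ K) (s - 1) f r 4), (-1, pos (2 ^ K) s f r 0)]
  else if s = L + K + 2 then
    lin ((List.range (2 ^ K)).map fun r' => (1, pos (2 ^ K) (L + 1 + K) f r' 4))
  else if f = 0 then
    if o = 0 then shf 0 (pos (2 ^ K) (L + K + 2) 3 0 0)
    else if o = 1 then lin [(1, pos (2 ^ K) (L + K + 2) 3 0 0), (1, pos (2 ^ K) s f r 0)]
    else if o = 2 then mul 0 0
    else lin [(1, pos (2 ^ K) s f r 2), (-1, 0)]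
  else if o = 0 then pb (pos (2 ^ K) s f r 0)
  else mul 0 (pos (2 ^ K) s f r 0)

/-- the machine -/
def vm (K L : ℕ) (dir : ℕ → Fin (m + 1)) : VM (m + 1) F where
  n := pos (2 ^ K) (L + K + 4) 0 0 0
  ins := dec4 (2 ^ K) (insC K L dir)
  zero i := decide (i = pos (2 ^ K) (L + K + 2) 0 0 0 ∨ i = pos (2 ^ K) (L + K + 3) 0 0 3 ∨
    i = pos (2 ^ K) (L + K + 3) 1 0 1)
  suc := pos (2 ^ K) (L + K + 2) 1 0 0
  pre := pos (2 ^ K) (L + K + 2) 2 0 0
  fst := pos (2 ^ K) (L + K + 3) 0 0 1

/-- the value of a bit in the ring -/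
def ind (b : Bool) : F := if b then 1 else 0

theorem ind_true : (ind true : F) = 1 := rfl

theorem ind_false : (ind false : F) = 0 := rfl

section Reg

variable (M : VM m F) (pub : ℕ → Gam m → F) (z : Gam m → F)

theorem reg_zero : M.reg pub z 0 = z := by
  rw [VM.reg, run_eq, if_pos Nat.one_pos]

theorem reg_eq {i : ℕ} (hi : 0 < i) :
    M.reg pub z i = (M.ins i).eval pub fun j => if j < i then M.reg pub z j else 0 := by
  rw [VM.reg, run_eq, if_neg (by omega)]

variable {M}

theorem reg_pb {i a : ℕ} (hi : 0 < i) (h : M.ins i = pb a) : M.reg pub z i = pub a := by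
  rw [reg_eq M pub z hi, h]
  rfl

theorem reg_shf {i a : ℕ} {ω : Fin m} (h : M.ins i = shf ω a) (ha : a < i) (ε : Gam m) :
    M.reg pub z i ε = M.reg pub z a (ε + eV ω) := by
  rw [reg_eq M pub z (by omega), h]
  simp only [shf, VIns.eval, LIns.eval, if_pos ha]

theorem reg_mul {i a b : ℕ} (h : M.ins i = mul a b) (ha : a < i) (hb : b < i) (ε : Gam m) :
    M.reg pub z i ε = M.reg pub z a ε * M.reg pub z b ε := by
  rw [reg_eq M pub z (by omega), h]
  simp only [mul, VIns.eval, if_pos ha, if_pos hb]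

theorem reg_lin {i : ℕ} {l : List (F × ℕ)} (hi : 0 < i) (h : M.ins i = lin l)
    (hl : ∀ c ∈ l, c.2 < i) (ε : Gam m) :
    M.reg pub z i ε = (l.map fun c => c.1 * M.reg pub z c.2 ε).sum := by
  rw [reg_eq M pub z hi, h]
  simp only [lin, VIns.eval, LIns.eval]
  exact congrArg List.sum (List.map_congr_left fun c hc => by rw [if_pos (hl c hc)])

theorem reg_lin1 {i a : ℕ} {c : F} (h : M.ins i = lin [(c, a)]) (ha : a < i) (ε : Gam m) :
    M.reg pub z i ε = c * M.reg pub z a ε := by
  rw [reg_lin pub z (by omega) h (by simpa using ha)]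
  simp

theorem reg_lin2 {i a b : ℕ} {c d : F} (h : M.ins i = lin [(c, a), (d, b)]) (ha : a < i)
    (hb : b < i) (ε : Gam m) :
    M.reg pub z i ε = c * M.reg pub z a ε + d * M.reg pub z b ε := by
  rw [reg_lin pub z (by omega) h (by simpa using ⟨ha, hb⟩)]
  simp

end Reg

variable {K L : ℕ} {dir : ℕ → Fin (m + 1)} (pub : ℕ → Gam (m + 1) → F) (z : Gam (m + 1) → F)

theorem ins_pos {s f r o : ℕ} (hf : f < 4) (hr : r < 2 ^ K) (ho : o < 5) :
    (vm K L dir : VM (m + 1) F).ins (pos (2 ^ K) s f r o) = insC K L dir s f r o :=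
  dec4_pos (insC K L dir) hf hr ho

/-- The routing lanes. -/
theorem reg_route {f r : ℕ} (hf : f < 4) (hr : r < 2 ^ K) (μ : ℕ → Gam (m + 1) → Bool)
    (hμ : ∀ t < L, pub (pos (2 ^ K) (t + 1) f r 0) = fun ε => ind (μ t ε)) {t : ℕ} (ht : t ≤ L) :
    (vm K L dir).reg pub z (pos (2 ^ K) t f r 4) =
      (List.range t).foldl (fun y i => layer (dir i) (μ i) y) z := by
  induction t with
  | zero =>
    funext ε
    rw [reg_lin1 pub z (a := 0) (c := 1) (by rw [ins_pos hf hr (by omega), insC, if_pos rfl])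
      (pos_pos (by omega) (Or.inr (by omega))), reg_zero, one_mul]
    rfl
  | succ t ih =>
    funext ε
    have h4 : ∀ o, pos (2 ^ K) t f r 4 < pos (2 ^ K) (t + 1) f r o := fun o =>
      pos_lt_step (by omega) hf hr (by omega)
    have e0 : (vm K L dir).reg pub z (pos (2 ^ K) (t + 1) f r 0) = fun ε => ind (μ t ε) := by
      rw [reg_pb pub z (pos_pos (by omega) (Or.inl (by omega))) (a := pos (2 ^ K) (t + 1) f r 0)
        (by rw [ins_pos hf hr (by omega), insC, if_neg (by omega), if_pos ht, if_pos rfl]),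
        hμ t (by omega)]
    have e1 := reg_shf pub z (M := vm K L dir) (i := pos (2 ^ K) (t + 1) f r 1)
      (a := pos (2 ^ K) t f r 4) (ω := dir t)
      (by rw [ins_pos hf hr (by omega), insC, if_neg (by omega), if_pos ht, if_neg (by omega),
        if_pos rfl]; rfl) (h4 1) ε
    have e2 := reg_lin2 pub z (M := vm K L dir) (i := pos (2 ^ K) (t + 1) f r 2)
      (a := pos (2 ^ K) (t + 1) f r 1) (b := pos (2 ^ K) t f r 4) (c := 1) (d := -1)
      (by rw [ins_pos hf hr (by omega), insC, if_neg (by omega), if_pos ht, if_neg (by omega),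
        if_neg (by omega), if_pos rfl]; rfl) (pos_lt_off (by omega)) (h4 2) ε
    have e3 := reg_mul pub z (M := vm K L dir) (i := pos (2 ^ K) (t + 1) f r 3)
      (a := pos (2 ^ K) (t + 1) f r 0) (b := pos (2 ^ K) (t + 1) f r 2)
      (by rw [ins_pos hf hr (by omega), insC, if_neg (by omega), if_pos ht, if_neg (by omega),
        if_neg (by omega), if_neg (by omega), if_pos rfl]) (pos_lt_off (by omega))
      (pos_lt_off (by omega)) ε
    have e4 := reg_lin2 pub z (M := vm K L dir) (i := pos (2 ^ K) (t + 1) f r 4)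
      (a := pos (2 ^ K) t f r 4) (b := pos (2 ^ K) (t + 1) f r 3) (c := 1) (d := 1)
      (by rw [ins_pos hf hr (by omega), insC, if_neg (by omega), if_pos ht, if_neg (by omega),
        if_neg (by omega), if_neg (by omega), if_neg (by omega)]; rfl) (h4 4)
      (pos_lt_off (by omega)) ε
    rw [e4, e3, e2, e1, e0, ih (by omega), List.range_succ, List.foldl_append, List.foldl_cons,
      List.foldl_nil, layer]
    cases h : μ t ε <;> simp [ind, h]

/-- The lanes of the products of literals. -/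
theorem reg_chain {f r : ℕ} (hf : f < 4) (hr : r < 2 ^ K) (ε : Gam (m + 1)) (a : ℕ → Bool)
    (ha : ∀ d < K, (vm K L dir).reg pub z (pos (2 ^ K) L f d 4) ε = ind (a d)) {j : ℕ}
    (hj : j ≤ K) :
    (vm K L dir).reg pub z (pos (2 ^ K) (L + 1 + j) f r 4) ε =
      if ∀ d < j, r.testBit d = a d then pub (pos (2 ^ K) (L + 1) f r 4) ε else 0 := by
  induction j with
  | zero =>
    rw [if_pos (by simp), reg_pb pub z (pos_pos (by omega) (Or.inl (by omega)))
      (a := pos (2 ^ K) (L + 1) f r 4)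
      (by rw [ins_pos hf hr (by omega), insC, if_neg (by omega), if_neg (by omega), if_pos rfl])]
  | succ j ih =>
    have hjK : j < 2 ^ K := lt_trans (by omega) Nat.lt_two_pow_self
    have h4 : ∀ o, pos (2 ^ K) (L + 1 + j) f r 4 < pos (2 ^ K) (L + 1 + (j + 1)) f r o := fun o =>
      pos_lt_step (by omega) hf hr (by omega)
    have hs : L + 1 + (j + 1) - (L + 2) = j := by omega
    have hs' : L + 1 + (j + 1) - 1 = L + 1 + j := by omega
    have e0 := reg_mul pub z (M := vm K L dir) (i := pos (2 ^ K) (L + 1 + (j + 1)) f r 0)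
      (a := pos (2 ^ K) (L + 1 + j) f r 4) (b := pos (2 ^ K) L f j 4)
      (by rw [ins_pos hf hr (by omega), insC, if_neg (by omega), if_neg (by omega),
        if_neg (by omega), if_pos (by omega), if_pos rfl, hs, hs']) (h4 0)
      (pos_lt_step (by omega) hf hjK (by omega)) ε
    rw [ha j (by omega), ih (by omega)] at e0
    have hall : (∀ d < j + 1, r.testBit d = a d) ↔
        (∀ d < j, r.testBit d = a d) ∧ r.testBit j = a j := Nat.forall_lt_succ_right
    by_cases hb : r.testBit j = true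
    · rw [reg_lin1 pub z (M := vm K L dir) (a := pos (2 ^ K) (L + 1 + (j + 1)) f r 0) (c := 1)
        (by rw [ins_pos hf hr (by omega), insC, if_neg (by omega), if_neg (by omega),
          if_neg (by omega), if_pos (by omega), if_neg (by omega), hs, if_pos hb])
        (pos_lt_off (by omega)), e0]
      simp only [hall, hb]
      cases a j <;> simp [ind]
    · rw [reg_lin2 pub z (M := vm K L dir) (a := pos (2 ^ K) (L + 1 + j) f r 4)
        (b := pos (2 ^ K) (L + 1 + (j + 1)) f r 0) (c := 1) (d := -1)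
        (by rw [ins_pos hf hr (by omega), insC, if_neg (by omega), if_neg (by omega),
          if_neg (by omega), if_pos (by omega), if_neg (by omega), hs, if_neg hb, hs'])
        (h4 4) (pos_lt_off (by omega)), e0, ih (by omega)]
      rw [Bool.not_eq_true] at hb
      simp only [hall, hb]
      by_cases hc : ∀ d < j, r.testBit d = a d
      · rw [if_pos hc]
        cases a j
        · rw [if_pos ⟨hc, rfl⟩]
          simp [ind]
        · simp [ind]
      · rw [if_neg hc, if_neg fun h => hc h.1]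
        simp

/-- The value of a family of rules. -/
theorem reg_out {f : ℕ} (hf : f < 4) (ε : Gam (m + 1)) (a : Fin K → Bool)
    (ha : ∀ d : Fin K, (vm K L dir).reg pub z (pos (2 ^ K) L f d 4) ε = ind (a d)) :
    (vm K L dir).reg pub z (pos (2 ^ K) (L + K + 2) f 0 0) ε =
      pub (pos (2 ^ K) (L + 1) f (Nat.ofBits a) 4) ε := by
  have hP : 0 < 2 ^ K := by positivity
  rw [reg_lin pub z (pos_pos hP (Or.inl (by omega)))
    (l := (List.range (2 ^ K)).map fun r' => (1, pos (2 ^ K) (L + 1 + K) f r' 4))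
    (by rw [ins_pos hf hP (by omega), insC, if_neg (by omega), if_neg (by omega),
      if_neg (by omega), if_neg (by omega), if_pos rfl])
    (by
      intro c hc
      obtain ⟨r, hr, rfl⟩ := List.mem_map.1 hc
      exact pos_lt_step (by omega) hf (List.mem_range.1 hr) (by omega)),
    List.map_map, sum_map_range, Finset.sum_eq_single (Nat.ofBits a)]
  · simp only [Function.comp, one_mul]
    rw [reg_chain pub z hf (Nat.ofBits_lt_two_pow a) ε (fun d => (Nat.ofBits a).testBit d)
      (fun d hd => by rw [ha ⟨d, hd⟩, Nat.testBit_ofBits_lt]) le_rfl, if_pos fun _ _ => rfl]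
  · intro r hr hne
    simp only [Function.comp, one_mul]
    rw [reg_chain pub z hf (Finset.mem_range.1 hr) ε (fun d => (Nat.ofBits a).testBit d)
      (fun d hd => by rw [ha ⟨d, hd⟩, Nat.testBit_ofBits_lt]) le_rfl, if_neg]
    intro h
    refine hne (Nat.eq_of_testBit_eq fun d => ?_)
    rcases lt_or_ge d K with hd | hd
    · exact h d hd
    · rw [Nat.testBit_ofBits_ge _ _ hd, Nat.testBit_lt_two_pow]
      exact (Finset.mem_range.1 hr).trans_le (Nat.pow_le_pow_right (by omega) hd)
  · intro h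
    exact absurd (Finset.mem_range.2 (Nat.ofBits_lt_two_pow a)) h

theorem reg_fst (ε : Gam (m + 1)) :
    (vm K L dir).reg pub z (vm K L dir : VM (m + 1) F).fst ε =
      (vm K L dir).reg pub z (pos (2 ^ K) (L + K + 2) 3 0 0) ε +
        (vm K L dir).reg pub z (pos (2 ^ K) (L + K + 2) 3 0 0) (ε + eV 0) := by
  have hP : 0 < 2 ^ K := by positivity
  have e0 := reg_shf pub z (M := vm K L dir) (i := pos (2 ^ K) (L + K + 3) 0 0 0)
    (a := pos (2 ^ K) (L + K + 2) 3 0 0) (ω := 0)
    (by rw [ins_pos (by omega) hP (by omega), insC, if_neg (by omega), if_neg (by omega),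
      if_neg (by omega), if_neg (by omega), if_neg (by omega), if_pos rfl, if_pos rfl])
    (pos_lt_step (by omega) (by omega) hP (by omega)) ε
  have e1 := reg_lin2 pub z (M := vm K L dir) (i := pos (2 ^ K) (L + K + 3) 0 0 1)
    (a := pos (2 ^ K) (L + K + 2) 3 0 0) (b := pos (2 ^ K) (L + K + 3) 0 0 0) (c := 1) (d := 1)
    (by rw [ins_pos (by omega) hP (by omega), insC, if_neg (by omega), if_neg (by omega),
      if_neg (by omega), if_neg (by omega), if_neg (by omega), if_pos rfl, if_neg (by omega),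
      if_pos rfl])
    (pos_lt_step (by omega) (by omega) hP (by omega)) (pos_lt_off (by omega)) ε
  rw [e0, one_mul, one_mul] at e1
  exact e1

theorem reg_sq (ε : Gam (m + 1)) :
    (vm K L dir).reg pub z (pos (2 ^ K) (L + K + 3) 0 0 3) ε = z ε * z ε - z ε := by
  have hP : 0 < 2 ^ K := by positivity
  have e0 := reg_mul pub z (M := vm K L dir) (i := pos (2 ^ K) (L + K + 3) 0 0 2) (a := 0) (b := 0)
    (by rw [ins_pos (by omega) hP (by omega), insC, if_neg (by omega), if_neg (by omega),
      if_neg (by omega), if_neg (by omega), if_neg (by omega), if_pos rfl, if_neg (by omega),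
      if_neg (by omega), if_pos rfl])
    (pos_pos hP (Or.inr (by omega))) (pos_pos hP (Or.inr (by omega))) ε
  have e1 := reg_lin2 pub z (M := vm K L dir) (i := pos (2 ^ K) (L + K + 3) 0 0 3)
    (a := pos (2 ^ K) (L + K + 3) 0 0 2) (b := 0) (c := 1) (d := -1)
    (by rw [ins_pos (by omega) hP (by omega), insC, if_neg (by omega), if_neg (by omega),
      if_neg (by omega), if_neg (by omega), if_neg (by omega), if_pos rfl, if_neg (by omega),
      if_neg (by omega), if_neg (by omega)])
    (pos_lt_off (by omega)) (pos_pos hP (Or.inr (by omega))) ε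
  rw [e1, e0, reg_zero]
  ring

theorem reg_supp (ε : Gam (m + 1)) :
    (vm K L dir).reg pub z (pos (2 ^ K) (L + K + 3) 1 0 1) ε =
      z ε * pub (pos (2 ^ K) (L + K + 3) 1 0 0) ε := by
  have hP : 0 < 2 ^ K := by positivity
  have e0 := reg_pb pub z (M := vm K L dir) (i := pos (2 ^ K) (L + K + 3) 1 0 0)
    (a := pos (2 ^ K) (L + K + 3) 1 0 0) (pos_pos hP (Or.inl (by omega)))
    (by rw [ins_pos (by omega) hP (by omega), insC, if_neg (by omega), if_neg (by omega),
      if_neg (by omega), if_neg (by omega), if_neg (by omega), if_neg (by omega), if_pos rfl])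
  rw [reg_mul pub z (M := vm K L dir) (a := 0) (b := pos (2 ^ K) (L + K + 3) 1 0 0)
    (by rw [ins_pos (by omega) hP (by omega), insC, if_neg (by omega), if_neg (by omega),
      if_neg (by omega), if_neg (by omega), if_neg (by omega), if_neg (by omega),
      if_neg (by omega)])
    (pos_pos hP (Or.inr (by omega))) (pos_lt_off (by omega)), e0, reg_zero]

theorem valid_iff : (vm K L dir).Valid pub z ↔
    (vm K L dir).reg pub z (pos (2 ^ K) (L + K + 2) 0 0 0) = 0 ∧ (∀ ε, z ε * z ε = z ε) ∧
      ∀ ε, z ε * pub (pos (2 ^ K) (L + K + 3) 1 0 0) ε = 0 := by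
  have hP : 0 < 2 ^ K := by positivity
  constructor
  · intro h
    refine ⟨h _ (pos_lt_step (by omega) (by omega) hP (by omega)) (by simp [vm]), fun ε => ?_,
      fun ε => ?_⟩
    · have := congrFun (h (pos (2 ^ K) (L + K + 3) 0 0 3)
        (pos_lt_step (by omega) (by omega) hP (by omega)) (by simp [vm])) ε
      rwa [reg_sq, Pi.zero_apply, sub_eq_zero] at this
    · have := congrFun (h (pos (2 ^ K) (L + K + 3) 1 0 1)
        (pos_lt_step (by omega) (by omega) hP (by omega)) (by simp [vm])) ε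
      rwa [reg_supp] at this
  · rintro ⟨h1, h2, h3⟩ i - hi
    simp only [vm, decide_eq_true_eq] at hi
    rcases hi with rfl | rfl | rfl
    · exact h1
    · funext ε
      rw [reg_sq, h2, sub_self, Pi.zero_apply]
    · funext ε
      rw [reg_supp, h3, Pi.zero_apply]

end Prog

/-! ### Polynomial time -/

section PT

variable {α : Type} [Enc α]

@[fun_prop]
theorem dpt_pos {P s f r o : α → ℕ} (hP : DPT P) (hs : DPT s) (hf : DPT f) (hr : DPT r)
    (ho : DPT o) : DPT fun a => pos (P a) (s a) (f a) (r a) (o a) := by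
  unfold pos
  fun_prop

@[fun_prop]
theorem pbd_pos {P s f r o : α → ℕ} (hP : PBd P) (hs : PBd s) (hf : PBd f) (hr : PBd r)
    (ho : PBd o) : PBd fun a => pos (P a) (s a) (f a) (r a) (o a) := by
  unfold pos
  fun_prop

variable {m p : α → ℕ} [∀ a, NeZero (p a)]

theorem dpt_lin {l : ∀ a, List (ZMod (p a) × ℕ)} (hl : DPT l) :
    DPT fun a => (lin (l a) : VIns (m a) (ZMod (p a))) := dpt_inl (dpt_inl hl)

theorem dpt_shf {ω : ∀ a, Fin (m a)} {i : α → ℕ} (hω : DPT ω) (hi : DPT i) :
    DPT fun a => (shf (ω a) (i a) : VIns (m a) (ZMod (p a))) :=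
  dpt_inl (dpt_inr (dpt_inl (hω.pair hi)))

theorem dpt_pb {i : α → ℕ} (hi : DPT i) : DPT fun a => (pb (i a) : VIns (m a) (ZMod (p a))) :=
  dpt_inl (dpt_inr (dpt_inr hi))

theorem dpt_mul {i j : α → ℕ} (hi : DPT i) (hj : DPT j) :
    DPT fun a => (mul (i a) (j a) : VIns (m a) (ZMod (p a))) := dpt_inr (hi.pair hj)

theorem dpt_insC (K : ℕ) {L s f r o : α → ℕ} {dir : ∀ a, ℕ → Fin (m a + 1)} (hp : DPT p)
    (hL : DPT L) (hs : DPT s) (hf : DPT f) (hr : DPT r) (ho : DPT o)
    (hd : DPT fun a => dir a (s a - 1)) :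
    DPT fun a => (insC K (L a) (dir a) (s a) (f a) (r a) (o a) : VIns (m a + 1) (ZMod (p a))) := by
  have hR := PTRing.zmod hp
  have h1 : DPT fun a => (1 : ZMod (p a)) := DPT.one hR
  have h2 : DPT fun a => (-1 : ZMod (p a)) := DPT.neg hR h1
  have h0 : DPT fun a => (0 : Fin (m a + 1)) := dpt_fin_of_val (DPT.const 0)
  have l1 : ∀ {i : α → ℕ}, DPT i → DPT fun a => (lin [(1, i a)] : VIns (m a + 1) (ZMod (p a))) :=
    fun hi => dpt_lin ((h1.pair hi).cons DPT.nil)
  have l2 : ∀ {i j : α → ℕ}, DPT i → DPT j →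
      DPT fun a => (lin [(1, i a), (1, j a)] : VIns (m a + 1) (ZMod (p a))) :=
    fun hi hj => dpt_lin ((h1.pair hi).cons ((h1.pair hj).cons DPT.nil))
  have l3 : ∀ {i j : α → ℕ}, DPT i → DPT j →
      DPT fun a => (lin [(1, i a), (-1, j a)] : VIns (m a + 1) (ZMod (p a))) :=
    fun hi hj => dpt_lin ((h1.pair hi).cons ((h2.pair hj).cons DPT.nil))
  unfold insC
  refine DPT.ite (by fun_prop) (l1 (by fun_prop)) (DPT.ite (by fun_prop) ?_
    (DPT.ite (by fun_prop) (dpt_pb (by fun_prop)) (DPT.ite (by fun_prop) ?_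
      (DPT.ite (by fun_prop) ?_ (DPT.ite (by fun_prop) ?_
        (DPT.ite (by fun_prop) (dpt_pb (by fun_prop)) (dpt_mul (by fun_prop) (by fun_prop))))))))
  · exact DPT.ite (by fun_prop) (dpt_pb (by fun_prop)) (DPT.ite (by fun_prop)
      (dpt_shf hd (by fun_prop)) (DPT.ite (by fun_prop) (l3 (by fun_prop) (by fun_prop))
        (DPT.ite (by fun_prop) (dpt_mul (by fun_prop) (by fun_prop))
          (l2 (by fun_prop) (by fun_prop)))))
  · exact DPT.ite (by fun_prop) (dpt_mul (by fun_prop) (by fun_prop))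
      (DPT.ite (by fun_prop) (l1 (by fun_prop)) (l3 (by fun_prop) (by fun_prop)))
  · exact dpt_lin (dpt_mapConst _ fun r' _ => h1.pair (by fun_prop))
  · exact DPT.ite (by fun_prop) (dpt_shf h0 (by fun_prop)) (DPT.ite (by fun_prop)
      (l2 (by fun_prop) (by fun_prop)) (DPT.ite (by fun_prop)
        (dpt_mul (by fun_prop) (by fun_prop)) (l3 (by fun_prop) (by fun_prop))))

end PT

end Vale.Agent.P330.Outer.VMP
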