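import Vale.Agent.P330.Outer.VMProg

/-!
P330, outer system: the public words of the vector machine of a local Boolean line system, and
the correspondence between the states.
-/

namespace Vale.Agent.P330.Outer.VMP

open Vale.Agent.Lib.PolyTime hiding C P
open Vale.Agent.Lib.Dep
open Vale.Agent.P330.Bohr

theorem eval0 {k : ℕ} {P A B : Type} (r : Rule 0 k P A B) (W : P → A) :
    r.eval noInp W = r.fn fun j => W (r.rd j).2 := by
  unfold Rule.eval
  congr 1
  funext j
  rcases h : (r.rd j).1 with _ | i
  · rfl
  · exact i.elim0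

theorem foldl_layer {m : ℕ} {W W' : Type} (g : W → W') (l : List ℕ) (dir : ℕ → Fin m)
    (μ : ℕ → Gam m → Bool) (b : Gam m → W) :
    l.foldl (fun y i => layer (dir i) (μ i) y) (fun ε => g (b ε)) =
      fun ε => g (l.foldl (fun y i => layer (dir i) (μ i) y) b ε) := by
  induction l generalizing b with
  | nil => rfl
  | cons i l ih =>
    rw [List.foldl_cons, List.foldl_cons, ← ih]
    congr 1
    funext ε
    simp only [layer]
    split_ifs <;> rfl

section Defs

variable {X : Type} [En X] {D : ℕ}

/-- the point of the cube which holds a variable -/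
noncomputable def emb (m : ℕ) (v : X) : Gam (m + 1) :=
  fun i => if (2 * eidx v).testBit i = true then 1 else 0

theorem emb_zero (m : ℕ) (v : X) : emb m v 0 = 0 := by
  simp [emb]

theorem emb_injective [Fintype X] {m : ℕ} (h : Fintype.card X ≤ 2 ^ m) :
    Function.Injective (emb m : X → Gam (m + 1)) := by
  intro v w hvw
  have hlt : ∀ u : X, 2 * eidx u < 2 ^ (m + 1) := fun u => by
    have := eidx_lt u
    rw [pow_succ]
    omega
  have h1 : 2 * eidx v = 2 * eidx w := by
    refine Nat.eq_of_testBit_eq fun i => ?_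
    rcases lt_or_ge i (m + 1) with hi | hi
    · have h2 := congrFun hvw ⟨i, hi⟩
      simp only [emb] at h2
      cases h3 : (2 * eidx v).testBit i <;> cases h4 : (2 * eidx w).testBit i <;>
        simp [h3, h4] at h2 ⊢
    · rw [Nat.testBit_lt_two_pow ((hlt v).trans_le (Nat.pow_le_pow_right (by omega) hi)),
        Nat.testBit_lt_two_pow ((hlt w).trans_le (Nat.pow_le_pow_right (by omega) hi))]
  exact eidx_injective (by omega)

/-- the variable at a point of the cube -/
noncomputable def inv {m : ℕ} (d : X) (ε : Gam (m + 1)) : X := firstD (fun v => emb m v = ε) d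

open Classical in
/-- the points which hold a variable -/
noncomputable def img (X : Type) [En X] {m : ℕ} (ε : Gam (m + 1)) : Bool :=
  decide (∃ v : X, emb m v = ε)

/-- the rules of the three families -/
def rl (M : LBL 0 0 D X) (f : ℕ) (v : X) : Rule 0 D X Bool Bool :=
  if f = 0 then M.val v else if f = 1 then M.suc v else M.pre v

/-- the variables which are read; the last one is the flag -/
def rdv (M : LBL 0 0 D X) (f : ℕ) (v : X) (r : ℕ) : X :=
  ((List.finRange D).map fun j => ((rl M f v).rd j).2).getD r M.first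

omit [En X] in
theorem rdv_lt (M : LBL 0 0 D X) (f : ℕ) (v : X) (j : Fin D) :
    rdv M f v j = ((rl M f v).rd j).2 := by
  rw [rdv, List.getD_eq_getElem _ _ (by simp)]
  simp

omit [En X] in
theorem rdv_last (M : LBL 0 0 D X) (f : ℕ) (v : X) : rdv M f v D = M.first :=
  List.getD_eq_default _ _ (by simp)

/-- the map which is realised by a routing lane -/
noncomputable def rho (M : LBL 0 0 D X) (m f r : ℕ) : Vec (Gam (m + 1)) (Gam (m + 1)) :=
  fun ε => emb m (rdv M f (inv M.first ε) r)

/-- the tables of the rules -/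
noncomputable def tab (M : LBL 0 0 D X) {m : ℕ} (f r : ℕ) (ε : Gam (m + 1)) : Bool :=
  if f = 3 then decide (ε 0 = 0) && r.testBit D
  else img X ε && xor (decide (f = 0)) ((rl M f (inv M.first ε)).fn fun j => r.testBit j)

/-- the bits of the public words -/
noncomputable def pubB (M : LBL 0 0 D X) {m : ℕ} (L : ℕ)
    (msk : Vec (Gam (m + 1)) (Gam (m + 1)) → ℕ → Gam (m + 1) → Bool) (ε : Gam (m + 1))
    (s f r : ℕ) : Bool :=
  if s = 0 then decide (emb m M.first = ε)
  else if s ≤ L then msk (rho M m f r) (s - 1) ε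
  else if s = L + 1 then tab M f r ε
  else !(img X ε)

/-- the public words -/
noncomputable def pub (F : Type) [CommRing F] (M : LBL 0 0 D X) {m : ℕ} (L : ℕ)
    (msk : Vec (Gam (m + 1)) (Gam (m + 1)) → ℕ → Gam (m + 1) → Bool) (i : ℕ) (ε : Gam (m + 1)) :
    F :=
  ind (decide (i < pos (2 ^ (D + 1)) (L + (D + 1) + 4) 0 0 0) &&
    dec4 (2 ^ (D + 1)) (fun s f r _ => pubB M L msk ε s f r) i)

/-- the bits of the code of a state -/
noncomputable def codeB (d : X) {m : ℕ} (x : X → Bool) (ε : Gam (m + 1)) : Bool :=
  img X ε && x (inv d ε)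

/-- the code of a state -/
noncomputable def code (F : Type) [CommRing F] (d : X) (m : ℕ) (x : X → Bool) :
    Gam (m + 1) → F := fun ε => ind (codeB d x ε)

end Defs

section Sem

variable {X : Type} [En X] {D m L : ℕ} {F : Type} [CommRing F] {M : LBL 0 0 D X}
  {dir : ℕ → Fin (m + 1)} {msk : Vec (Gam (m + 1)) (Gam (m + 1)) → ℕ → Gam (m + 1) → Bool}

theorem img_emb (v : X) : img X (emb m v) = true := by
  simp only [img, decide_eq_true_eq]
  exact ⟨v, rfl⟩

theorem img_cases (ε : Gam (m + 1)) : img X ε = false ∨ ∃ v : X, emb m v = ε := by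
  by_cases h : ∃ v : X, emb m v = ε
  · exact Or.inr h
  · exact Or.inl (by simp only [img, decide_eq_false_iff_not]; exact h)

theorem inv_emb (hi : Function.Injective (emb m : X → Gam (m + 1))) (d v : X) :
    inv d (emb m v) = v := firstD_eq (q := fun w => emb m w = emb m v) rfl (fun _ h => hi h) d

theorem codeB_emb (hi : Function.Injective (emb m : X → Gam (m + 1))) (d : X) (x : X → Bool)
    (v : X) : codeB d x (emb m v) = x v := by
  rw [codeB, img_emb, inv_emb hi, Bool.true_and]

theorem ind_injective [Nontrivial F] : Function.Injective (ind : Bool → F) := by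
  intro a b h
  cases a <;> cases b <;> simp [ind] at h ⊢

theorem code_injective [Nontrivial F] (hi : Function.Injective (emb m : X → Gam (m + 1))) (d : X) :
    Function.Injective (code F d m : (X → Bool) → _) := by
  intro x y h
  funext v
  have h1 := ind_injective (congrFun h (emb m v))
  rwa [codeB_emb hi, codeB_emb hi] at h1

theorem code_false (d : X) : code F d m (fun _ => false) = 0 := by
  funext ε
  simp [code, codeB, ind]

theorem pub_pos {s f r o : ℕ} (hs : s < L + (D + 1) + 4) (hf : f < 4) (hr : r < 2 ^ (D + 1))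
    (ho : o < 5) (ε : Gam (m + 1)) :
    pub F M L msk (pos (2 ^ (D + 1)) s f r o) ε = ind (pubB M L msk ε s f r) := by
  rw [pub, decide_eq_true (pos_lt_step hs hf hr ho), Bool.true_and, dec4_pos _ hf hr ho]

omit [En X] in
theorem start_eq [DecidableEq X] (v : X) : M.start noSym v = decide (v = M.first) := by
  simp [LBL.start]

omit [En X] in
theorem start_first : M.start noSym M.first = true := by
  simp [LBL.start]

theorem pub_zero (hi : Function.Injective (emb m : X → Gam (m + 1))) :
    pub F M L msk 0 = code F M.first m (M.start noSym) := by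
  classical
  funext ε
  have h := pub_pos (F := F) (M := M) (L := L) (msk := msk) (s := 0) (f := 0) (r := 0) (o := 0)
    (by omega) (by omega) (by positivity) (by omega) ε
  rw [show pos (2 ^ (D + 1)) 0 0 0 0 = 0 by simp [pos]] at h
  rw [h, pubB, if_pos rfl, code]
  congr 1
  rcases img_cases (X := X) ε with h1 | ⟨v, rfl⟩
  · rw [codeB, h1, Bool.false_and, decide_eq_false]
    rintro rfl
    rw [img_emb] at h1
    exact absurd h1 (by simp)
  · rw [codeB_emb hi, start_eq, decide_eq_decide, hi.eq_iff, eq_comm]

/-- the routing property -/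
def Routes (L : ℕ) (dir : ℕ → Fin (m + 1))
    (msk : Vec (Gam (m + 1)) (Gam (m + 1)) → ℕ → Gam (m + 1) → Bool) : Prop :=
  ∀ (f : Vec (Gam (m + 1)) (Gam (m + 1))) (W : Type) (x : Gam (m + 1) → W) (ε : Gam (m + 1)),
    (∀ ε', f ε' 0 = 0) → ε 0 = 0 →
      (List.range L).foldl (fun y i => layer (dir i) (msk f i) y) x ε = x (f ε)

/-- The value of a family on a word of bits. -/
theorem out_ind (hR : Routes L dir msk) (b : Gam (m + 1) → Bool) {f : ℕ} (hf : f < 4)
    (ε : Gam (m + 1)) : ∃ r, (ε 0 = 0 → ∀ d ≤ D, r.testBit d = b (rho M m f d ε)) ∧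
      (vm (D + 1) L dir).reg (pub F M L msk) (fun ε => ind (b ε))
        (pos (2 ^ (D + 1)) (L + (D + 1) + 2) f 0 0) ε = ind (tab M f r ε) := by
  let a : Fin (D + 1) → Bool := fun d =>
    (List.range L).foldl (fun y i => layer (dir i) (msk (rho M m f d) i) y) b ε
  refine ⟨Nat.ofBits a, fun h0 d hd => ?_, ?_⟩
  · rw [Nat.testBit_ofBits_lt _ _ (by omega)]
    exact hR _ _ _ _ (fun _ => emb_zero _ _) h0
  · rw [reg_out _ _ hf ε a fun d => ?_, pub_pos (by omega) hf (Nat.ofBits_lt_two_pow a) (by omega),
      pubB, if_neg (by omega), if_neg (by omega), if_pos rfl]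
    have hd : (d : ℕ) < 2 ^ (D + 1) := d.2.trans Nat.lt_two_pow_self
    rw [reg_route _ _ hf hd (msk (rho M m f d)) (fun t ht => ?_) le_rfl, foldl_layer]
    funext ε'
    rw [pub_pos (by omega) hf hd (by omega), pubB, if_neg (by omega), if_pos (by omega),
      Nat.add_sub_cancel]

theorem out_rule (hi : Function.Injective (emb m : X → Gam (m + 1))) (hR : Routes L dir msk)
    (x : X → Bool) {f : ℕ} (hf : f < 3) :
    (vm (D + 1) L dir).reg (pub F M L msk) (code F M.first m x)
        (pos (2 ^ (D + 1)) (L + (D + 1) + 2) f 0 0) =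
      code F M.first m fun v => xor (decide (f = 0)) ((rl M f v).eval noInp x) := by
  funext ε
  obtain ⟨r, h1, h2⟩ := out_ind (F := F) (M := M) hR (codeB M.first x) (f := f) (by omega) ε
  refine h2.trans (congrArg ind ?_)
  rw [tab, if_neg (by omega), codeB]
  rcases img_cases (X := X) ε with h3 | ⟨v, rfl⟩
  · rw [h3, Bool.false_and, Bool.false_and]
  · rw [eval0]
    congr 3
    funext j
    rw [h1 (emb_zero _ _) j j.2.le, rho, codeB_emb hi, rdv_lt]

theorem out_flag (hi : Function.Injective (emb m : X → Gam (m + 1))) (hR : Routes L dir msk)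
    (x : X → Bool) (ε : Gam (m + 1)) :
    (vm (D + 1) L dir).reg (pub F M L msk) (code F M.first m x)
        (pos (2 ^ (D + 1)) (L + (D + 1) + 2) 3 0 0) ε =
      ind (decide (ε 0 = 0) && x M.first) := by
  obtain ⟨r, h1, h2⟩ := out_ind (F := F) (M := M) hR (codeB M.first x) (f := 3) (by omega) ε
  refine h2.trans (congrArg ind ?_)
  rw [tab, if_pos rfl]
  by_cases h : ε 0 = 0
  · rw [h1 h D le_rfl, rho, codeB_emb hi, rdv_last]
  · rw [decide_eq_false h, Bool.false_and, Bool.false_and]

theorem fst_code (hi : Function.Injective (emb m : X → Gam (m + 1))) (hR : Routes L dir msk)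
    (x : X → Bool) :
    (vm (D + 1) L dir).reg (pub F M L msk) (code F M.first m x)
      (vm (D + 1) L dir : VM (m + 1) F).fst = fun _ => ind (x M.first) := by
  funext ε
  rw [reg_fst, out_flag hi hR, out_flag hi hR]
  have h1 : (ε + eV 0 : Gam (m + 1)) 0 = ε 0 + 1 := by
    change ε 0 + eV 0 0 = _
    rw [eV, if_pos rfl]
  rw [h1]
  generalize ε 0 = t
  have h2 : ∀ t : ZMod 2, t = 0 ∨ t = 1 := by decide
  have h3 : (1 + 1 : ZMod 2) = 0 := by decide
  rcases h2 t with rfl | rfl <;> simp [ind, h3]

theorem pub_supp (ε : Gam (m + 1)) :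
    pub F M L msk (pos (2 ^ (D + 1)) (L + (D + 1) + 3) 1 0 0) ε = ind (!(img X ε)) := by
  rw [pub_pos (by omega) (by omega) (by positivity) (by omega), pubB, if_neg (by omega),
    if_neg (by omega), if_neg (by omega)]

theorem valid_code [Nontrivial F] (hi : Function.Injective (emb m : X → Gam (m + 1)))
    (hR : Routes L dir msk) (x : X → Bool) :
    (vm (D + 1) L dir).Valid (pub F M L msk) (code F M.first m x) ↔ M.Valid noSym x := by
  rw [valid_iff, out_rule hi hR x (by omega), ← code_false M.first,
    (code_injective hi M.first).eq_iff]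
  constructor
  · rintro ⟨h, -, -⟩
    refine ⟨fun v => ?_, fun j => j.elim0⟩
    simpa [rl] using congrFun h v
  · intro h
    refine ⟨funext fun v => by simpa [rl] using h.1 v, fun ε => ?_, fun ε => ?_⟩
    · rw [code]
      cases codeB M.first x ε <;> simp [ind]
    · rw [pub_supp, code, codeB]
      cases img X ε <;> simp [ind]

theorem exists_code [IsDomain F] (hi : Function.Injective (emb m : X → Gam (m + 1)))
    {z : Gam (m + 1) → F} (hz : (vm (D + 1) L dir).Valid (pub F M L msk) z) :
    ∃ x, z = code F M.first m x := by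
  classical
  obtain ⟨-, h1, h2⟩ := (valid_iff _ _).1 hz
  refine ⟨fun v => decide (z (emb m v) = 1), funext fun ε => ?_⟩
  rcases img_cases (X := X) ε with h3 | ⟨v, rfl⟩
  · have h4 := h2 ε
    rw [pub_supp, h3] at h4
    rw [code, codeB, h3]
    simpa [ind] using h4
  · rw [code, codeB_emb hi]
    rcases mul_left_eq_self₀.1 (h1 (emb m v)) with h | h <;> simp [ind, h]

theorem step_code [Nontrivial F] (hi : Function.Injective (emb m : X → Gam (m + 1)))
    (hR : Routes L dir msk) {x x' : X → Bool} (h : M.Step noSym x x') :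
    (vm (D + 1) L dir).Step (pub F M L msk) (code F M.first m x) (code F M.first m x') := by
  obtain ⟨h1, h2, -, h4, h5, h6⟩ := h
  refine ⟨(valid_code hi hR x).2 h1, (valid_code hi hR x').2 h2, fun h => ?_, ?_, ?_⟩
  · rw [pub_zero hi, (code_injective hi M.first).eq_iff] at h
    rw [h, start_first] at h4
    exact absurd h4 (by simp)
  · refine Eq.trans ?_ (out_rule hi hR x (f := 1) (by omega)).symm
    exact congrArg _ (funext fun v => by simp [rl, h5])
  · refine Eq.trans ?_ (out_rule hi hR x' (f := 2) (by omega)).symm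
    exact congrArg _ (funext fun v => by simp [rl, h6])

theorem vm_ok [IsDomain F] (hi : Function.Injective (emb m : X → Gam (m + 1)))
    (hR : Routes L dir msk) (hM : M.WF noSym) : (vm (D + 1) L dir).Ok (pub F M L msk) where
  pos := pos_pos (by positivity) (Or.inl (by omega))
  suc := pos_lt_step (by omega) (by omega) (by positivity) (by omega)
  pre := pos_lt_step (by omega) (by omega) (by positivity) (by omega)
  fst := pos_lt_step (by omega) (by omega) (by positivity) (by omega)
  pubz i h := by
    funext ε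
    have h1 : ¬ i < pos (2 ^ (D + 1)) (L + (D + 1) + 4) 0 0 0 := not_lt.2 h
    rw [pub, decide_eq_false h1, Bool.false_and]
    rfl
  start := by
    rw [pub_zero hi]
    exact (valid_code hi hR _).2 hM.valid
  flag1 := by
    rw [pub_zero hi, fst_code hi hR, start_first]
    rfl
  flag0 z hz hne := by
    obtain ⟨x, rfl⟩ := exists_code hi hz
    rw [fst_code hi hR]
    cases h : x M.first
    · rfl
    · rw [pub_zero hi, hM.uniq x ((valid_code hi hR x).1 hz) h] at hne
      exact absurd rfl hne

theorem vm_end [IsDomain F] [DecidableEq F] (hi : Function.Injective (emb m : X → Gam (m + 1)))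
    (hR : Routes L dir msk) {z : Gam (m + 1) → F}
    (hz : (vm (D + 1) L dir).End (pub F M L msk) z) :
    M.End noSym fun v => decide (z (emb m v) = 1) := by
  obtain ⟨x, rfl⟩ := exists_code hi hz.1
  have h0 : (fun v => decide (code F M.first m x (emb m v) = 1)) = x := by
    funext v
    rw [code, codeB_emb hi]
    cases x v <;> simp [ind]
  rw [h0]
  refine ⟨(valid_code hi hR x).1 hz.1, hz.2.imp (fun h ⟨x', h'⟩ => h ⟨_, step_code hi hR h'⟩)
    fun h => ⟨fun h1 => h.1 ?_, fun ⟨x', h'⟩ => h.2 ⟨_, step_code hi hR h'⟩⟩⟩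
  rw [pub_zero hi, h1]

end Sem

end Vale.Agent.P330.Outer.VMP
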